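import Mathlib

/-!
# Linear differential equations with parameters

Global existence for `z' = A p t z` by the Peano-Baker series, joint continuity in the parameter
and the time, and uniqueness, on a Banach space.
-/

namespace Vale.Agent.P225.Full.ParamODE

open MeasureTheory Filter Topology Set

variable {W : Type*} [NormedAddCommGroup W] [NormedSpace ℝ W]
variable {Q : Type*} [TopologicalSpace Q]

/-- The terms of the Peano-Baker series. -/
noncomputable def term (A : Q → ℝ → W →L[ℝ] W) (z₀ : Q → W) : ℕ → Q → ℝ → W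
  | 0 => fun p _ => z₀ p
  | n + 1 => fun p t => ∫ u in (0 : ℝ)..t, A p u (term A z₀ n p u)

variable {A : Q → ℝ → W →L[ℝ] W} {z₀ : Q → W}

lemma continuous_term (hA : Continuous fun q : Q × ℝ => A q.1 q.2) (hz : Continuous z₀) :
    ∀ n, Continuous fun q : Q × ℝ => term A z₀ n q.1 q.2
  | 0 => hz.comp continuous_fst
  | n + 1 => by
    have h : Continuous fun q : (Q × ℝ) × ℝ => A q.1.1 q.2 (term A z₀ n q.1.1 q.2) :=
      (hA.comp ((continuous_fst.comp continuous_fst).prodMk continuous_snd)).clm_apply
        ((continuous_term hA hz n).comp ((continuous_fst.comp continuous_fst).prodMk continuous_snd))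
    exact intervalIntegral.continuous_parametric_intervalIntegral_of_continuous
      (f := fun (q : Q × ℝ) u => A q.1 u (term A z₀ n q.1 u)) h continuous_snd

/-- The solution is the sum of the series. -/
noncomputable def sol (A : Q → ℝ → W →L[ℝ] W) (z₀ : Q → W) (p : Q) (t : ℝ) : W :=
  ∑' n, term A z₀ n p t

lemma hasDerivAt_term [CompleteSpace W] (hA : Continuous fun q : Q × ℝ => A q.1 q.2)
    (hz : Continuous z₀) (n : ℕ) (p : Q) (t : ℝ) :
    HasDerivAt (fun s => term A z₀ (n + 1) p s) (A p t (term A z₀ n p t)) t := by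
  have h : Continuous fun u => A p u (term A z₀ n p u) :=
    (hA.comp (Continuous.prodMk_right p)).clm_apply
      ((continuous_term hA hz n).comp (Continuous.prodMk_right p))
  exact intervalIntegral.integral_hasDerivAt_right (h.intervalIntegrable _ _)
    h.stronglyMeasurable.stronglyMeasurableAtFilter h.continuousAt

lemma norm_term_le [CompleteSpace W] (hA : Continuous fun q : Q × ℝ => A q.1 q.2)
    (hz : Continuous z₀) (p : Q) {T C : ℝ} (hC : ∀ u ∈ Icc (-T) T, ‖A p u‖ ≤ C) :
    ∀ n, ∀ t ∈ Icc (-T) T, ‖term A z₀ n p t‖ ≤ ‖z₀ p‖ * (C * |t|) ^ n / n.factorial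
  | 0, t, _ => by simp [term]
  | n + 1, t, ht => by
    have h0 : (0 : ℝ) ∈ Icc (-T) T := ⟨by linarith [ht.1, ht.2], by linarith [ht.1, ht.2]⟩
    have hC0 : 0 ≤ C := (norm_nonneg _).trans (hC 0 h0)
    have hsub : uIcc 0 t ⊆ Icc (-T) T := uIcc_subset_Icc h0 ht
    have hbound : ∀ u ∈ uIcc 0 t, ‖A p u (term A z₀ n p u)‖ ≤
        C * (‖z₀ p‖ * (C * |u|) ^ n / n.factorial) := fun u hu =>
      ((A p u).le_opNorm _).trans (mul_le_mul (hC u (hsub hu))
        (norm_term_le hA hz p hC n u (hsub hu)) (norm_nonneg _) hC0)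
    have key : |∫ u in (0 : ℝ)..t, C * (‖z₀ p‖ * (C * |u|) ^ n / n.factorial)| =
        ‖z₀ p‖ * (C * |t|) ^ (n + 1) / (n + 1).factorial := by
      rcases le_total 0 t with h | h
      · rw [abs_of_nonneg h, intervalIntegral.integral_congr (g := fun u =>
          C * ‖z₀ p‖ * C ^ n / n.factorial * u ^ n), intervalIntegral.integral_const_mul,
          integral_pow, zero_pow (Nat.succ_ne_zero n), sub_zero, abs_of_nonneg (by positivity)]
        · simp only [Nat.factorial_succ, Nat.cast_mul, Nat.cast_add, Nat.cast_one, pow_succ, mul_pow]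
          field_simp
        · intro u hu
          rw [uIcc_of_le h] at hu
          simp only [abs_of_nonneg hu.1, mul_pow]
          ring
      · rw [abs_of_nonpos h, intervalIntegral.integral_symm, intervalIntegral.integral_congr
          (g := fun u => C * ‖z₀ p‖ * C ^ n / n.factorial * (-1) ^ n * u ^ n),
          intervalIntegral.integral_const_mul, integral_pow]
        · rw [abs_neg, show C * ‖z₀ p‖ * C ^ n / n.factorial * (-1) ^ n *
              (((0 : ℝ) ^ (n + 1) - t ^ (n + 1)) / (n + 1)) =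
              C * ‖z₀ p‖ * C ^ n / n.factorial * ((-t) ^ (n + 1) / (n + 1)) by
            rw [neg_pow t (n + 1)]; ring, abs_of_nonneg (by
              have : 0 ≤ -t := by linarith
              positivity)]
          simp only [Nat.factorial_succ, Nat.cast_mul, Nat.cast_add, Nat.cast_one, pow_succ,
            mul_pow]
          field_simp
        · intro u hu
          rw [uIcc_of_le h] at hu
          simp only [abs_of_nonpos hu.2, mul_pow, neg_pow u n]
          ring
    rw [← key]
    refine intervalIntegral.norm_integral_le_abs_of_norm_le (ae_restrict_mem measurableSet_uIoc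
      |>.mono fun u hu => hbound u (uIoc_subset_uIcc hu)) ?_
    exact Continuous.intervalIntegrable (by fun_prop) _ _

/-- The series converges to a solution of `z' = A p t z` with initial value `z₀ p`. -/
theorem hasDerivAt_sol [CompleteSpace W] (hA : Continuous fun q : Q × ℝ => A q.1 q.2)
    (hz : Continuous z₀) (p : Q) (t : ℝ) :
    HasDerivAt (sol A z₀ p) (A p t (sol A z₀ p t)) t := by
  set T := |t| + 1 with hT
  obtain ⟨C, hC⟩ := (isCompact_Icc (a := -T) (b := T)).exists_bound_of_continuousOn
    (hA.comp (Continuous.prodMk_right p)).continuousOn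
  have hT0 : (0 : ℝ) ∈ Icc (-T) T := ⟨by linarith [abs_nonneg t], by linarith [abs_nonneg t]⟩
  have hC0 : 0 ≤ C := (norm_nonneg _).trans (hC 0 hT0)
  have hu : Summable fun n : ℕ => ‖z₀ p‖ * (C * T) ^ n / n.factorial := by
    simpa [mul_div_assoc] using (Real.summable_pow_div_factorial (C * T)).mul_left ‖z₀ p‖
  have hb : ∀ n, ∀ s ∈ Ioo (-T) T, ‖term A z₀ n p s‖ ≤ ‖z₀ p‖ * (C * T) ^ n / n.factorial := by
    intro n s hs
    refine (norm_term_le hA hz p hC n s (Ioo_subset_Icc_self hs)).trans ?_
    have hs' : |s| ≤ T := abs_le.2 ⟨hs.1.le, hs.2.le⟩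
    gcongr
  -- derivatives of the terms
  have hd : ∀ n, ∀ s ∈ Ioo (-T) T, HasDerivAt (fun s => term A z₀ n p s)
      (if n = 0 then 0 else A p s (term A z₀ (n - 1) p s)) s := by
    intro n s _
    rcases n with - | n
    · simpa [term] using hasDerivAt_const s (z₀ p)
    · simpa using hasDerivAt_term hA hz n p s
  have hbd : ∀ n, ∀ s ∈ Ioo (-T) T, ‖(if n = 0 then 0 else A p s (term A z₀ (n - 1) p s))‖ ≤
      if n = 0 then 0 else C * (‖z₀ p‖ * (C * T) ^ (n - 1) / (n - 1).factorial) := by
    intro n s hs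
    split_ifs
    · simp
    · exact ((A p s).le_opNorm _).trans (mul_le_mul (hC s (Ioo_subset_Icc_self hs))
        (hb _ s hs) (norm_nonneg _) hC0)
  have hsum : Summable fun n : ℕ =>
      if n = 0 then (0 : ℝ) else C * (‖z₀ p‖ * (C * T) ^ (n - 1) / (n - 1).factorial) := by
    rw [← summable_nat_add_iff 1]
    simpa using hu.mul_left C
  have ht : t ∈ Ioo (-T) T :=
    ⟨by linarith [neg_abs_le t], by linarith [le_abs_self t]⟩
  have hts : Summable fun n => term A z₀ n p t :=
    Summable.of_norm_bounded hu fun n => hb n t ht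
  have h := hasDerivAt_tsum_of_isPreconnected hsum isOpen_Ioo isPreconnected_Ioo hd hbd ht hts ht
  refine h.congr_deriv ?_
  have hts2 : Summable fun n => if n = 0 then (0 : W) else A p t (term A z₀ (n - 1) p t) :=
    Summable.of_norm_bounded hsum fun n => hbd n t ht
  rw [hts2.tsum_eq_zero_add]
  simp only [if_true, zero_add, Nat.succ_ne_zero, if_false, Nat.add_sub_cancel]
  exact ((A p t).map_tsum hts).symm

lemma term_zero_time (p : Q) : ∀ n, term A z₀ (n + 1) p 0 = 0 := fun n => by simp [term]

theorem sol_zero (p : Q) : sol A z₀ p 0 = z₀ p := by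
  rw [sol, tsum_eq_single 0 fun n hn => ?_]
  · rfl
  · obtain ⟨k, rfl⟩ := Nat.exists_eq_succ_of_ne_zero hn
    exact term_zero_time p k

/-- The solution is continuous in the parameter and the time together. -/
theorem continuous_sol [CompleteSpace W] [LocallyCompactSpace Q]
    (hA : Continuous fun q : Q × ℝ => A q.1 q.2) (hz : Continuous z₀) :
    Continuous fun q : Q × ℝ => sol A z₀ q.1 q.2 := by
  rw [continuous_iff_continuousAt]
  rintro ⟨p, t⟩
  obtain ⟨K, hK, hKp⟩ := exists_compact_mem_nhds p
  set T := |t| + 1 with hT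
  have hKI : IsCompact (K ×ˢ Icc (-T) T) := hK.prod isCompact_Icc
  obtain ⟨C, hC⟩ := hKI.exists_bound_of_continuousOn hA.continuousOn
  obtain ⟨D, hD⟩ := hK.exists_bound_of_continuousOn hz.continuousOn
  have hC0 : 0 ≤ C := (norm_nonneg _).trans (hC (p, 0) ⟨mem_of_mem_nhds hKp,
    by linarith [abs_nonneg t], by linarith [abs_nonneg t]⟩)
  have hD0 : 0 ≤ D := (norm_nonneg _).trans (hD p (mem_of_mem_nhds hKp))
  have hu : Summable fun n : ℕ => D * (C * T) ^ n / n.factorial := by
    simpa [mul_div_assoc] using (Real.summable_pow_div_factorial (C * T)).mul_left D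
  have hcont : ContinuousOn (fun q : Q × ℝ => sol A z₀ q.1 q.2) (K ×ˢ Icc (-T) T) := by
    refine continuousOn_tsum (fun n => (continuous_term hA hz n).continuousOn) hu ?_
    rintro n ⟨q, s⟩ ⟨hq, hs⟩
    refine (norm_term_le hA hz q (fun u hu => hC (q, u) ⟨hq, hu⟩) n s hs).trans ?_
    have hs' : |s| ≤ T := abs_le.2 hs
    have := hD q hq
    gcongr
  refine hcont.continuousAt (prod_mem_nhds hKp (Icc_mem_nhds ?_ ?_))
  · linarith [neg_abs_le t]
  · linarith [le_abs_self t]

/-- Uniqueness of solutions forwards in time. -/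
theorem eqOn_of_deriv {A : ℝ → W →L[ℝ] W} (hA : Continuous A) {f g : ℝ → W} {T : ℝ}
    (hf : ∀ t ∈ Icc (0 : ℝ) T, HasDerivAt f (A t (f t)) t)
    (hg : ∀ t ∈ Icc (0 : ℝ) T, HasDerivAt g (A t (g t)) t) (h0 : f 0 = g 0) :
    EqOn f g (Icc 0 T) := by
  obtain ⟨C, hC⟩ := (isCompact_Icc (a := (0 : ℝ)) (b := T)).exists_bound_of_continuousOn
    hA.continuousOn
  refine ODE_solution_unique_of_mem_Icc_right (v := fun t x => A t x) (s := fun _ => univ)
    (K := C.toNNReal) (fun t ht => ?_) (fun t ht => (hf t ht).continuousAt.continuousWithinAt)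
    (fun t ht => (hf t (Ico_subset_Icc_self ht)).hasDerivWithinAt) (fun _ _ => trivial)
    (fun t ht => (hg t ht).continuousAt.continuousWithinAt)
    (fun t ht => (hg t (Ico_subset_Icc_self ht)).hasDerivWithinAt) (fun _ _ => trivial) h0
  refine LipschitzWith.lipschitzOnWith ?_
  refine (A t).lipschitz.weaken ?_
  rw [← NNReal.coe_le_coe, coe_nnnorm]
  exact (hC t (Ico_subset_Icc_self ht)).trans (le_max_left _ _)

end Vale.Agent.P225.Full.ParamODE
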