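import Vale.Agent.P225.Full.Scalar
import Vale.Agent.P225.Full.ParamODE

/-! # Attraction of the logarithmic derivative, and linear second order systems -/

namespace Vale.Agent.P225.Full

open Set Real Filter Topology

theorem ratioNear : Spec.RatioNear := by
  intro a b c₀ γ η c M y hab hγ hη hηc hy hc _ heq hb hya hy'a
  have h := IsScalarSol.of_contDiff hy heq
  have hpos := h.pos hc (fun t ht => (hb t ht).2.1) hya hy'a
  have hyd : ∀ t ∈ Icc a b, y a ≤ y t := fun t ht =>
    mono_of_deriv_nonneg (fun s hs => (h s hs).1) (fun s hs => (hpos s (Ioo_subset_Icc_self hs)).2)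
      (left_mem_Icc.2 hab) ht ht.1
  set κ := c₀ - η with hκdef
  have hκ : 0 < κ := by linarith
  set G := (1 + γ) * η with hGdef
  have hG0 : 0 ≤ G := mul_nonneg (by linarith) hη
  -- the damping rate, continuous on the whole line
  set k : ℝ → ℝ := fun t => deriv y t / max (y t) (y a) + γ + c t with hk
  have hkc : Continuous k :=
    (((hy.continuous_deriv (by norm_num)).div (hy.continuous.max continuous_const)
      fun t => (lt_max_of_lt_right hya).ne').add continuous_const).add hc
  set v : ℝ → ℝ := fun t => deriv y t / y t - γ with hv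
  set V := |v a| with hV
  set w : ℝ → ℝ := fun t => V * exp (-κ * (t - a)) + G / κ with hw
  have hwd : ∀ t, HasDerivAt w (V * (exp (-κ * (t - a)) * -κ)) t := fun t => by
    have he : HasDerivAt (fun t => exp (-κ * (t - a))) (exp (-κ * (t - a)) * -κ) t := by
      simpa using (((hasDerivAt_id t).sub_const a).const_mul (-κ)).exp
    exact (he.const_mul V).add_const _
  have hvd : ∀ t ∈ Icc a b, HasDerivWithinAt v
      ((M t - γ * (γ + c₀) - (c t - c₀) * γ) - k t * v t) (Icc a b) t := fun t ht => by
    have hy0 := (hpos t ht).1.ne'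
    refine (((h t ht).2.div (h t ht).1 hy0).sub_const γ).congr_deriv ?_
    simp only [hk, hv, max_eq_left (hyd t ht)]
    field_simp
    ring
  have main : ∀ σ : ℝ, |σ| = 1 → MonotoneOn (fun t => ifac a k t * (w t - σ * v t)) (Icc a b) := by
    intro σ hσ
    refine mono_of_deriv_nonneg (f' := fun t => ifac a k t * k t * (w t - σ * v t) +
      ifac a k t * (V * (exp (-κ * (t - a)) * -κ) -
        σ * ((M t - γ * (γ + c₀) - (c t - c₀) * γ) - k t * v t)))
      (fun t ht => (hasDerivAt_ifac hkc a t).hasDerivWithinAt.mul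
        ((hwd t).hasDerivWithinAt.sub ((hvd t ht).const_mul σ))) fun t ht => ?_
    have ht' := Ioo_subset_Icc_self ht
    obtain ⟨hct, -, hMt⟩ := hb t ht'
    have hs : 0 ≤ deriv y t / max (y t) (y a) :=
      div_nonneg (hpos t ht').2 (lt_max_of_lt_right hya).le
    have hkκ : κ ≤ k t := by
      simp only [hk, hκdef]
      linarith [(abs_le.1 hct).1]
    have hforce : σ * (M t - γ * (γ + c₀) - (c t - c₀) * γ) ≤ G := by
      refine (le_abs_self _).trans ?_
      rw [abs_mul, hσ, one_mul]
      refine (abs_sub _ _).trans ?_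
      rw [abs_mul, abs_of_nonneg hγ, hGdef]
      linarith [mul_le_mul_of_nonneg_right hct hγ]
    have hw0 : 0 ≤ w t := add_nonneg (mul_nonneg (abs_nonneg _) (exp_pos _).le)
      (div_nonneg hG0 hκ.le)
    have hwk : w t * κ = V * exp (-κ * (t - a)) * κ + G := by
      simp only [hw]
      rw [add_mul, div_mul_cancel₀ _ hκ.ne']
    have key : 0 ≤ k t * w t + V * (exp (-κ * (t - a)) * -κ) -
        σ * (M t - γ * (γ + c₀) - (c t - c₀) * γ) := by
      linarith [mul_le_mul_of_nonneg_right hkκ hw0]
    have := mul_nonneg (ifac_pos a k t).le key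
    linarith
  have ha := left_mem_Icc.2 hab
  have hb' := right_mem_Icc.2 hab
  have hwa : 0 ≤ w a - v a ∧ 0 ≤ w a + v a := by
    have : 0 ≤ G / κ := div_nonneg hG0 hκ.le
    simp only [hw, sub_self, mul_zero, exp_zero, mul_one, hV]
    constructor <;> linarith [le_abs_self (v a), neg_abs_le (v a)]
  have h1 := main 1 (by simp) ha hb' hab
  have h2 := main (-1) (by simp) ha hb' hab
  simp only [ifac_self, one_mul, neg_one_mul, sub_neg_eq_add] at h1 h2
  have e1 := (mul_nonneg_iff_of_pos_left (ifac_pos a k b)).1 (hwa.1.trans h1)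
  have e2 := (mul_nonneg_iff_of_pos_left (ifac_pos a k b)).1 (hwa.2.trans h2)
  show |v b| ≤ V * exp (-κ * (b - a)) + G / κ
  rw [abs_le]
  simp only [hw] at e1 e2
  constructor <;> linarith

/-! ## Linear systems -/

variable {D : ℕ}

/-- the first order operator of `y'' + c y' = M y` -/
noncomputable def sysOp (c : ℝ → ℝ) (M : ℝ → Matrix (Fin D) (Fin D) ℝ) (t : ℝ) :
    ((Fin D → ℝ) × (Fin D → ℝ)) →L[ℝ] ((Fin D → ℝ) × (Fin D → ℝ)) :=
  LinearMap.toContinuousLinearMap
    ((LinearMap.snd ℝ _ _).prod
      ((Matrix.mulVecLin (M t)).comp (LinearMap.fst ℝ _ _) - c t • LinearMap.snd ℝ _ _))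

theorem sysOp_apply (c : ℝ → ℝ) (M : ℝ → Matrix (Fin D) (Fin D) ℝ) (t : ℝ)
    (z : (Fin D → ℝ) × (Fin D → ℝ)) :
    sysOp c M t z = (z.2, fun a => (∑ i, M t a i * z.1 i) - c t * z.2 a) := rfl

theorem continuous_sysOp {c : ℝ → ℝ} {M : ℝ → Matrix (Fin D) (Fin D) ℝ} (hc : Continuous c)
    (hM : ∀ a i, Continuous fun t => M t a i) : Continuous (sysOp c M) := by
  refine continuous_clm_apply.2 fun z => ?_
  simp only [sysOp_apply]
  exact continuous_const.prodMk (continuous_pi fun a =>
    (continuous_finsetSum _ fun i _ => (hM a i).mul continuous_const).sub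
      (hc.mul continuous_const))

theorem norm_sysOp_le {c : ℝ → ℝ} {M : ℝ → Matrix (Fin D) (Fin D) ℝ} {t B : ℝ} (hB : 1 ≤ B)
    (hc : |c t| ≤ B) (hM : ∀ a i, |M t a i| ≤ B) (z : (Fin D → ℝ) × (Fin D → ℝ)) :
    ‖sysOp c M t z‖ ≤ ((D : ℝ) + 1) * B * ‖z‖ := by
  have h1 : ∀ a, |z.1 a| ≤ ‖z‖ := fun a =>
    ((Real.norm_eq_abs _).symm.trans_le (norm_le_pi_norm z.1 a)).trans (norm_fst_le z)
  have h2 : ∀ a, |z.2 a| ≤ ‖z‖ := fun a =>
    ((Real.norm_eq_abs _).symm.trans_le (norm_le_pi_norm z.2 a)).trans (norm_snd_le z)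
  have hz := norm_nonneg z
  have hL : (1 : ℝ) ≤ ((D : ℝ) + 1) * B :=
    one_le_mul_of_one_le_of_one_le (le_add_of_nonneg_left (Nat.cast_nonneg D)) hB
  rw [sysOp_apply]
  refine max_le ((norm_snd_le z).trans (le_mul_of_one_le_left hz hL)) ?_
  refine (pi_norm_le_iff_of_nonneg (by positivity)).2 fun a => ?_
  rw [Real.norm_eq_abs]
  refine (abs_sub _ _).trans ?_
  have e1 : |∑ i, M t a i * z.1 i| ≤ D * (B * ‖z‖) := by
    refine (Finset.abs_sum_le_sum_abs _ _).trans ((Finset.sum_le_sum (g := fun _ => B * ‖z‖)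
      fun i _ => ?_).trans (by simp))
    rw [abs_mul]
    exact mul_le_mul (hM a i) (h1 i) (abs_nonneg _) (by linarith)
  have e2 : |c t * z.2 a| ≤ B * ‖z‖ := by
    rw [abs_mul]
    exact mul_le_mul hc (h2 a) (abs_nonneg _) (by linarith)
  linarith

/-- a solution of the second order system, in first order form -/
theorem hasDerivAt_pair {c : ℝ → ℝ} {M : ℝ → Matrix (Fin D) (Fin D) ℝ} {y : ℝ → Fin D → ℝ}
    (hy : ∀ a, ContDiff ℝ 2 fun t => y t a) {t : ℝ}
    (h : ∀ a, deriv (deriv fun s => y s a) t + c t * deriv (fun s => y s a) t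
      = ∑ i, M t a i * y t i) :
    HasDerivAt (fun s => (y s, fun a => deriv (fun r => y r a) s))
      (sysOp c M t (y t, fun a => deriv (fun r => y r a) t)) t := by
  have hd : ∀ a, ContDiff ℝ 1 (deriv fun s => y s a) := fun a => by
    have := hy a
    rw [show (2 : WithTop ℕ∞) = 1 + 1 from rfl, contDiff_succ_iff_deriv] at this
    exact this.2.2
  rw [sysOp_apply]
  refine HasDerivAt.prodMk (hasDerivAt_pi.2 fun a =>
    (((hy a).differentiable two_ne_zero).differentiableAt (x := t)).hasDerivAt)
    (hasDerivAt_pi.2 fun a => ?_)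
  have h2 := (((hd a).differentiable one_ne_zero).differentiableAt (x := t)).hasDerivAt
  rwa [show deriv (deriv fun s => y s a) t = (∑ i, M t a i * y t i)
    - c t * deriv (fun s => y s a) t by linarith [h a]] at h2

theorem linODE : Spec.LinODE := by
  intro D c M hc hM
  have hA := continuous_sysOp hc.continuous fun a i => (hM a i).continuous
  refine ⟨fun t₀ y₀ y₁ => ?_, fun t₀ t₁ B y ht hB hy hbd heq a => ?_,
    fun t₀ t₁ y z hy hz heq h0 a t ht => ?_⟩
  · -- existence
    let A : Unit → ℝ → ((Fin D → ℝ) × (Fin D → ℝ)) →L[ℝ] ((Fin D → ℝ) × (Fin D → ℝ)) :=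
      fun _ u => sysOp c M (u + t₀)
    have hA' : Continuous fun q : Unit × ℝ => A q.1 q.2 :=
      hA.comp (continuous_snd.add continuous_const)
    set Z := ParamODE.sol A (fun _ => (y₀, y₁)) () with hZ
    have hd : ∀ t, HasDerivAt (fun s => Z (s - t₀)) (sysOp c M t (Z (t - t₀))) t := by
      intro t
      have h := (ParamODE.hasDerivAt_sol hA' (continuous_const (y := (y₀, y₁))) () (t - t₀)).comp_sub_const t t₀
      simpa [A, hZ] using h
    have h1 : ∀ a t, HasDerivAt (fun s => (Z (s - t₀)).1 a) ((Z (t - t₀)).2 a) t := fun a t => by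
      have := hasDerivAt_pi.1 (hd t).fst a
      simpa [sysOp_apply] using this
    have h2 : ∀ a t, HasDerivAt (fun s => (Z (s - t₀)).2 a)
        ((∑ i, M t a i * (Z (t - t₀)).1 i) - c t * (Z (t - t₀)).2 a) t := fun a t => by
      have := hasDerivAt_pi.1 (hd t).snd a
      simpa [sysOp_apply] using this
    have hn : ∀ n : ℕ, ∀ a, ContDiff ℝ n (fun s => (Z (s - t₀)).1 a) ∧
        ContDiff ℝ n (fun s => (Z (s - t₀)).2 a) := by
      intro n
      induction n with
      | zero =>
          intro a
          rw [Nat.cast_zero, contDiff_zero, contDiff_zero]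
          exact ⟨continuous_iff_continuousAt.2 fun t => (h1 a t).continuousAt,
            continuous_iff_continuousAt.2 fun t => (h2 a t).continuousAt⟩
      | succ n ih =>
          intro a
          have hnn : ((n : WithTop ℕ∞)) ≤ ((⊤ : ℕ∞) : WithTop ℕ∞) := by
            exact_mod_cast le_top
          refine ⟨?_, ?_⟩ <;> rw [Nat.cast_succ, contDiff_succ_iff_deriv]
          · refine ⟨fun t => (h1 a t).differentiableAt, by simp, ?_⟩
            rw [show deriv (fun s => (Z (s - t₀)).1 a) = fun s => (Z (s - t₀)).2 a from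
              funext fun t => (h1 a t).deriv]
            exact (ih a).2
          · refine ⟨fun t => (h2 a t).differentiableAt, by simp, ?_⟩
            rw [show deriv (fun s => (Z (s - t₀)).2 a) = fun t =>
              (∑ i, M t a i * (Z (t - t₀)).1 i) - c t * (Z (t - t₀)).2 a from
              funext fun t => (h2 a t).deriv]
            exact (ContDiff.sum fun i _ => ((hM a i).of_le hnn).mul (ih i).1).sub
              ((hc.of_le hnn).mul (ih a).2)
    refine ⟨fun t => (Z (t - t₀)).1, fun a => contDiff_infty.2 fun n => (hn n a).1,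
      fun a => ⟨?_, ?_⟩, fun a t => ?_⟩
    · simp [hZ, ParamODE.sol_zero]
    · rw [(h1 a t₀).deriv, sub_self, hZ, ParamODE.sol_zero]
    · rw [show deriv (fun s => (Z (s - t₀)).1 a) = fun s => (Z (s - t₀)).2 a from
        funext fun t => (h1 a t).deriv, (h2 a t).deriv]
      ring
  · -- the bound
    set L := ((D : ℝ) + 1) * B with hLdef
    have hL : (1 : ℝ) ≤ L :=
      one_le_mul_of_one_le_of_one_le (le_add_of_nonneg_left (Nat.cast_nonneg D)) hB
    set p : ℝ → (Fin D → ℝ) × (Fin D → ℝ) :=
      fun s => (y s, fun a => deriv (fun r => y r a) s) with hp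
    have hpd : ∀ t ∈ Icc t₀ t₁, HasDerivAt p (sysOp c M t (p t)) t := fun t ht =>
      hasDerivAt_pair hy fun a => heq a t ht
    set S := ∑ i, (|y t₀ i| + |deriv (fun s => y s i) t₀|) with hS
    have hS0 : 0 ≤ S := Finset.sum_nonneg fun i _ => add_nonneg (abs_nonneg _) (abs_nonneg _)
    have hSa : ∀ i, |y t₀ i| + |deriv (fun s => y s i) t₀| ≤ S := fun i =>
      Finset.single_le_sum (f := fun i => |y t₀ i| + |deriv (fun s => y s i) t₀|)
        (fun i _ => add_nonneg (abs_nonneg _) (abs_nonneg _)) (Finset.mem_univ i)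
    have hp0 : ‖p t₀‖ ≤ S := by
      refine max_le ((pi_norm_le_iff_of_nonneg hS0).2 fun i => ?_)
        ((pi_norm_le_iff_of_nonneg hS0).2 fun i => ?_) <;> simp only [hp, Real.norm_eq_abs]
      · linarith [hSa i, abs_nonneg (deriv (fun s => y s i) t₀)]
      · linarith [hSa i, abs_nonneg (y t₀ i)]
    have hnorm : ∀ t ∈ Icc t₀ t₁, ‖p t‖ ≤ S * exp (L * (t - t₀)) := fun t ht => by
      have hg := norm_le_gronwallBound_of_norm_deriv_right_le (f := p)
        (f' := fun s => sysOp c M s (p s)) (δ := S) (K := L) (ε := 0)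
        (fun s hs => (hpd s hs).continuousAt.continuousWithinAt)
        (fun s hs => (hpd s (Ico_subset_Icc_self hs)).hasDerivWithinAt) hp0
        (fun s hs => by
          rw [add_zero]
          exact norm_sysOp_le hB (hbd s (Ico_subset_Icc_self hs)).1
            (hbd s (Ico_subset_Icc_self hs)).2 _) t ht
      rwa [gronwallBound_ε0] at hg
    have key : ∀ σ τ : ℝ, |σ| = 1 → |τ| = 1 →
        σ * y t₁ a + τ * deriv (fun s => y s a) t₁ ≤
          |y t₀ a| + |deriv (fun s => y s a) t₀| + 2 * S * (exp (L * (t₁ - t₀)) - 1) := by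
      intro σ τ hσ hτ
      have hm : MonotoneOn (fun t => 2 * S * exp (L * (t - t₀)) - (σ * (p t).1 a + τ * (p t).2 a))
          (Icc t₀ t₁) := by
        refine mono_of_deriv_nonneg (f' := fun t => 2 * S * (exp (L * (t - t₀)) * L)
          - (σ * (sysOp c M t (p t)).1 a + τ * (sysOp c M t (p t)).2 a)) (fun t ht => ?_) fun t ht => ?_
        · have he : HasDerivAt (fun t => exp (L * (t - t₀))) (exp (L * (t - t₀)) * L) t := by
            simpa using (((hasDerivAt_id t).sub_const t₀).const_mul L).exp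
          exact ((he.const_mul _).sub (((hasDerivAt_pi.1 (hpd t ht).fst a).const_mul σ).add
            ((hasDerivAt_pi.1 (hpd t ht).snd a).const_mul τ))).hasDerivWithinAt
        · have ht' := Ioo_subset_Icc_self ht
          have hn := norm_sysOp_le hB (hbd t ht').1 (hbd t ht').2 (p t)
          have a1 : σ * (sysOp c M t (p t)).1 a ≤ L * ‖p t‖ := (le_abs_self _).trans (by
            rw [abs_mul, hσ, one_mul, ← Real.norm_eq_abs]
            exact ((norm_le_pi_norm _ a).trans (norm_fst_le _)).trans hn)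
          have a2 : τ * (sysOp c M t (p t)).2 a ≤ L * ‖p t‖ := (le_abs_self _).trans (by
            rw [abs_mul, hτ, one_mul, ← Real.norm_eq_abs]
            exact ((norm_le_pi_norm _ a).trans (norm_snd_le _)).trans hn)
          have a3 := mul_le_mul_of_nonneg_left (hnorm t ht') (show (0 : ℝ) ≤ L by linarith)
          linarith
      have h1 := hm (left_mem_Icc.2 ht) (right_mem_Icc.2 ht) ht
      simp only [sub_self, mul_zero, exp_zero, mul_one, hp] at h1
      have b1 : σ * y t₀ a ≤ |y t₀ a| := (le_abs_self _).trans (by rw [abs_mul, hσ, one_mul])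
      have b2 : τ * deriv (fun s => y s a) t₀ ≤ |deriv (fun s => y s a) t₀| :=
        (le_abs_self _).trans (by rw [abs_mul, hτ, one_mul])
      linarith
    have hfin : |y t₁ a| + |deriv (fun s => y s a) t₁|
        ≤ S + 2 * S * (exp (L * (t₁ - t₀)) - 1) := by
      have hSa' := hSa a
      rcases abs_choice (y t₁ a) with e1 | e1 <;>
        rcases abs_choice (deriv (fun s => y s a) t₁) with e2 | e2 <;> rw [e1, e2]
      · linarith [key 1 1 (by simp) (by simp)]
      · linarith [key 1 (-1) (by simp) (by simp)]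
      · linarith [key (-1) 1 (by simp) (by simp)]
      · linarith [key (-1) (-1) (by simp) (by simp)]
    refine hfin.trans ?_
    rw [show 2 * ((D : ℝ) + 1) * B * (t₁ - t₀) = L * (t₁ - t₀) + L * (t₁ - t₀) by rw [hLdef]; ring,
      exp_add]
    linarith [mul_nonneg hS0 (mul_self_nonneg (exp (L * (t₁ - t₀)) - 1))]
  · -- uniqueness
    obtain ⟨C, hC⟩ := (isCompact_uIcc (a := t₀) (b := t₁)).exists_bound_of_continuousOn
      hA.continuousOn
    have hlip : ∀ s ∈ uIcc t₀ t₁, LipschitzWith C.toNNReal (sysOp c M s) := fun s hs => by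
      refine (sysOp c M s).lipschitz.weaken ?_
      rw [← NNReal.coe_le_coe, coe_nnnorm]
      exact (hC s hs).trans (le_max_left _ _)
    set p : ℝ → (Fin D → ℝ) × (Fin D → ℝ) :=
      fun s => (y s, fun a => deriv (fun r => y r a) s) with hp
    set q : ℝ → (Fin D → ℝ) × (Fin D → ℝ) :=
      fun s => (z s, fun a => deriv (fun r => z r a) s) with hq
    have hpd : ∀ s ∈ uIcc t₀ t₁, HasDerivAt p (sysOp c M s (p s)) s := fun s hs =>
      hasDerivAt_pair hy fun a => (heq a s hs).1
    have hqd : ∀ s ∈ uIcc t₀ t₁, HasDerivAt q (sysOp c M s (q s)) s := fun s hs =>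
      hasDerivAt_pair hz fun a => (heq a s hs).2
    have he : p t₀ = q t₀ := Prod.ext (funext fun a => (h0 a).1) (funext fun a => (h0 a).2)
    have hpq : p t = q t := by
      rcases le_total t₀ t₁ with hle | hle
      · rw [uIcc_of_le hle] at ht hlip hpd hqd
        exact ODE_solution_unique_of_mem_Icc_right (s := fun _ => univ)
          (fun s hs => (hlip s (Ico_subset_Icc_self hs)).lipschitzOnWith)
          (fun s hs => (hpd s hs).continuousAt.continuousWithinAt)
          (fun s hs => (hpd s (Ico_subset_Icc_self hs)).hasDerivWithinAt) (fun _ _ => mem_univ _)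
          (fun s hs => (hqd s hs).continuousAt.continuousWithinAt)
          (fun s hs => (hqd s (Ico_subset_Icc_self hs)).hasDerivWithinAt) (fun _ _ => mem_univ _)
          he ht
      · rw [uIcc_of_ge hle] at ht hlip hpd hqd
        exact ODE_solution_unique_of_mem_Icc_left (s := fun _ => univ)
          (fun s hs => (hlip s (Ioc_subset_Icc_self hs)).lipschitzOnWith)
          (fun s hs => (hpd s hs).continuousAt.continuousWithinAt)
          (fun s hs => (hpd s (Ioc_subset_Icc_self hs)).hasDerivWithinAt) (fun _ _ => mem_univ _)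
          (fun s hs => (hqd s hs).continuousAt.continuousWithinAt)
          (fun s hs => (hqd s (Ioc_subset_Icc_self hs)).hasDerivWithinAt) (fun _ _ => mem_univ _)
          he ht
    exact congrFun (congrArg Prod.fst hpq) a

end Vale.Agent.P225.Full
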