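import Vale.Agent.P225.Full.AsmSpec
import Vale.Agent.P225.Full.RatioLin

/-! # The positive increasing solution of the round radial equation -/

namespace Vale.Agent.P225.Full

open Filter Topology Real Set

theorem pinfC_neg : pinfC < 0 := margins_C.1

theorem contDiff_sig {p t0 : ℝ} (ht0 : 0 < t0) : ContDiff ℝ (⊤ : ℕ∞) (Prof.sig p t0) :=
  contDiff_const.mul (smoothTransition.contDiff.mul
    ((contDiff_const.add (Prof.contDiff_eta.div_const _)).rpow_const_of_ne
      fun t => (Prof.base_pos ht0 t).ne'))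

theorem sig_of_nonpos {p t0 t : ℝ} (ht : t ≤ 0) : Prof.sig p t0 t = 0 := by
  simp [Prof.sig, smoothTransition.zero_of_nonpos ht]

theorem tendsto_sig {p t0 : ℝ} (ht0 : 0 < t0) : Tendsto (Prof.sig p t0) atTop (𝓝 0) := by
  have h1 : Tendsto Prof.eta atTop atTop :=
    tendsto_atTop_mono' _ ((eventually_ge_atTop 1).mono fun t ht => Prof.le_eta ht)
      (tendsto_id.atTop_add (tendsto_const_nhds (x := (-1 : ℝ))))
  have h2 := (tendsto_rpow_neg_atTop (show (0 : ℝ) < 7 / 6 by norm_num)).comp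
    (tendsto_atTop_add_const_left atTop 1 (h1.atTop_div_const ht0))
  have h3 := h2.const_mul (-p / (6 * t0))
  rw [mul_zero] at h3
  refine h3.congr' ((eventually_ge_atTop 1).mono fun t ht => ?_)
  simp [Prof.sig, smoothTransition.one_of_one_le ht]

namespace Asm

theorem contDiff_drift0 {t0 : ℝ} (ht0 : 0 < t0) : ContDiff ℝ (⊤ : ℕ∞) (drift0 t0) :=
  contDiff_const.sub (contDiff_const.mul (contDiff_sig ht0))

theorem drift0_of_nonpos {t0 t : ℝ} (ht : t ≤ 0) : drift0 t0 t = 2 * (Spec.mC : ℝ) := by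
  simp [drift0, sig_of_nonpos ht]

theorem tendsto_drift0 {t0 : ℝ} (ht0 : 0 < t0) :
    Tendsto (drift0 t0) atTop (𝓝 (2 * (Spec.mC : ℝ))) := by
  have := ((tendsto_sig (p := pinfC) ht0).const_mul (2 * (Spec.mC : ℝ) + 1)).const_sub
    (2 * (Spec.mC : ℝ))
  rw [mul_zero, sub_zero] at this
  exact this

theorem lamR_eq_mul (l : ℕ) : lamR l = (l : ℝ) * ((l : ℝ) + 2 * Spec.mC) := by
  simp only [lamR, sphEig, Nat.cast_add, Nat.cast_mul, Nat.cast_ofNat]
  ring

theorem lamR_nonneg_round (l : ℕ) : 0 ≤ lamR l := by rw [lamR_eq_mul]; positivity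

theorem gammaR_nonneg (l : ℕ) : 0 ≤ gammaR l := by
  have h : 0 ≤ lamR l * exp (-2 * pinfC) := mul_nonneg (lamR_nonneg_round l) (exp_pos _).le
  unfold gammaR Spec.expo
  refine div_nonneg (sub_nonneg.2 ?_) zero_le_two
  exact Real.le_sqrt_of_sq_le (by linarith)

theorem gammaR_mul (l : ℕ) :
    gammaR l * (gammaR l + 2 * (Spec.mC : ℝ)) = lamR l * exp (-2 * pinfC) := by
  have h : 0 ≤ lamR l * exp (-2 * pinfC) := mul_nonneg (lamR_nonneg_round l) (exp_pos _).le
  have hs := Real.mul_self_sqrt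
    (show (0 : ℝ) ≤ (2 * (Spec.mC : ℝ)) ^ 2 + 4 * (lamR l * exp (-2 * pinfC)) by positivity)
  simp only [gammaR, Spec.expo]
  linear_combination hs / 4

/-- The coefficient of the round equation. -/
noncomputable def roundCoef (t0 : ℝ) (l : ℕ) (t : ℝ) : ℝ :=
  exp (-2 * Prof.psi pinfC t0 t) * lamR l

theorem contDiff_roundCoef {t0 : ℝ} (ht0 : 0 < t0) (l : ℕ) :
    ContDiff ℝ (⊤ : ℕ∞) (roundCoef t0 l) :=
  (contDiff_const.mul (Prof.contDiff_psi ht0)).exp.mul contDiff_const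

theorem roundCoef_nonneg (t0 : ℝ) (l : ℕ) (t : ℝ) : 0 ≤ roundCoef t0 l t :=
  mul_nonneg (exp_pos _).le (lamR_nonneg_round l)

theorem tendsto_roundCoef {t0 : ℝ} (ht0 : 0 < t0) (l : ℕ) :
    Tendsto (roundCoef t0 l) atTop (𝓝 (gammaR l * (gammaR l + 2 * (Spec.mC : ℝ)))) := by
  rw [gammaR_mul, mul_comm]
  exact ((continuous_exp.tendsto _).comp
    ((Prof.tendsto_psi (p := pinfC) ht0).const_mul (-2))).mul_const _

/-- Derivative of the exponential solution. -/
theorem deriv_exp_linear (a t : ℝ) : deriv (fun s => exp (a * s)) t = a * exp (a * t) := by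
  simpa [mul_comm] using (((hasDerivAt_id t).const_mul a).exp).deriv

/-- A nonzero global solution with the given data at `0`. -/
theorem exists_roundSolution {t0 : ℝ} (ht0 : 0 < t0) (l : ℕ) :
    ∃ U : ℝ → ℝ, ContDiff ℝ (⊤ : ℕ∞) U ∧ deriv U 0 = l ∧
      (∀ t, deriv (deriv U) t + drift0 t0 t * deriv U t = roundCoef t0 l t * U t) ∧
      ∀ t ≤ 0, U t = exp (l * t) := by
  obtain ⟨hex, -, huniq⟩ := linODE 1 (drift0 t0) (fun t _ _ => roundCoef t0 l t)
    (contDiff_drift0 ht0) fun _ _ => contDiff_roundCoef ht0 l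
  obtain ⟨y, hy, hinit, heq⟩ := hex 0 (fun _ => 1) fun _ => (l : ℝ)
  refine ⟨fun t => y t 0, hy 0, (hinit 0).2, fun t => by simpa using heq 0 t, fun t ht => ?_⟩
  have h1 : ∀ s, HasDerivAt (fun s => exp ((l : ℝ) * s)) ((l : ℝ) * exp ((l : ℝ) * s)) s := fun s => by
    simpa [mul_comm] using ((hasDerivAt_id s).const_mul (l : ℝ)).exp
  have hd : deriv (fun s => exp ((l : ℝ) * s)) = fun s => (l : ℝ) * exp ((l : ℝ) * s) :=
    funext fun s => (h1 s).deriv
  refine huniq 0 t y (fun s _ => exp ((l : ℝ) * s))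
    (fun a => contDiff_infty.1 (hy a) 2)
    (fun _ => (contDiff_const.mul contDiff_id).exp) (fun a s hs => ⟨heq a s, ?_⟩)
    (fun a => ⟨by simp [(hinit a).1], by simp [(hinit a).2, hd]⟩) 0 t right_mem_uIcc
  rw [uIcc_of_ge ht] at hs
  rw [hd, ((h1 s).const_mul (l : ℝ)).deriv]
  simp only [Finset.univ_unique, Finset.sum_singleton, roundCoef, Prof.psi_of_nonpos hs.2,
    drift0_of_nonpos hs.2, lamR_eq_mul, mul_zero, exp_zero]
  ring

/-- Positivity and monotonicity. -/
theorem roundSolution_pos {t0 : ℝ} (ht0 : 0 < t0) {l : ℕ} {U : ℝ → ℝ}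
    (hU : ContDiff ℝ (⊤ : ℕ∞) U) (hU0 : deriv U 0 = l)
    (heq : ∀ t, deriv (deriv U) t + drift0 t0 t * deriv U t = roundCoef t0 l t * U t)
    (hneg : ∀ t ≤ 0, U t = exp (l * t)) (t : ℝ) : 0 < U t ∧ 0 ≤ deriv U t := by
  rcases lt_or_ge t 0 with ht | ht
  · refine ⟨hneg t ht.le ▸ exp_pos _, ?_⟩
    have h : U =ᶠ[𝓝 t] fun s => exp ((l : ℝ) * s) :=
      (eventually_lt_nhds ht).mono fun s hs => hneg s hs.le
    rw [h.deriv_eq, deriv_exp_linear]
    positivity
  · have h0 : U 0 = 1 := by simpa using hneg 0 le_rfl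
    exact (IsScalarSol.of_contDiff (contDiff_infty.1 hU 2)
      fun s (_ : s ∈ Icc 0 t) => heq s).pos (contDiff_drift0 ht0).continuous
      (fun s _ => roundCoef_nonneg t0 l s) (h0 ▸ one_pos) (hU0 ▸ l.cast_nonneg) t
      (right_mem_Icc.2 ht)

/-- The logarithmic derivative tends to the limiting exponent. -/
theorem tendsto_ratio {t0 : ℝ} (ht0 : 0 < t0) {l : ℕ} {U : ℝ → ℝ}
    (hU : ContDiff ℝ (⊤ : ℕ∞) U)
    (heq : ∀ t, deriv (deriv U) t + drift0 t0 t * deriv U t = roundCoef t0 l t * U t)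
    (hpos : ∀ t, 0 < U t ∧ 0 ≤ deriv U t) :
    Tendsto (fun t => deriv U t / U t) atTop (𝓝 (gammaR l)) := by
  set γ := gammaR l
  have hγ : 0 ≤ γ := gammaR_nonneg l
  have hm : (Spec.mC : ℝ) = 16 := by norm_num [Spec.mC]
  refine Metric.tendsto_atTop.2 fun ε hε => ?_
  set η := min 1 (ε / (4 * (1 + γ))) with hη
  have hη0 : 0 < η := lt_min one_pos (by positivity)
  have hη1 : η ≤ 1 := min_le_left _ _
  have hηε : (1 + γ) * η ≤ ε / 4 :=
    (mul_le_mul_of_nonneg_left (min_le_right _ _) (by positivity)).trans_eq (by field_simp)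
  obtain ⟨T1, hT1⟩ := Metric.tendsto_atTop.1 (tendsto_drift0 ht0) η hη0
  obtain ⟨T2, hT2⟩ := Metric.tendsto_atTop.1 (tendsto_roundCoef ht0 l) η hη0
  set T := max T1 T2
  set κ := 2 * (Spec.mC : ℝ) - η with hκdef
  have hκ : 1 ≤ κ := by linarith
  have hdec : Tendsto (fun b => |deriv U T / U T - γ| * exp (-κ * (b - T))) atTop (𝓝 0) := by
    have : Tendsto (fun b => -κ * (b - T)) atTop atBot :=
      (tendsto_atTop_add_const_right atTop (-T) tendsto_id).const_mul_atTop_of_neg (by linarith)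
    simpa using (tendsto_exp_atBot.comp this).const_mul |deriv U T / U T - γ|
  obtain ⟨T3, hT3⟩ := eventually_atTop.1 (hdec.eventually_lt_const (half_pos hε))
  refine ⟨max T T3, fun b hb => ?_⟩
  have hTb : T ≤ b := (le_max_left _ _).trans hb
  have h := ratioNear T b (2 * (Spec.mC : ℝ)) γ η (drift0 t0) (roundCoef t0 l) U hTb hγ hη0.le
    (by linarith) (contDiff_infty.1 hU 2) (contDiff_drift0 ht0).continuous
    (contDiff_roundCoef ht0 l).continuous (fun t _ => heq t)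
    (fun t ht => ⟨(hT1 t ((le_max_left _ _).trans ht.1)).le, roundCoef_nonneg t0 l t,
      (hT2 t ((le_max_right _ _).trans ht.1)).le⟩) (hpos T).1 (hpos T).2
  have h2 := hT3 b ((le_max_right _ _).trans hb)
  have h3 : (1 + γ) * η / κ ≤ ε / 4 :=
    (div_le_self (by positivity) hκ).trans hηε
  rw [Real.dist_eq]
  rw [← hκdef] at h
  linarith

/-- **The round solutions exist.** -/
theorem roundSol : RoundSol := by
  intro t0 ht0 l
  obtain ⟨U, hU, hU0, heq, hneg⟩ := exists_roundSolution ht0 l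
  have hpos := roundSolution_pos ht0 hU hU0 heq hneg
  exact ⟨U, hU, hpos, hneg, heq, tendsto_ratio ht0 hU heq hpos⟩

/-- The logarithmic derivative of a round solution is bounded on the whole line. -/
theorem IsRoundSol.exists_ratio_bound {t0 : ℝ} {l : ℕ} {U : ℝ → ℝ} (h : IsRoundSol t0 l U) :
    ∃ Γ, 0 ≤ Γ ∧ ∀ t, 0 ≤ deriv U t / U t ∧ deriv U t / U t ≤ Γ := by
  obtain ⟨hU, hpos, hneg, -, hlim⟩ := h
  obtain ⟨T, hT⟩ := eventually_atTop.1 (hlim.eventually_le_const (lt_add_one (gammaR l)))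
  have hc : Continuous fun t => deriv U t / U t :=
    (hU.continuous_deriv (by simp)).div hU.continuous fun t => (hpos t).1.ne'
  obtain ⟨B, hB⟩ := (isCompact_Icc (a := -1) (b := T)).exists_bound_of_continuousOn hc.continuousOn
  refine ⟨max (max (gammaR l + 1) B) l, (Nat.cast_nonneg l).trans (le_max_right _ _),
    fun t => ⟨div_nonneg (hpos t).2 (hpos t).1.le, ?_⟩⟩
  rcases le_or_gt T t with h1 | h1
  · exact (hT t h1).trans ((le_max_left _ _).trans (le_max_left _ _))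
  rcases le_or_gt (-1) t with h2 | h2
  · exact ((Real.le_norm_self _).trans (hB t ⟨h2, h1.le⟩)).trans
      ((le_max_right _ _).trans (le_max_left _ _))
  · have h : U =ᶠ[𝓝 t] fun s => exp ((l : ℝ) * s) :=
      (eventually_lt_nhds h2).mono fun s hs => hneg s (by linarith)
    rw [h.deriv_eq, deriv_exp_linear, hneg t (by linarith)]
    refine le_trans (le_of_eq ?_) (le_max_right _ _)
    field_simp

end Asm

end Vale.Agent.P225.Full
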