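import Vale.Agent.P225.Full.Spec

/-! # The scalar radial equation: growth bound and segment propagation -/

namespace Vale.Agent.P225.Full

open Set Real MeasureTheory Filter Topology

/-- `(y, y')` solves `y'' + c y' = M y` on `[a, b]`. -/
def IsScalarSol (a b : ℝ) (c M y y' : ℝ → ℝ) : Prop :=
  ∀ t ∈ Icc a b, HasDerivWithinAt y (y' t) (Icc a b) t ∧
    HasDerivWithinAt y' (M t * y t - c t * y' t) (Icc a b) t

theorem IsScalarSol.of_contDiff {a b : ℝ} {c M y : ℝ → ℝ} (hy : ContDiff ℝ 2 y)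
    (h : ∀ t ∈ Icc a b, deriv (deriv y) t + c t * deriv y t = M t * y t) :
    IsScalarSol a b c M y (deriv y) := by
  have hd : ContDiff ℝ 1 (deriv y) := by
    rw [show (2 : WithTop ℕ∞) = 1 + 1 from rfl, contDiff_succ_iff_deriv] at hy
    exact hy.2.2
  intro t ht
  refine ⟨((hy.differentiable two_ne_zero).differentiableAt (x := t)).hasDerivAt.hasDerivWithinAt, ?_⟩
  have h2 := ((hd.differentiable one_ne_zero).differentiableAt (x := t)).hasDerivAt
  rw [show deriv (deriv y) t = M t * y t - c t * deriv y t by linarith [h t ht]] at h2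
  exact h2.hasDerivWithinAt

/-- on an interval, a function with nonnegative derivative is monotone -/
theorem mono_of_deriv_nonneg {a b : ℝ} {f f' : ℝ → ℝ}
    (hf : ∀ t ∈ Icc a b, HasDerivWithinAt f (f' t) (Icc a b) t)
    (h0 : ∀ t ∈ Ioo a b, 0 ≤ f' t) : MonotoneOn f (Icc a b) :=
  monotoneOn_of_hasDerivWithinAt_nonneg (f' := f') (convex_Icc a b)
    (fun t ht => (hf t ht).continuousWithinAt)
    (fun t ht => (hf t (interior_subset ht)).mono interior_subset)
    (fun t ht => h0 t (interior_Icc (a := a) (b := b) ▸ ht))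

/-- the integrating factor -/
noncomputable def ifac (a : ℝ) (c : ℝ → ℝ) (t : ℝ) : ℝ := exp (∫ s in a..t, c s)

theorem ifac_pos (a : ℝ) (c : ℝ → ℝ) (t : ℝ) : 0 < ifac a c t := exp_pos _

theorem ifac_self (a : ℝ) (c : ℝ → ℝ) : ifac a c a = 1 := by simp [ifac]

theorem hasDerivAt_ifac {c : ℝ → ℝ} (hc : Continuous c) (a t : ℝ) :
    HasDerivAt (ifac a c) (ifac a c t * c t) t :=
  (intervalIntegral.integral_hasDerivAt_right (hc.intervalIntegrable a t)
    (hc.stronglyMeasurableAtFilter _ _) hc.continuousAt).exp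

theorem IsScalarSol.weighted {a b : ℝ} {c M y y' : ℝ → ℝ} (h : IsScalarSol a b c M y y')
    (hc : Continuous c) : ∀ t ∈ Icc a b,
      HasDerivWithinAt (fun t => ifac a c t * y' t) (ifac a c t * (M t * y t)) (Icc a b) t := by
  intro t ht
  have h1 := (hasDerivAt_ifac hc a t).hasDerivWithinAt.mul (h t ht).2
  exact h1.congr_deriv (by ring)

/-- positivity and monotonicity of the solutions with positive data -/
theorem IsScalarSol.pos {a b : ℝ} {c M y y' : ℝ → ℝ} (h : IsScalarSol a b c M y y')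
    (hc : Continuous c) (hM : ∀ t ∈ Icc a b, 0 ≤ M t) (hya : 0 < y a) (hy'a : 0 ≤ y' a) :
    ∀ t ∈ Icc a b, 0 < y t ∧ 0 ≤ y' t := by
  -- on every initial interval where `y` is positive before the end
  have step : ∀ τ ∈ Icc a b, (∀ t ∈ Ioo a τ, 0 < y t) → y a ≤ y τ ∧ 0 ≤ y' τ := by
    intro τ hτ hpos
    have hsub : Icc a τ ⊆ Icc a b := Icc_subset_Icc_right hτ.2
    have hm : MonotoneOn (fun t => ifac a c t * y' t) (Icc a τ) := mono_of_deriv_nonneg
      (f' := fun t => ifac a c t * (M t * y t))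
      (fun t ht => (h.weighted hc t (hsub ht)).mono hsub)
      fun t ht => mul_nonneg (ifac_pos _ _ _).le
        (mul_nonneg (hM t (hsub (Ioo_subset_Icc_self ht))) (hpos t ht).le)
    have hy' : ∀ t ∈ Icc a τ, 0 ≤ y' t := fun t ht => by
      have := hm (left_mem_Icc.2 (ht.1.trans ht.2)) ht ht.1
      simp only [ifac_self, one_mul] at this
      exact (mul_nonneg_iff_of_pos_left (ifac_pos a c t)).1 (hy'a.trans this)
    have hmy : MonotoneOn y (Icc a τ) := mono_of_deriv_nonneg
      (fun t ht => (h t (hsub ht)).1.mono hsub) fun t ht => hy' t (Ioo_subset_Icc_self ht)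
    exact ⟨hmy (left_mem_Icc.2 hτ.1) (right_mem_Icc.2 hτ.1) hτ.1, hy' τ (right_mem_Icc.2 hτ.1)⟩
  have hall : ∀ t ∈ Icc a b, 0 < y t := by
    by_contra hcon
    push Not at hcon
    set S := {t | t ∈ Icc a b ∧ y t ≤ 0} with hS
    have hne : S.Nonempty := let ⟨t, ht, ht'⟩ := hcon; ⟨t, ht, ht'⟩
    have hcl : IsClosed S := by
      have hco : ContinuousOn y (Icc a b) := fun t ht => (h t ht).1.continuousWithinAt
      exact hco.preimage_isClosed_of_isClosed isClosed_Icc isClosed_Iic
    have hbd : BddBelow S := ⟨a, fun t ht => ht.1.1⟩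
    obtain ⟨hτ, hτ0⟩ := hcl.csInf_mem hne hbd
    have := (step _ hτ fun t ht => ?_).1
    · linarith
    · by_contra hneg
      have := csInf_le hbd (show t ∈ S from ⟨⟨ht.1.le, ht.2.le.trans hτ.2⟩, not_lt.1 hneg⟩)
      linarith [ht.2]
  exact fun t ht => ⟨hall t ht, (step t ht fun s hs => hall s ⟨hs.1.le, hs.2.le.trans ht.2⟩).2⟩

/-- growth bound for the logarithmic derivative and for the solution -/
theorem IsScalarSol.growth {a b : ℝ} {c M y y' : ℝ → ℝ} (h : IsScalarSol a b c M y y')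
    (hc : Continuous c) {cm Λ γ : ℝ} (hab : a ≤ b)
    (hcM : ∀ t ∈ Icc a b, cm ≤ c t ∧ 0 ≤ M t ∧ M t ≤ Λ) (hΛ : Λ ≤ γ * (γ + cm))
    (hκ : 0 < 2 * γ + cm) (hya : 0 < y a) (hy'a : 0 ≤ y' a) :
    y' b / y b ≤ γ + max (y' a / y a - γ) 0 * exp (-(2 * γ + cm) * (b - a)) ∧
      y b ≤ y a * exp (γ * (b - a) + max (y' a / y a - γ) 0 / (2 * γ + cm)) := by
  set κ := 2 * γ + cm with hκdef
  set V := max (y' a / y a - γ) 0 with hVdef
  have hpos := h.pos hc (fun t ht => (hcM t ht).2.1) hya hy'a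
  have hvd : ∀ t ∈ Icc a b, HasDerivWithinAt (fun t => y' t / y t - γ)
      (M t - c t * (y' t / y t) - (y' t / y t) ^ 2) (Icc a b) t := fun t ht => by
    have hy := (hpos t ht).1.ne'
    refine (((h t ht).2.div (h t ht).1 hy).sub_const γ).congr_deriv ?_
    field_simp
  -- the weighted excess decreases
  have hW : MonotoneOn (fun t => -(exp (κ * (t - a)) * (y' t / y t - γ))) (Icc a b) := by
    refine mono_of_deriv_nonneg (f' := fun t => -(exp (κ * (t - a)) * κ * (y' t / y t - γ) +
      exp (κ * (t - a)) * (M t - c t * (y' t / y t) - (y' t / y t) ^ 2))) (fun t ht => ?_)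
      fun t ht => ?_
    · have he : HasDerivAt (fun t => exp (κ * (t - a))) (exp (κ * (t - a)) * κ) t := by
        simpa using (((hasDerivAt_id t).sub_const a).const_mul κ).exp
      exact (he.hasDerivWithinAt.mul (hvd t ht)).neg
    · have ht' := Ioo_subset_Icc_self ht
      obtain ⟨hcm, -, hMΛ⟩ := hcM t ht'
      set s := y' t / y t with hs
      have hs0 : 0 ≤ s := div_nonneg (hpos t ht').2 (hpos t ht').1.le
      have key : κ * (s - γ) + (M t - c t * s - s ^ 2) ≤ 0 := by
        have h1 := mul_le_mul_of_nonneg_right hcm hs0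
        have h2 := sq_nonneg (s - γ)
        rw [hκdef]
        linarith [show (s - γ) ^ 2 = s ^ 2 - 2 * γ * s + γ ^ 2 by ring,
          show γ * (γ + cm) = γ ^ 2 + γ * cm by ring,
          show (2 * γ + cm) * (s - γ) = 2 * γ * s - 2 * γ ^ 2 + cm * s - γ * cm by ring]
      have := mul_nonneg (exp_pos (κ * (t - a))).le (neg_nonneg.2 key)
      linarith
  have hexc : ∀ t ∈ Icc a b, y' t / y t - γ ≤ V * exp (-κ * (t - a)) := by
    intro t ht
    have h1 := hW (left_mem_Icc.2 hab) ht ht.1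
    simp only [sub_self, mul_zero, exp_zero, one_mul, neg_le_neg_iff] at h1
    have h2 : exp (κ * (t - a)) * (y' t / y t - γ) ≤ V := h1.trans (le_max_left _ _)
    have h3 := mul_le_mul_of_nonneg_left h2 (exp_pos (-κ * (t - a))).le
    rw [← mul_assoc, ← exp_add, show -κ * (t - a) + κ * (t - a) = 0 by ring, exp_zero, one_mul] at h3
    linarith
  refine ⟨by linarith [hexc b (right_mem_Icc.2 hab)], ?_⟩
  have hF : MonotoneOn
      (fun t => -(log (y t) - γ * (t - a) + V / κ * exp (-κ * (t - a)))) (Icc a b) := by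
    refine mono_of_deriv_nonneg
      (f' := fun t => -(y' t / y t - γ + V / κ * (exp (-κ * (t - a)) * -κ))) (fun t ht => ?_)
      fun t ht => ?_
    · have he : HasDerivAt (fun t => exp (-κ * (t - a))) (exp (-κ * (t - a)) * -κ) t := by
        simpa using (((hasDerivAt_id t).sub_const a).const_mul (-κ)).exp
      have hl : HasDerivAt (fun t => γ * (t - a)) γ t := by
        simpa using ((hasDerivAt_id t).sub_const a).const_mul γ
      exact ((((h t ht).1.log (hpos t ht).1.ne').sub hl.hasDerivWithinAt).add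
        (he.hasDerivWithinAt.const_mul _)).neg
    · have := hexc t (Ioo_subset_Icc_self ht)
      rw [show V / κ * (exp (-κ * (t - a)) * -κ) = -(V * exp (-κ * (t - a))) by field_simp]
      linarith
  have h1 := hF (left_mem_Icc.2 hab) (right_mem_Icc.2 hab) hab
  simp only [sub_self, mul_zero, exp_zero, mul_one, sub_zero, neg_le_neg_iff] at h1
  have hyb := (hpos b (right_mem_Icc.2 hab)).1
  have h0 : 0 ≤ V / κ * exp (-κ * (b - a)) :=
    mul_nonneg (div_nonneg (le_max_right _ _) hκ.le) (exp_pos _).le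
  have h2 : log (y b) ≤ log (y a) + (γ * (b - a) + V / κ) := by linarith
  rw [← exp_log hya, ← exp_add, ← exp_log hyb]
  exact exp_le_exp.2 h2

theorem scalarGrowth : Spec.ScalarGrowth := by
  intro a b c M y cm Λ γ hab hy hc _ heq hb _ hΛ hκ hya hy'a
  have h := IsScalarSol.of_contDiff hy heq
  exact ⟨h.pos hc (fun t ht => (hb t ht).2.1) hya hy'a,
    (h.growth hc hab hb hΛ hκ hya hy'a).2⟩

/-! ## Existence -/

theorem exists_scalarSol {a b : ℝ} (hab : a ≤ b) {c M : ℝ → ℝ} (hc : Continuous c)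
    (hM : Continuous M) (u v : ℝ) :
    ∃ y y' : ℝ → ℝ, y a = u ∧ y' a = v ∧ IsScalarSol a b c M y y' := by
  obtain ⟨Bc, hBc⟩ := (isCompact_Icc (a := a) (b := b)).exists_bound_of_continuousOn hc.continuousOn
  obtain ⟨BM, hBM⟩ := (isCompact_Icc (a := a) (b := b)).exists_bound_of_continuousOn hM.continuousOn
  have hB0 : 0 ≤ Bc := (norm_nonneg _).trans (hBc a (left_mem_Icc.2 hab))
  have hM0 : 0 ≤ BM := (norm_nonneg _).trans (hBM a (left_mem_Icc.2 hab))
  set L := 1 + BM + Bc with hL
  set ρ := (|u| + |v| + 1) * exp (L * (b - a)) with hρ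
  have hρ0 : 0 ≤ ρ := by positivity
  let cl : ℝ → ℝ := fun x => max (-ρ) (min x ρ)
  have hcl : ∀ x x', |cl x - cl x'| ≤ |x - x'| := fun x x' =>
    (abs_max_sub_max_le_max _ _ _ _).trans (max_le (by simp)
      ((abs_min_sub_min_le_max _ _ _ _).trans (max_le le_rfl (by simp))))
  have hclb : ∀ x, |cl x| ≤ ρ := fun x =>
    abs_le.2 ⟨le_max_left _ _, max_le (by linarith) (min_le_right _ _)⟩
  have hcla : ∀ x, |cl x| ≤ |x| := fun x => by
    have := hcl x 0
    simpa [cl, hρ0] using this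
  let f : ℝ → ℝ × ℝ → ℝ × ℝ := fun t z => (cl z.2, M t * cl z.1 - c t * cl z.2)
  have hfb : ∀ t ∈ Icc a b, ∀ z, ‖f t z‖ ≤ L * ρ ∧ ‖f t z‖ ≤ L * ‖z‖ := by
    intro t ht z
    have h1 : |M t| ≤ BM := hBM t ht
    have h2 : |c t| ≤ Bc := hBc t ht
    have key : ∀ r, |cl z.1| ≤ r → |cl z.2| ≤ r → 0 ≤ r → ‖f t z‖ ≤ L * r := by
      intro r r1 r2 r0
      refine max_le ?_ ?_ <;> simp only [f, Real.norm_eq_abs]
      · exact r2.trans (le_mul_of_one_le_left r0 (by linarith))
      · refine (abs_sub _ _).trans ?_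
        rw [abs_mul, abs_mul]
        linarith [mul_le_mul h1 r1 (abs_nonneg _) hM0, mul_le_mul h2 r2 (abs_nonneg _) hB0,
          show L * r = r + BM * r + Bc * r by rw [hL]; ring]
    exact ⟨key ρ (hclb _) (hclb _) hρ0, key ‖z‖ ((hcla _).trans (norm_fst_le z))
      ((hcla _).trans (norm_snd_le z)) (norm_nonneg _)⟩
  have hlip : ∀ t ∈ Icc a b, ∀ z z', ‖f t z - f t z'‖ ≤ L * ‖z - z'‖ := by
    intro t ht z z'
    have h1 : |M t| ≤ BM := hBM t ht
    have h2 : |c t| ≤ Bc := hBc t ht
    have e1 : |cl z.1 - cl z'.1| ≤ ‖z - z'‖ := (hcl _ _).trans (norm_fst_le (z - z'))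
    have e2 : |cl z.2 - cl z'.2| ≤ ‖z - z'‖ := (hcl _ _).trans (norm_snd_le (z - z'))
    refine max_le ?_ ?_ <;> simp only [f, Prod.fst_sub, Prod.snd_sub, Real.norm_eq_abs]
    · exact e2.trans (le_mul_of_one_le_left (norm_nonneg _) (by linarith))
    · rw [show M t * cl z.1 - c t * cl z.2 - (M t * cl z'.1 - c t * cl z'.2)
        = M t * (cl z.1 - cl z'.1) - c t * (cl z.2 - cl z'.2) by ring]
      refine (abs_sub _ _).trans ?_
      rw [abs_mul, abs_mul]
      linarith [mul_le_mul h1 e1 (abs_nonneg _) hM0, mul_le_mul h2 e2 (abs_nonneg _) hB0,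
        norm_nonneg (z - z'), show L * ‖z - z'‖ = ‖z - z'‖ + BM * ‖z - z'‖ + Bc * ‖z - z'‖ by
          rw [hL]; ring]
  have hpl : IsPicardLindelof f (tmin := a) (tmax := b) ⟨a, left_mem_Icc.2 hab⟩ (u, v)
      ((L * ρ).toNNReal * (b - a).toNNReal) 0 (L * ρ).toNNReal L.toNNReal :=
    { lipschitzOnWith := fun t ht => (LipschitzWith.of_dist_le_mul fun z z' => by
          rw [dist_eq_norm, dist_eq_norm, Real.coe_toNNReal _ (by positivity)]
          exact hlip t ht z z').lipschitzOnWith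
      continuousOn := fun z _ => Continuous.continuousOn (continuous_const.prodMk
        ((hM.mul continuous_const).sub (hc.mul continuous_const)))
      norm_le := fun t ht z _ => (hfb t ht z).1.trans (Real.le_coe_toNNReal _)
      mul_max_le := by simp [Real.coe_toNNReal (b - a) (by linarith), sub_nonneg.2 hab] }
  obtain ⟨α, hα0, hα⟩ := hpl.exists_eq_forall_mem_Icc_hasDerivWithinAt₀
  have hbound : ∀ t ∈ Icc a b, ‖α t‖ ≤ ρ := by
    intro t ht
    have hg := norm_le_gronwallBound_of_norm_deriv_right_le (f := α) (f' := fun s => f s (α s))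
      (δ := |u| + |v| + 1) (K := L) (ε := 0) (a := a) (b := b)
      (fun s hs => (hα s hs).continuousWithinAt)
      (fun s hs => (hα s (Ico_subset_Icc_self hs)).mono_of_mem_nhdsWithin
        (Icc_mem_nhdsGE_of_mem hs))
      (by
        rw [hα0]
        exact max_le (by simp only [Real.norm_eq_abs]; linarith [abs_nonneg v])
          (by simp only [Real.norm_eq_abs]; linarith [abs_nonneg u]))
      (fun s hs => by simpa using (hfb s (Ico_subset_Icc_self hs) (α s)).2) t ht
    rw [gronwallBound_ε0] at hg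
    refine hg.trans (mul_le_mul_of_nonneg_left (exp_le_exp.2 ?_) (by positivity))
    exact mul_le_mul_of_nonneg_left (by linarith [ht.2]) (by positivity)
  refine ⟨fun t => (α t).1, fun t => (α t).2, by simp [hα0], by simp [hα0], fun t ht => ?_⟩
  have hid : ∀ x, |x| ≤ ‖α t‖ → cl x = x := fun x hx => by
    obtain ⟨h1, h2⟩ := abs_le.1 (hx.trans (hbound t ht))
    simp [cl, h1, h2]
  have h1 := (hα t ht).fst
  have h2 := (hα t ht).snd
  simp only [f, hid _ (norm_fst_le (α t)), hid _ (norm_snd_le (α t))] at h1 h2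
  exact ⟨h1, h2⟩

/-! ## Segments -/

/-- the Wronskian times the integrating factor is constant -/
theorem IsScalarSol.wronskian {a b : ℝ} {c M y y' z z' : ℝ → ℝ} (h : IsScalarSol a b c M y y')
    (hz : IsScalarSol a b c M z z') (hc : Continuous c) {t : ℝ} (ht : t ∈ Icc a b) :
    ifac a c t * (y t * z' t - y' t * z t) = y a * z' a - y' a * z a := by
  have hd : ∀ s ∈ Icc a b,
      HasDerivWithinAt (fun s => ifac a c s * (y s * z' s - y' s * z s)) 0 (Icc a b) s := by
    intro s hs
    refine ((hasDerivAt_ifac hc a s).hasDerivWithinAt.mul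
      (((h s hs).1.mul (hz s hs).2).sub ((h s hs).2.mul (hz s hs).1))).congr_deriv ?_
    simp only [Pi.mul_apply, Pi.sub_apply]
    ring
  have h1 := mono_of_deriv_nonneg hd (fun _ _ => le_rfl) (left_mem_Icc.2 (ht.1.trans ht.2)) ht ht.1
  have h2 := mono_of_deriv_nonneg (f := fun s => -(ifac a c s * (y s * z' s - y' s * z s)))
    (f' := fun _ => 0) (fun s hs => (hd s hs).neg.congr_deriv neg_zero) (fun _ _ => le_rfl)
    (left_mem_Icc.2 (ht.1.trans ht.2)) ht ht.1
  simp only [ifac_self, one_mul, neg_le_neg_iff] at h1 h2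
  exact le_antisymm h2 h1

theorem scalarSegment : Spec.ScalarSegment := by
  intro a b c₁ c M hab hc₁ hc hMc hb
  obtain ⟨φ, φ', hφa, hφ'a, hφ⟩ := exists_scalarSol hab.le hc hMc 1 0
  obtain ⟨ψ, ψ', hψa, hψ'a, hψ⟩ := exists_scalarSol hab.le hc hMc 0 1
  have hφp := hφ.pos hc (fun t ht => (hb t ht).2) (by linarith) hφ'a.ge
  have hφ1 : ∀ t ∈ Icc a b, 1 ≤ φ t := fun t ht => hφa ▸
    mono_of_deriv_nonneg (fun s hs => (hφ s hs).1)
      (fun s hs => (hφp s (Ioo_subset_Icc_self hs)).2) (left_mem_Icc.2 hab.le) ht ht.1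
  have hWr : ∀ t ∈ Icc a b, φ t * ψ' t - φ' t * ψ t = 1 / ifac a c t := fun t ht => by
    have := hφ.wronskian hψ hc ht
    rw [hφa, hψa, hφ'a, hψ'a, one_mul, zero_mul, sub_zero] at this
    rw [eq_div_iff (ifac_pos a c t).ne', mul_comm, this]
  have hE : ∀ t ∈ Icc a b, exp (c₁ * (t - a)) ≤ ifac a c t := fun t ht => by
    refine exp_le_exp.2 ?_
    have := intervalIntegral.integral_mono_on ht.1 (intervalIntegrable_const (μ := volume) (c := c₁))
      (hc.intervalIntegrable a t) fun s hs => (hb s ⟨hs.1, hs.2.trans ht.2⟩).1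
    rw [intervalIntegral.integral_const, smul_eq_mul, mul_comm] at this
    exact this
  have hinv : ∀ t ∈ Icc a b, 1 / ifac a c t ≤ exp (-c₁ * (t - a)) := fun t ht => by
    rw [neg_mul, exp_neg, one_div]
    exact inv_anti₀ (exp_pos _) (hE t ht)
  have hθd : ∀ t ∈ Icc a b,
      HasDerivWithinAt (fun t => ψ t / φ t) (1 / ifac a c t / φ t ^ 2) (Icc a b) t := fun t ht => by
    refine ((hψ t ht).1.div (hφ t ht).1 (hφp t ht).1.ne').congr_deriv ?_
    rw [← hWr t ht]
    ring
  have hbm := right_mem_Icc.2 hab.le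
  have hφb := hφ1 b hbm
  refine ⟨ψ b / φ b, φ b, ?_, ?_, hφb, fun y hy heq => ?_⟩
  · have := mono_of_deriv_nonneg hθd (fun t ht => by
      have := ifac_pos a c t
      positivity) (left_mem_Icc.2 hab.le) hbm hab.le
    simpa [hψa] using this
  · have hG : MonotoneOn (fun t => -(ψ t / φ t + exp (-c₁ * (t - a)) / c₁)) (Icc a b) := by
      refine mono_of_deriv_nonneg
        (f' := fun t => -(1 / ifac a c t / φ t ^ 2 + exp (-c₁ * (t - a)) * -c₁ / c₁))
        (fun t ht => ?_) fun t ht => ?_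
      · have he : HasDerivAt (fun t => exp (-c₁ * (t - a))) (exp (-c₁ * (t - a)) * -c₁) t := by
          simpa using (((hasDerivAt_id t).sub_const a).const_mul (-c₁)).exp
        exact ((hθd t ht).add (he.hasDerivWithinAt.div_const c₁)).neg
      · have ht' := Ioo_subset_Icc_self ht
        have h1 : 1 / ifac a c t / φ t ^ 2 ≤ exp (-c₁ * (t - a)) :=
          (div_le_self (one_div_pos.2 (ifac_pos a c t)).le (one_le_pow₀ (hφ1 t ht'))).trans
            (hinv t ht')
        rw [mul_neg, neg_div, mul_div_cancel_right₀ _ hc₁.ne']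
        linarith
    have h1 := hG (left_mem_Icc.2 hab.le) hbm hab.le
    simp only [sub_self, mul_zero, exp_zero, hψa, hφa, zero_div, zero_add, neg_le_neg_iff] at h1
    linarith [div_nonneg (exp_pos (-c₁ * (b - a))).le hc₁.le]
  · have hY := IsScalarSol.of_contDiff hy heq
    have w1 := hφ.wronskian hY hc hbm
    have w2 := hY.wronskian hψ hc hbm
    rw [hφa, hφ'a, one_mul, zero_mul, sub_zero] at w1
    rw [hψa, hψ'a, mul_one, mul_zero, sub_zero] at w2
    have hW := hWr b hbm
    rw [eq_div_iff (ifac_pos a c b).ne'] at hW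
    have e1 : y b = φ b * y a + ψ b * deriv y a := by
      rw [← w1, ← w2]
      linear_combination (-(y b)) * hW
    have e2 : deriv y b = φ' b * y a + ψ' b * deriv y a := by
      rw [← w1, ← w2]
      linear_combination (-(deriv y b)) * hW
    have hne : φ b ≠ 0 := by linarith
    refine ⟨by rw [e1]; field_simp, fun h0 => ?_⟩
    have hya : y a = -(ψ b * deriv y a) / φ b := by
      rw [eq_div_iff hne]
      linarith
    have e3 : deriv y b = 1 / ifac a c b / φ b * deriv y a := by
      rw [e2, hya, ← hWr b hbm]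
      field_simp
      ring
    rw [e3, abs_mul]
    refine mul_le_mul_of_nonneg_right ?_ (abs_nonneg _)
    have hp : 0 < 1 / ifac a c b := one_div_pos.2 (ifac_pos a c b)
    rw [abs_of_nonneg (div_nonneg hp.le (by linarith))]
    exact (div_le_self hp.le hφb).trans (hinv b hbm)

end Vale.Agent.P225.Full
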