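import Vale.Agent.P225.Full.Model

/-! # The schedule of pulses and Berger dwells

Round `j` with `M = j + j0` and `L = M ^ 3` consists of `N` pulses of length `L` (amplitude
`alpha j i / L`), a gap `L`, a ramp `L`, a dwell `M ^ 4` at `tauB`, a ramp `L` and a gap `L`.
Everything depends on `alpha` locally.
-/

noncomputable section

open Filter Topology

namespace Vale.Agent.P225.Full.Schedule

/-- The pulse shape: smooth, supported in `[1/4, 3/4]`, integral one. -/
def bump (s : ℝ) : ℝ := 2 * deriv Real.smoothTransition (2 * s - 1 / 2)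

lemma deriv_st_nonpos {x : ℝ} (h : x ≤ 0) : deriv Real.smoothTransition x = 0 := by
  refine IsLocalMin.deriv_eq_zero (Eventually.of_forall fun y => ?_)
  rw [Real.smoothTransition.zero_of_nonpos h]
  exact Real.smoothTransition.nonneg y

lemma deriv_st_one_le {x : ℝ} (h : 1 ≤ x) : deriv Real.smoothTransition x = 0 := by
  refine IsLocalMax.deriv_eq_zero (Eventually.of_forall fun y => ?_)
  rw [Real.smoothTransition.one_of_one_le h]
  exact Real.smoothTransition.le_one y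

lemma contDiff_deriv_st : ContDiff ℝ (⊤ : ℕ∞) (deriv Real.smoothTransition) :=
  (contDiff_infty_iff_deriv.1 (Real.smoothTransition.contDiff (n := (⊤ : ℕ∞)))).2

lemma bump_smooth : ContDiff ℝ (⊤ : ℕ∞) bump :=
  contDiff_const.mul (contDiff_deriv_st.comp
    ((contDiff_const.mul contDiff_id).sub contDiff_const))

lemma bump_continuous : Continuous bump := bump_smooth.continuous

lemma bump_left {s : ℝ} (h : s ≤ 1 / 4) : bump s = 0 := by
  rw [bump, deriv_st_nonpos (show 2 * s - 1 / 2 ≤ 0 by linarith), mul_zero]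

lemma bump_right {s : ℝ} (h : 3 / 4 ≤ s) : bump s = 0 := by
  rw [bump, deriv_st_one_le (show 1 ≤ 2 * s - 1 / 2 by linarith), mul_zero]

lemma bump_outside {s : ℝ} (h : s ≤ 0 ∨ 1 ≤ s) : bump s = 0 := by
  rcases h with h | h
  · exact bump_left (by linarith)
  · exact bump_right (by linarith)

lemma bump_integral : (∫ s in (0 : ℝ)..1, bump s) = 1 := by
  have h : ∀ s, HasDerivAt (fun s => Real.smoothTransition (2 * s - 1 / 2)) (bump s) s := by
    intro s
    have h1 := ((Real.smoothTransition.contDiff (n := 1)).differentiable one_ne_zero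
      (2 * s - 1 / 2)).hasDerivAt
    have h2 : HasDerivAt (fun s : ℝ => 2 * s - 1 / 2) 2 s := by
      simpa using ((hasDerivAt_id s).const_mul 2).sub_const (1 / 2)
    have := h1.comp s h2
    rw [mul_comm] at this
    exact this
  rw [intervalIntegral.integral_eq_sub_of_hasDerivAt (fun s _ => h s)
    (bump_continuous.intervalIntegrable 0 1),
    Real.smoothTransition.one_of_one_le (by norm_num),
    Real.smoothTransition.zero_of_nonpos (by norm_num)]
  norm_num

/-- The parameters of the timetable. -/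
structure Clock where
  N : ℕ
  T0 : ℝ
  j0 : ℕ
  hT0 : 0 ≤ T0
  hj0 : 1 ≤ j0

namespace Clock

variable (C : Clock)

/-- The scale of round `j`. -/
def M (j : ℕ) : ℝ := ((j + C.j0 : ℕ) : ℝ)

/-- The length of a pulse in round `j`. -/
def L (j : ℕ) : ℝ := C.M j ^ 3

/-- The slowness of round `j`. -/
def eps (j : ℕ) : ℝ := (C.L j)⁻¹

/-- The start of round `j`. -/
def T : ℕ → ℝ
  | 0 => C.T0
  | j + 1 => T j + ((C.N : ℝ) + 4) * C.L j + C.M j ^ 4

/-- End of the pulses of round `j`. -/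
def pulseEnd (j : ℕ) : ℝ := C.T j + C.N * C.L j

/-- Start of the dwell of round `j`. -/
def dwellStart (j : ℕ) : ℝ := C.T j + ((C.N : ℝ) + 2) * C.L j

/-- End of the dwell of round `j`. -/
def dwellEnd (j : ℕ) : ℝ := C.dwellStart j + C.M j ^ 4

lemma T_zero : C.T 0 = C.T0 := rfl

lemma T_succ (j : ℕ) : C.T (j + 1) = C.T j + ((C.N : ℝ) + 4) * C.L j + C.M j ^ 4 := rfl

lemma T_succ_eq (j : ℕ) : C.T (j + 1) = C.dwellEnd j + 2 * C.L j := by
  rw [T_succ, dwellEnd, dwellStart]; ring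

lemma one_le_M (j : ℕ) : 1 ≤ C.M j := by
  have := C.hj0
  unfold M
  exact_mod_cast (by omega : 1 ≤ j + C.j0)

lemma j0_le_M (j : ℕ) : (C.j0 : ℝ) ≤ C.M j := by
  unfold M
  exact_mod_cast Nat.le_add_left C.j0 j

lemma one_le_L (j : ℕ) : 1 ≤ C.L j := one_le_pow₀ (C.one_le_M j)

lemma L_pos (j : ℕ) : 0 < C.L j := lt_of_lt_of_le one_pos (C.one_le_L j)

lemma eps_pos (j : ℕ) : 0 < C.eps j := inv_pos.2 (C.L_pos j)

lemma eps_le_one (j : ℕ) : C.eps j ≤ 1 := inv_le_one_of_one_le₀ (C.one_le_L j)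

lemma eps_mul_L (j : ℕ) : C.eps j * C.L j = 1 := inv_mul_cancel₀ (C.L_pos j).ne'

lemma eps_le (j : ℕ) : C.eps j ≤ (C.j0 : ℝ)⁻¹ := by
  refine inv_anti₀ (by exact_mod_cast C.hj0) ((C.j0_le_M j).trans ?_)
  exact le_self_pow₀ (C.one_le_M j) (by norm_num)

lemma N_mul_L_div (j : ℕ) : (C.N : ℝ) / C.eps j = C.N * C.L j := by
  rw [eps, div_inv_eq_mul]

lemma M4_pos (j : ℕ) : 0 < C.M j ^ 4 := pow_pos (lt_of_lt_of_le one_pos (C.one_le_M j)) 4

lemma T_add_one_le (j : ℕ) : C.T j + 1 ≤ C.T (j + 1) := by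
  have h1 := C.one_le_L j
  have h2 := C.M4_pos j
  have h3 : 0 ≤ (C.N : ℝ) * C.L j := mul_nonneg (Nat.cast_nonneg _) (C.L_pos j).le
  rw [T_succ]
  linarith

lemma T_mono : Monotone C.T :=
  monotone_nat_of_le_succ fun j => by linarith [C.T_add_one_le j]

lemma T0_le (j : ℕ) : C.T0 ≤ C.T j := C.T_mono (Nat.zero_le j)

lemma T_nonneg (j : ℕ) : 0 ≤ C.T j := C.hT0.trans (C.T0_le j)

lemma T_ge (j : ℕ) : C.T0 + j ≤ C.T j := by
  induction j with
  | zero => simp [T_zero]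
  | succ j ih => push_cast; linarith [C.T_add_one_le j]

lemma sum_dwell_le (j : ℕ) : C.T0 + ∑ i ∈ Finset.range j, C.M i ^ 4 ≤ C.T j := by
  induction j with
  | zero => simp [T_zero]
  | succ j ih =>
    have h1 := C.L_pos j
    have h3 : 0 ≤ (C.N : ℝ) * C.L j := mul_nonneg (Nat.cast_nonneg _) h1.le
    rw [Finset.sum_range_succ, T_succ]
    linarith

/-- Every time after `T0` lies in some round. -/
lemma exists_round {t : ℝ} (h : C.T0 ≤ t) : ∃ j, C.T j ≤ t ∧ t < C.T (j + 1) := by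
  classical
  have hex : ∃ j, t < C.T j := by
    obtain ⟨j, hj⟩ := exists_nat_gt (t - C.T0)
    exact ⟨j, by linarith [C.T_ge j]⟩
  have hne : Nat.find hex ≠ 0 := by
    intro h0
    have := Nat.find_spec hex
    rw [h0, T_zero] at this
    linarith
  obtain ⟨j, hj⟩ : ∃ j, Nat.find hex = j + 1 := ⟨Nat.find hex - 1, by omega⟩
  exact ⟨j, not_lt.1 (Nat.find_min hex (by omega)), hj ▸ Nat.find_spec hex⟩

/-- A round ends before `T0 + 2 M ^ 5`, provided `j0` is large compared with `N`. -/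
lemma T_succ_le (hN : C.N + 4 ≤ C.j0) (j : ℕ) : C.T (j + 1) ≤ C.T0 + 2 * C.M j ^ 5 := by
  have hstep : ∀ i, C.T (i + 1) ≤ C.T i + 2 * C.M i ^ 4 := by
    intro i
    have h1 : ((C.N : ℝ) + 4) ≤ C.M i := le_trans (by exact_mod_cast hN) (C.j0_le_M i)
    have h2 := mul_le_mul_of_nonneg_right h1 (C.L_pos i).le
    rw [T_succ]
    unfold L at h2 ⊢
    nlinarith
  have hsum : ∀ i, C.T i ≤ C.T0 + ∑ k ∈ Finset.range i, 2 * C.M k ^ 4 := by
    intro i
    induction i with
    | zero => simp [T_zero]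
    | succ i ih => rw [Finset.sum_range_succ]; linarith [hstep i]
  refine (hsum (j + 1)).trans (add_le_add le_rfl ?_)
  refine (Finset.sum_le_card_nsmul _ _ (2 * C.M j ^ 4) fun k hk => ?_).trans ?_
  · have hk' : k + C.j0 ≤ j + C.j0 := by
      have := Finset.mem_range.1 hk
      omega
    have hle : C.M k ≤ C.M j := by
      unfold M
      exact_mod_cast hk'
    have h0 : 0 ≤ C.M k := zero_le_one.trans (C.one_le_M k)
    gcongr
  · rw [Finset.card_range, nsmul_eq_mul]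
    have hj : ((j + 1 : ℕ) : ℝ) ≤ C.M j := by
      unfold M
      exact_mod_cast Nat.add_le_add_left C.hj0 j
    calc ((j + 1 : ℕ) : ℝ) * (2 * C.M j ^ 4) ≤ C.M j * (2 * C.M j ^ 4) :=
          mul_le_mul_of_nonneg_right hj (by positivity)
      _ = _ := by ring

/-- The pulse part of round `j`. -/
def pulseTau (j : ℕ) (a : Fin C.N → ℝ) (t : ℝ) : ℝ :=
  C.eps j * ∑ i : Fin C.N, a i * bump (C.eps j * (t - C.T j) - i)

/-- The Berger part of round `j`: two ramps and the dwell. -/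
def bergerTau (τB : ℝ) (j : ℕ) (t : ℝ) : ℝ :=
  τB * (Real.smoothTransition (C.eps j * (t - (C.pulseEnd j + C.L j)))
    - Real.smoothTransition (C.eps j * (t - C.dwellEnd j)))

/-- The squashing in round `j`. -/
def roundTau (τB : ℝ) (j : ℕ) (a : Fin C.N → ℝ) (t : ℝ) : ℝ :=
  C.pulseTau j a t + C.bergerTau τB j t

/-- The squashing. -/
def tau (τB : ℝ) (α : ℕ → Fin C.N → ℝ) (t : ℝ) : ℝ := ∑' j, C.roundTau τB j (α j) t

lemma scaled_le {j : ℕ} {s b k : ℝ} (h : s ≤ b + k * C.L j) : C.eps j * (s - b) ≤ k := by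
  calc C.eps j * (s - b) ≤ C.eps j * (k * C.L j) :=
        mul_le_mul_of_nonneg_left (by linarith) (C.eps_pos j).le
    _ = k := by rw [mul_left_comm, eps_mul_L, mul_one]

lemma le_scaled {j : ℕ} {s b k : ℝ} (h : b + k * C.L j ≤ s) : k ≤ C.eps j * (s - b) := by
  calc k = C.eps j * (k * C.L j) := by rw [mul_left_comm, eps_mul_L, mul_one]
    _ ≤ C.eps j * (s - b) := mul_le_mul_of_nonneg_left (by linarith) (C.eps_pos j).le

lemma pulseTau_left {j : ℕ} (a : Fin C.N → ℝ) {t : ℝ} (h : t ≤ C.T j + C.L j / 4) :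
    C.pulseTau j a t = 0 := by
  have h1 : C.eps j * (t - C.T j) ≤ 1 / 4 := C.scaled_le (by linarith)
  rw [pulseTau, Finset.sum_eq_zero (fun i _ => ?_), mul_zero]
  rw [bump_left (by linarith [(Nat.cast_nonneg (i : ℕ) : (0 : ℝ) ≤ _)]), mul_zero]

lemma pulseTau_right {j : ℕ} (a : Fin C.N → ℝ) {t : ℝ} (h : C.pulseEnd j - C.L j / 4 ≤ t) :
    C.pulseTau j a t = 0 := by
  have h1 : (C.N : ℝ) - 1 / 4 ≤ C.eps j * (t - C.T j) := by
    refine C.le_scaled ?_
    unfold pulseEnd at h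
    linarith
  rw [pulseTau, Finset.sum_eq_zero (fun i _ => ?_), mul_zero]
  have hi : ((i : ℕ) : ℝ) + 1 ≤ C.N := by exact_mod_cast i.isLt
  rw [bump_right (by linarith), mul_zero]

lemma bergerTau_left {τB : ℝ} {j : ℕ} {t : ℝ} (h : t ≤ C.pulseEnd j + C.L j) :
    C.bergerTau τB j t = 0 := by
  have h1 : C.eps j * (t - (C.pulseEnd j + C.L j)) ≤ 0 := C.scaled_le (by linarith)
  have h2 : C.eps j * (t - C.dwellEnd j) ≤ 0 := by
    refine C.scaled_le ?_
    have := C.M4_pos j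
    have := C.L_pos j
    unfold dwellEnd dwellStart
    unfold pulseEnd at h
    linarith
  rw [bergerTau, Real.smoothTransition.zero_of_nonpos h1, Real.smoothTransition.zero_of_nonpos h2,
    sub_self, mul_zero]

lemma bergerTau_right {τB : ℝ} {j : ℕ} {t : ℝ} (h : C.T (j + 1) - C.L j ≤ t) :
    C.bergerTau τB j t = 0 := by
  have e := C.T_succ_eq j
  have h2 : 1 ≤ C.eps j * (t - C.dwellEnd j) := C.le_scaled (by linarith)
  have h1 : 1 ≤ C.eps j * (t - (C.pulseEnd j + C.L j)) := by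
    refine C.le_scaled ?_
    have := C.M4_pos j
    have := C.L_pos j
    rw [e] at h
    unfold dwellEnd dwellStart at h
    unfold pulseEnd
    linarith
  rw [bergerTau, Real.smoothTransition.one_of_one_le h1, Real.smoothTransition.one_of_one_le h2,
    sub_self, mul_zero]

lemma roundTau_left (τB : ℝ) {j : ℕ} (a : Fin C.N → ℝ) {t : ℝ} (h : t ≤ C.T j + C.L j / 4) :
    C.roundTau τB j a t = 0 := by
  have hN : 0 ≤ (C.N : ℝ) * C.L j := mul_nonneg (Nat.cast_nonneg _) (C.L_pos j).le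
  rw [roundTau, C.pulseTau_left a h, C.bergerTau_left, add_zero]
  unfold pulseEnd
  linarith [C.L_pos j]

lemma roundTau_right (τB : ℝ) {j : ℕ} (a : Fin C.N → ℝ) {t : ℝ} (h : C.T (j + 1) - C.L j ≤ t) :
    C.roundTau τB j a t = 0 := by
  rw [roundTau, C.bergerTau_right h, C.pulseTau_right a, add_zero]
  have := C.M4_pos j
  have := C.L_pos j
  rw [T_succ] at h
  unfold pulseEnd
  linarith

lemma roundTau_eq_zero (τB : ℝ) {j k : ℕ} (hkj : k ≠ j) (a : Fin C.N → ℝ) {t : ℝ}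
    (h1 : C.T j - 1 / 4 ≤ t) (h2 : t ≤ C.T (j + 1) + 1 / 4) : C.roundTau τB k a t = 0 := by
  rcases lt_or_gt_of_ne hkj with h | h
  · refine C.roundTau_right τB a ?_
    have := C.T_mono (show k + 1 ≤ j by omega)
    linarith [C.one_le_L k]
  · refine C.roundTau_left τB a ?_
    have := C.T_mono (show j + 1 ≤ k by omega)
    linarith [C.one_le_L k]

lemma tau_eq' (τB : ℝ) (α : ℕ → Fin C.N → ℝ) {j : ℕ} {t : ℝ}
    (h1 : C.T j - 1 / 4 ≤ t) (h2 : t ≤ C.T (j + 1) + 1 / 4) :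
    C.tau τB α t = C.roundTau τB j (α j) t :=
  tsum_eq_single j fun _ hk => C.roundTau_eq_zero τB hk _ h1 h2

/-- In round `j` the squashing only depends on `α j`. -/
lemma tau_eq (τB : ℝ) (α : ℕ → Fin C.N → ℝ) {j : ℕ} {t : ℝ}
    (h : t ∈ Set.Icc (C.T j) (C.T (j + 1))) : C.tau τB α t = C.roundTau τB j (α j) t :=
  C.tau_eq' τB α (by linarith [h.1]) (by linarith [h.2])

lemma tau_eventually (τB : ℝ) (α : ℕ → Fin C.N → ℝ) {j : ℕ} {t : ℝ}
    (h : t ∈ Set.Icc (C.T j) (C.T (j + 1))) :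
    C.tau τB α =ᶠ[𝓝 t] C.roundTau τB j (α j) := by
  filter_upwards [Ioo_mem_nhds (show C.T j - 1 / 4 < t by linarith [h.1])
    (show t < C.T (j + 1) + 1 / 4 by linarith [h.2])] with s hs
  exact C.tau_eq' τB α hs.1.le hs.2.le

lemma tau_early (τB : ℝ) (α : ℕ → Fin C.N → ℝ) {t : ℝ} (h : t ≤ C.T0 + 1 / 4) :
    C.tau τB α t = 0 := by
  unfold tau
  rw [tsum_congr (fun j => C.roundTau_left τB (α j) (t := t) ?_), tsum_zero]
  linarith [C.T0_le j, C.one_le_L j]

lemma tau_zero_of_le (τB : ℝ) (α : ℕ → Fin C.N → ℝ) {t : ℝ} (h : t ≤ C.T0) :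
    C.tau τB α t = 0 := C.tau_early τB α (by linarith)

lemma tau_eventually_zero_of_le (τB : ℝ) (α : ℕ → Fin C.N → ℝ) {t : ℝ} (h : t ≤ C.T0) :
    C.tau τB α =ᶠ[𝓝 t] fun _ => 0 := by
  filter_upwards [Iio_mem_nhds (show t < C.T0 + 1 / 4 by linarith)] with s hs
  exact C.tau_early τB α (Set.mem_Iio.1 hs).le

/-- The squashing before `T j` only depends on the earlier amplitudes. -/
lemma tau_congr (τB : ℝ) (α α' : ℕ → Fin C.N → ℝ) {j : ℕ} (hα : ∀ i < j, α i = α' i) {t : ℝ}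
    (h : t ≤ C.T j) : C.tau τB α =ᶠ[𝓝 t] C.tau τB α' := by
  filter_upwards [Iio_mem_nhds (show t < C.T j + 1 / 4 by linarith)] with s hs
  refine tsum_congr fun k => ?_
  rcases lt_or_ge k j with hk | hk
  · rw [hα k hk]
  · have h3 : s ≤ C.T k + C.L k / 4 := by
      linarith [C.T_mono hk, C.one_le_L k, Set.mem_Iio.1 hs]
    rw [C.roundTau_left τB _ h3, C.roundTau_left τB _ h3]

lemma contDiff_pulseTau (j : ℕ) (a : Fin C.N → ℝ) : ContDiff ℝ (⊤ : ℕ∞) (C.pulseTau j a) := by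
  unfold pulseTau
  exact contDiff_const.mul (ContDiff.sum fun i _ => contDiff_const.mul (bump_smooth.comp
    ((contDiff_const.mul (contDiff_id.sub contDiff_const)).sub contDiff_const)))

lemma contDiff_bergerTau (τB : ℝ) (j : ℕ) : ContDiff ℝ (⊤ : ℕ∞) (C.bergerTau τB j) := by
  unfold bergerTau
  exact contDiff_const.mul ((Real.smoothTransition.contDiff.comp
    (contDiff_const.mul (contDiff_id.sub contDiff_const))).sub
    (Real.smoothTransition.contDiff.comp
      (contDiff_const.mul (contDiff_id.sub contDiff_const))))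

lemma contDiff_roundTau (τB : ℝ) (j : ℕ) (a : Fin C.N → ℝ) :
    ContDiff ℝ (⊤ : ℕ∞) (C.roundTau τB j a) := by
  unfold roundTau
  exact (C.contDiff_pulseTau j a).add (C.contDiff_bergerTau τB j)

lemma contDiff_tau (τB : ℝ) (α : ℕ → Fin C.N → ℝ) : ContDiff ℝ (⊤ : ℕ∞) (C.tau τB α) := by
  rw [contDiff_iff_contDiffAt]
  intro t
  rcases le_total t C.T0 with h | h
  · exact contDiffAt_const.congr_of_eventuallyEq (C.tau_eventually_zero_of_le τB α h)
  · obtain ⟨j, h1, h2⟩ := C.exists_round h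
    exact (C.contDiff_roundTau τB j (α j)).contDiffAt.congr_of_eventuallyEq
      (C.tau_eventually τB α ⟨h1, h2.le⟩)

lemma T_le_pulseEnd (j : ℕ) : C.T j ≤ C.pulseEnd j :=
  le_add_of_nonneg_right (mul_nonneg (Nat.cast_nonneg _) (C.L_pos j).le)

lemma pulseEnd_le (j : ℕ) : C.pulseEnd j ≤ C.T (j + 1) := by
  have := C.L_pos j
  have := C.M4_pos j
  rw [T_succ, pulseEnd]
  linarith

/-- The pulse block. -/
lemma tau_pulse (τB : ℝ) (α : ℕ → Fin C.N → ℝ) {j : ℕ} {t : ℝ}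
    (h : t ∈ Set.Icc (C.T j) (C.pulseEnd j)) :
    C.tau τB α t = C.eps j * ∑ i : Fin C.N, α j i * bump (C.eps j * (t - C.T j) - i) := by
  rw [C.tau_eq τB α ⟨h.1, h.2.trans (C.pulseEnd_le j)⟩, roundTau,
    C.bergerTau_left (by linarith [h.2, C.L_pos j]), add_zero, pulseTau]

/-- After the pulses the squashing does not depend on the amplitudes. -/
lemma tau_rest (τB : ℝ) (α : ℕ → Fin C.N → ℝ) {j : ℕ} {t : ℝ}
    (h : t ∈ Set.Icc (C.pulseEnd j) (C.T (j + 1))) : C.tau τB α t = C.bergerTau τB j t := by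
  rw [C.tau_eq τB α ⟨(C.T_le_pulseEnd j).trans h.1, h.2⟩, roundTau,
    C.pulseTau_right (α j) (by linarith [h.1, C.L_pos j]), zero_add]

lemma bergerTau_dwell (τB : ℝ) {j : ℕ} {t : ℝ}
    (h : t ∈ Set.Icc (C.dwellStart j) (C.dwellEnd j)) : C.bergerTau τB j t = τB := by
  have h1 : 1 ≤ C.eps j * (t - (C.pulseEnd j + C.L j)) := by
    refine C.le_scaled ?_
    have := h.1
    unfold dwellStart at this
    unfold pulseEnd
    linarith
  have h2 : C.eps j * (t - C.dwellEnd j) ≤ 0 := C.scaled_le (by linarith [h.2])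
  rw [bergerTau, Real.smoothTransition.one_of_one_le h1, Real.smoothTransition.zero_of_nonpos h2,
    sub_zero, mul_one]

lemma bergerTau_mem {τB : ℝ} (hτ : 0 ≤ τB) (j : ℕ) (t : ℝ) :
    C.bergerTau τB j t ∈ Set.Icc 0 τB := by
  have h : C.eps j * (t - C.dwellEnd j) ≤ C.eps j * (t - (C.pulseEnd j + C.L j)) := by
    refine mul_le_mul_of_nonneg_left ?_ (C.eps_pos j).le
    have := C.M4_pos j
    have := C.L_pos j
    unfold dwellEnd dwellStart pulseEnd
    linarith
  have hm := Real.smoothTransition.monotone h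
  have h0 := Real.smoothTransition.nonneg (C.eps j * (t - C.dwellEnd j))
  have h1 := Real.smoothTransition.le_one (C.eps j * (t - (C.pulseEnd j + C.L j)))
  exact ⟨mul_nonneg hτ (by linarith), mul_le_of_le_one_right hτ (by linarith)⟩

lemma tau_dwell (τB : ℝ) (α : ℕ → Fin C.N → ℝ) {j : ℕ} {t : ℝ}
    (h : t ∈ Set.Icc (C.dwellStart j) (C.dwellEnd j)) : C.tau τB α t = τB := by
  rw [C.tau_rest τB α ⟨?_, ?_⟩, C.bergerTau_dwell τB h]
  · have := h.1
    have := C.L_pos j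
    unfold dwellStart at *
    unfold pulseEnd
    linarith
  · linarith [h.2, C.T_succ_eq j, C.L_pos j]

lemma tau_gap (τB : ℝ) (α : ℕ → Fin C.N → ℝ) {j : ℕ} {t : ℝ}
    (h : t ∈ Set.Icc (C.T (j + 1) - C.L j) (C.T (j + 1))) : C.tau τB α t = 0 := by
  rw [C.tau_eq τB α ⟨?_, h.2⟩, C.roundTau_right τB _ h.1]
  have := C.T_succ j
  have := C.M4_pos j
  have : 0 ≤ ((C.N : ℝ) + 3) * C.L j := mul_nonneg (by positivity) (C.L_pos j).le
  linarith [h.1]

/-- The open interval of pulse `i` of round `j`. -/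
def slot (p : ℕ × Fin C.N) : Set ℝ :=
  Set.Ioo (C.T p.1 + (p.2 : ℕ) * C.L p.1) (C.T p.1 + ((p.2 : ℕ) + 1) * C.L p.1)

lemma slot_subset (p : ℕ × Fin C.N) : C.slot p ⊆ Set.Ioo (C.T p.1) (C.pulseEnd p.1) := by
  intro t ht
  have hi : ((p.2 : ℕ) : ℝ) + 1 ≤ C.N := by exact_mod_cast p.2.isLt
  have h0 : 0 ≤ ((p.2 : ℕ) : ℝ) * C.L p.1 := mul_nonneg (Nat.cast_nonneg _) (C.L_pos _).le
  have h1 := mul_le_mul_of_nonneg_right hi (C.L_pos p.1).le
  exact ⟨by linarith [ht.1], by rw [pulseEnd]; linarith [ht.2]⟩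

lemma round_unique {j k : ℕ} {t : ℝ} (h1 : C.T j < t) (h2 : t < C.T (j + 1)) (h3 : C.T k < t)
    (h4 : t < C.T (k + 1)) : j = k := by
  rcases lt_trichotomy j k with h | h | h
  · linarith [C.T_mono (show j + 1 ≤ k by omega)]
  · exact h
  · linarith [C.T_mono (show k + 1 ≤ j by omega)]

lemma slot_unique {p p' : ℕ × Fin C.N} {t : ℝ} (h : t ∈ C.slot p) (h' : t ∈ C.slot p') :
    p = p' := by
  have a := C.slot_subset p h
  have b := C.slot_subset p' h'
  obtain ⟨j, i⟩ := p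
  obtain ⟨k, i'⟩ := p'
  obtain rfl : j = k := C.round_unique a.1 (a.2.trans_le (C.pulseEnd_le j)) b.1
    (b.2.trans_le (C.pulseEnd_le k))
  obtain ⟨hl, hr⟩ := h
  obtain ⟨hl', hr'⟩ := h'
  have hL := C.L_pos j
  have e1 : ((i : ℕ) : ℝ) < (i' : ℕ) + 1 :=
    lt_of_mul_lt_mul_right (by linarith) hL.le
  have e2 : ((i' : ℕ) : ℝ) < (i : ℕ) + 1 :=
    lt_of_mul_lt_mul_right (by linarith) hL.le
  have f1 : (i : ℕ) < (i' : ℕ) + 1 := by exact_mod_cast e1
  have f2 : (i' : ℕ) < (i : ℕ) + 1 := by exact_mod_cast e2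
  obtain rfl : i = i' := Fin.ext (by omega)
  rfl

variable {n : ℕ}

open Classical in
/-- The complex structure: `J i` during pulse `i`, the standard one otherwise. -/
def Jfun (Ji : Fin C.N → Matrix (Fin n) (Fin n) ℝ) (t : ℝ) : Matrix (Fin n) (Fin n) ℝ :=
  if h : ∃ p, t ∈ C.slot p then Ji h.choose.2 else stdJ n

lemma Jfun_slot (Ji : Fin C.N → Matrix (Fin n) (Fin n) ℝ) {p : ℕ × Fin C.N} {t : ℝ}
    (h : t ∈ C.slot p) : C.Jfun Ji t = Ji p.2 := by
  have hex : ∃ p, t ∈ C.slot p := ⟨p, h⟩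
  rw [Jfun, dif_pos hex, C.slot_unique hex.choose_spec h]

lemma Jfun_out (Ji : Fin C.N → Matrix (Fin n) (Fin n) ℝ) {t : ℝ} (h : ∀ p, t ∉ C.slot p) :
    C.Jfun Ji t = stdJ n := by
  rw [Jfun, dif_neg (by simpa using h)]

lemma Jfun_early (Ji : Fin C.N → Matrix (Fin n) (Fin n) ℝ) {t : ℝ} (h : t ≤ C.T0) :
    C.Jfun Ji t = stdJ n :=
  C.Jfun_out Ji fun p hp => by linarith [(C.slot_subset p hp).1, C.T0_le p.1]

lemma Jfun_rest (Ji : Fin C.N → Matrix (Fin n) (Fin n) ℝ) {j : ℕ} {t : ℝ}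
    (h : t ∈ Set.Icc (C.pulseEnd j) (C.T (j + 1))) : C.Jfun Ji t = stdJ n := by
  refine C.Jfun_out Ji fun p hp => ?_
  obtain ⟨a1, a2⟩ := C.slot_subset p hp
  rcases lt_trichotomy p.1 j with hk | hk | hk
  · linarith [h.1, C.T_le_pulseEnd j, C.pulseEnd_le p.1, C.T_mono (show p.1 + 1 ≤ j by omega)]
  · rw [hk] at a2
    linarith [h.1]
  · linarith [h.2, C.T_mono (show j + 1 ≤ p.1 by omega)]

/-- In the pulse block the pulse `i` is active only inside its own slot. -/
lemma mem_slot_of_bump {j : ℕ} {i : Fin C.N} {t : ℝ}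
    (h : bump (C.eps j * (t - C.T j) - i) ≠ 0) : t ∈ C.slot (j, i) := by
  constructor
  · by_contra hc
    exact h (bump_outside (Or.inl (by
      linarith [C.scaled_le (j := j) (s := t) (b := C.T j) (k := (i : ℕ)) (not_lt.1 hc)])))
  · by_contra hc
    exact h (bump_outside (Or.inr (by
      linarith [C.le_scaled (j := j) (s := t) (b := C.T j) (k := (i : ℕ) + 1) (not_lt.1 hc)])))

lemma Jfun_of_bump (Ji : Fin C.N → Matrix (Fin n) (Fin n) ℝ) {j : ℕ} {i : Fin C.N} {t : ℝ}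
    (h : bump (C.eps j * (t - C.T j) - i) ≠ 0) : C.Jfun Ji t = Ji i :=
  C.Jfun_slot Ji (C.mem_slot_of_bump h)

lemma Jfun_isCS {Ji : Fin C.N → Matrix (Fin n) (Fin n) ℝ} (hJ : ∀ i, IsCS (Ji i))
    (hstd : IsCS (stdJ n)) (t : ℝ) : IsCS (C.Jfun Ji t) := by
  by_cases h : ∃ p, t ∈ C.slot p
  · obtain ⟨p, hp⟩ := h
    rw [C.Jfun_slot Ji hp]
    exact hJ _
  · rw [C.Jfun_out Ji (by simpa using h)]
    exact hstd

lemma pulseTau_near_node {j i : ℕ} (a : Fin C.N → ℝ) {t : ℝ}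
    (h : |t - (C.T j + i * C.L j)| ≤ C.L j / 4) : C.pulseTau j a t = 0 := by
  obtain ⟨h1, h2⟩ := abs_le.1 h
  have u1 : C.eps j * (t - C.T j) ≤ (i : ℝ) + 1 / 4 := C.scaled_le (by linarith)
  have u2 : (i : ℝ) - 1 / 4 ≤ C.eps j * (t - C.T j) := C.le_scaled (by linarith)
  rw [pulseTau, Finset.sum_eq_zero (fun k _ => ?_), mul_zero]
  rcases le_or_gt i (k : ℕ) with hk | hk
  · have hk' : (i : ℝ) ≤ (k : ℕ) := by exact_mod_cast hk
    rw [bump_left (by linarith), mul_zero]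
  · have hk' : ((k : ℕ) : ℝ) + 1 ≤ (i : ℝ) := by exact_mod_cast hk
    rw [bump_right (by linarith), mul_zero]

/-- The complex structure is locally constant, or the spheres are round nearby. -/
theorem local_J (τB : ℝ) (α : ℕ → Fin C.N → ℝ) (Ji : Fin C.N → Matrix (Fin n) (Fin n) ℝ) (t : ℝ) :
    (∀ᶠ s in 𝓝 t, C.Jfun Ji s = C.Jfun Ji t) ∨ ∀ᶠ s in 𝓝 t, C.tau τB α s = 0 := by
  rcases le_total t C.T0 with h | h
  · exact Or.inr (C.tau_eventually_zero_of_le τB α h)
  obtain ⟨j, h1, h2⟩ := C.exists_round h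
  rcases lt_or_ge (C.pulseEnd j) t with hp | hp
  · refine Or.inl ?_
    filter_upwards [Ioo_mem_nhds hp h2] with s hs
    rw [C.Jfun_rest Ji ⟨hs.1.le, hs.2.le⟩, C.Jfun_rest Ji ⟨hp.le, h2.le⟩]
  · set u := C.eps j * (t - C.T j) with hu
    have hu0 : 0 ≤ u := mul_nonneg (C.eps_pos j).le (by linarith)
    have hL := C.L_pos j
    have htu : t = C.T j + u * C.L j := by
      rw [hu, mul_comm (C.eps j), mul_assoc, eps_mul_L, mul_one]; ring
    have hfl := Nat.floor_le hu0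
    have hfl' := Nat.lt_floor_add_one u
    rcases eq_or_lt_of_le hfl with he | hlt
    · refine Or.inr ?_
      have hev := C.tau_eventually τB α ⟨h1, h2.le⟩
      have hnear : ∀ᶠ s in 𝓝 t, |s - (C.T j + (⌊u⌋₊ : ℝ) * C.L j)| ≤ C.L j / 4 := by
        rw [he, ← htu]
        filter_upwards [Ioo_mem_nhds (show t - C.L j / 4 < t by linarith)
          (show t < t + C.L j / 4 by linarith)] with s hs
        exact abs_le.2 ⟨by linarith [hs.1], by linarith [hs.2]⟩
      filter_upwards [hev, hnear] with s hs hs'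
      rw [hs, roundTau, C.pulseTau_near_node (α j) hs', zero_add]
      refine C.bergerTau_left ?_
      linarith [(abs_le.1 hs').2, mul_le_mul_of_nonneg_right hfl hL.le]
    · refine Or.inl ?_
      have hi : ⌊u⌋₊ < C.N := by
        have huN : u ≤ C.N := C.scaled_le (by rw [pulseEnd] at hp; linarith)
        have : (⌊u⌋₊ : ℝ) < C.N := lt_of_lt_of_le hlt huN
        exact_mod_cast this
      have hmem : t ∈ C.slot (j, ⟨⌊u⌋₊, hi⟩) := by
        refine ⟨?_, ?_⟩ <;> simp only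
        · linarith [mul_lt_mul_of_pos_right hlt hL]
        · linarith [mul_lt_mul_of_pos_right hfl' hL]
      filter_upwards [isOpen_Ioo.mem_nhds hmem] with s hs
      rw [C.Jfun_slot Ji hmem, C.Jfun_slot Ji (show s ∈ C.slot (j, ⟨⌊u⌋₊, hi⟩) from hs)]

end Clock

lemma smooth_deriv_bounded {f : ℝ → ℝ} (hf : Continuous f) (h : ∀ x, x ≤ 0 ∨ 1 ≤ x → f x = 0) :
    ∃ B, 0 ≤ B ∧ ∀ x, |f x| ≤ B := by
  obtain ⟨B, hB⟩ := (isCompact_Icc (a := (0 : ℝ)) (b := 1)).exists_bound_of_continuousOn hf.continuousOn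
  refine ⟨max B 0, le_max_right _ _, fun x => ?_⟩
  by_cases hx : x ∈ Set.Icc (0 : ℝ) 1
  · have := hB x hx
    rw [Real.norm_eq_abs] at this
    exact this.trans (le_max_left _ _)
  · rw [h x (by simp only [Set.mem_Icc, not_and_or, not_le] at hx; rcases hx with h' | h'
                · exact Or.inl h'.le
                · exact Or.inr h'.le)]
    simp

lemma deriv_eq_zero_outside {f : ℝ → ℝ} (hd : Continuous (deriv f)) {a b : ℝ}
    (ha : ∀ x ≤ a, f x = f a) (hb : ∀ x, b ≤ x → f x = f b) {x : ℝ} (hx : x ≤ a ∨ b ≤ x) :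
    deriv f x = 0 := by
  have hclosed : IsClosed {x | deriv f x = 0} := isClosed_eq hd continuous_const
  rcases hx with h | h
  · have hsub : Set.Iio a ⊆ {x | deriv f x = 0} := fun y hy => by
      have : f =ᶠ[𝓝 y] fun _ => f a := by
        filter_upwards [Iio_mem_nhds (Set.mem_Iio.1 hy)] with z hz
        exact ha z (Set.mem_Iio.1 hz).le
      simp [Set.mem_ofPred_eq, this.deriv_eq]
    exact closure_minimal hsub hclosed (by rw [closure_Iio]; exact h)
  · have hsub : Set.Ioi b ⊆ {x | deriv f x = 0} := fun y hy => by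
      have : f =ᶠ[𝓝 y] fun _ => f b := by
        filter_upwards [Ioi_mem_nhds (Set.mem_Ioi.1 hy)] with z hz
        exact hb z (Set.mem_Ioi.1 hz).le
      simp [Set.mem_ofPred_eq, this.deriv_eq]
    exact closure_minimal hsub hclosed (by rw [closure_Ioi]; exact h)

lemma deriv_scaled {f : ℝ → ℝ} (hf : Differentiable ℝ f) (e c t : ℝ) :
    HasDerivAt (fun t => f (e * (t - c))) (e * deriv f (e * (t - c))) t := by
  have h : HasDerivAt (fun t => e * (t - c)) e t := by
    simpa using ((hasDerivAt_id t).sub_const c).const_mul e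
  have := (hf _).hasDerivAt.comp t h
  rw [mul_comm] at this
  exact this

/-- Bounds for one round. -/
theorem round_bounds (N : ℕ) (R τB : ℝ) : ∃ B : ℝ, 0 ≤ B ∧
    ∀ (C : Clock), C.N = N → ∀ (j : ℕ) (a : Fin C.N → ℝ), (∀ i, |a i| ≤ R) → ∀ t,
      |C.pulseTau j a t| ≤ B * C.eps j ∧ |deriv (C.roundTau τB j a) t| ≤ B * C.eps j ∧
      |deriv (deriv (C.roundTau τB j a)) t| ≤ B * C.eps j := by
  have hst : Differentiable ℝ Real.smoothTransition :=
    (Real.smoothTransition.contDiff (n := 1)).differentiable one_ne_zero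
  have hst1 := contDiff_infty_iff_deriv.1 contDiff_deriv_st
  have hb1 := contDiff_infty_iff_deriv.1 bump_smooth
  have hb2 := contDiff_infty_iff_deriv.1 hb1.2
  have hzero : ∀ x, x ≤ 0 ∨ 1 ≤ x → deriv Real.smoothTransition x = 0 := by
    rintro x (h | h)
    · exact deriv_st_nonpos h
    · exact deriv_st_one_le h
  have hout : ∀ x, x ≤ 0 ∨ 1 ≤ x → bump x = 0 := fun x h => bump_outside h
  have hdb : ∀ x, x ≤ 0 ∨ 1 ≤ x → deriv bump x = 0 := fun x hx =>
    deriv_eq_zero_outside hb1.2.continuous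
      (fun y hy => by rw [hout y (Or.inl hy), hout 0 (Or.inl le_rfl)])
      (fun y hy => by rw [hout y (Or.inr hy), hout 1 (Or.inr le_rfl)]) hx
  have hddb : ∀ x, x ≤ 0 ∨ 1 ≤ x → deriv (deriv bump) x = 0 := fun x hx =>
    deriv_eq_zero_outside hb2.2.continuous
      (fun y hy => by rw [hdb y (Or.inl hy), hdb 0 (Or.inl le_rfl)])
      (fun y hy => by rw [hdb y (Or.inr hy), hdb 1 (Or.inr le_rfl)]) hx
  have hdds : ∀ x, x ≤ 0 ∨ 1 ≤ x → deriv (deriv Real.smoothTransition) x = 0 := fun x hx =>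
    deriv_eq_zero_outside hst1.2.continuous
      (fun y hy => by rw [hzero y (Or.inl hy), hzero 0 (Or.inl le_rfl)])
      (fun y hy => by rw [hzero y (Or.inr hy), hzero 1 (Or.inr le_rfl)]) hx
  obtain ⟨B0, hB0, hB0'⟩ := smooth_deriv_bounded bump_continuous hout
  obtain ⟨B1, hB1, hB1'⟩ := smooth_deriv_bounded hb1.2.continuous hdb
  obtain ⟨B2, hB2, hB2'⟩ := smooth_deriv_bounded hb2.2.continuous hddb
  obtain ⟨S1, hS1, hS1'⟩ := smooth_deriv_bounded contDiff_deriv_st.continuous hzero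
  obtain ⟨S2, hS2, hS2'⟩ := smooth_deriv_bounded hst1.2.continuous hdds
  set B := (N : ℝ) * |R| * (B0 + B1 + B2) + 2 * |τB| * (S1 + S2) with hB
  refine ⟨B, by positivity, fun C hC j a ha t => ?_⟩
  have he := C.eps_pos j
  have he1 := C.eps_le_one j
  set e := C.eps j with hedef
  have hsum : ∀ (f : ℝ → ℝ) (K : ℝ), 0 ≤ K → (∀ x, |f x| ≤ K) → ∀ u,
      |∑ i : Fin C.N, a i * f (u - i)| ≤ (N : ℝ) * |R| * K := by
    intro f K hK hf u
    refine (Finset.abs_sum_le_sum_abs _ _).trans ((Finset.sum_le_card_nsmul _ _ (|R| * K)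
      fun i _ => ?_).trans (le_of_eq ?_))
    · rw [abs_mul]
      exact mul_le_mul ((ha i).trans (le_abs_self R)) (hf _) (abs_nonneg _) (abs_nonneg _)
    · simp [hC, mul_assoc]
  have d1 : ∀ t, HasDerivAt (C.roundTau τB j a)
      (e * (e * ∑ i : Fin C.N, a i * deriv bump (e * (t - C.T j) - i))
        + τB * (e * deriv Real.smoothTransition (e * (t - (C.pulseEnd j + C.L j)))
          - e * deriv Real.smoothTransition (e * (t - C.dwellEnd j)))) t := by
    intro t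
    have hp : HasDerivAt (C.pulseTau j a)
        (e * (e * ∑ i : Fin C.N, a i * deriv bump (e * (t - C.T j) - i))) t := by
      have hterm : ∀ i : Fin C.N, HasDerivAt (fun t => a i * bump (e * (t - C.T j) - i))
          (a i * (e * deriv bump (e * (t - C.T j) - i))) t := by
        intro i
        have h : HasDerivAt (fun t => e * (t - C.T j) - (i : ℕ)) e t := by
          simpa using (((hasDerivAt_id t).sub_const (C.T j)).const_mul e).sub_const ((i : ℕ) : ℝ)
        have := (hb1.1 _).hasDerivAt.comp t h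
        rw [mul_comm] at this
        exact this.const_mul (a i)
      have := (HasDerivAt.fun_sum (u := Finset.univ) fun i _ => hterm i).const_mul e
      refine this.congr_deriv ?_
      simp only [Finset.mul_sum]
      exact Finset.sum_congr rfl fun i _ => by ring
    exact hp.add (((deriv_scaled hst e _ t).sub (deriv_scaled hst e _ t)).const_mul τB)
  have d2 : HasDerivAt (deriv (C.roundTau τB j a))
      (e * (e * (e * ∑ i : Fin C.N, a i * deriv (deriv bump) (e * (t - C.T j) - i)))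
        + τB * (e * (e * deriv (deriv Real.smoothTransition) (e * (t - (C.pulseEnd j + C.L j))))
          - e * (e * deriv (deriv Real.smoothTransition) (e * (t - C.dwellEnd j))))) t := by
    rw [show deriv (C.roundTau τB j a) = _ from funext fun s => (d1 s).deriv]
    have hterm : ∀ i : Fin C.N, HasDerivAt (fun t => a i * deriv bump (e * (t - C.T j) - i))
        (a i * (e * deriv (deriv bump) (e * (t - C.T j) - i))) t := by
      intro i
      have h : HasDerivAt (fun t => e * (t - C.T j) - (i : ℕ)) e t := by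
        simpa using (((hasDerivAt_id t).sub_const (C.T j)).const_mul e).sub_const ((i : ℕ) : ℝ)
      have := (hb2.1 _).hasDerivAt.comp t h
      rw [mul_comm] at this
      exact this.const_mul (a i)
    have hA := ((HasDerivAt.fun_sum (u := Finset.univ) fun i _ => hterm i).const_mul e).const_mul e
    have hS : Differentiable ℝ (deriv Real.smoothTransition) := hst1.1
    refine (hA.add ((((deriv_scaled hS e _ t).const_mul e).sub
      ((deriv_scaled hS e _ t).const_mul e)).const_mul τB)).congr_deriv ?_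
    congr 1
    congr 1
    simp only [Finset.mul_sum]
    exact Finset.sum_congr rfl fun i _ => by ring
  have hr0 := hsum bump B0 hB0 hB0' (e * (t - C.T j))
  have hr1 := hsum (deriv bump) B1 hB1 hB1' (e * (t - C.T j))
  have hr2 := hsum (deriv (deriv bump)) B2 hB2 hB2' (e * (t - C.T j))
  have hNR : 0 ≤ (N : ℝ) * |R| := by positivity
  have hee : e * e ≤ e * 1 := mul_le_mul_of_nonneg_left he1 he.le
  have hdiff : ∀ (f : ℝ → ℝ) (K : ℝ), (∀ x, |f x| ≤ K) → ∀ x y, |f x - f y| ≤ 2 * K :=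
    fun f K hf x y => (abs_sub _ _).trans (by linarith [hf x, hf y])
  refine ⟨?_, ?_, ?_⟩
  · rw [Clock.pulseTau, ← hedef, abs_mul, abs_of_pos he, mul_comm B]
    refine mul_le_mul_of_nonneg_left (hr0.trans ?_) he.le
    rw [hB]
    have : 0 ≤ 2 * |τB| * (S1 + S2) := by positivity
    linarith [mul_nonneg hNR hB1, mul_nonneg hNR hB2]
  · rw [(d1 t).deriv, ← mul_sub e, mul_left_comm τB, ← mul_add, abs_mul, abs_of_pos he, mul_comm B]
    refine mul_le_mul_of_nonneg_left ((abs_add_le _ _).trans ?_) he.le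
    rw [abs_mul, abs_mul, abs_of_pos he]
    have hq1 := (mul_le_of_le_one_left (abs_nonneg _) he1).trans hr1
    have hq2 := mul_le_mul_of_nonneg_left (hdiff _ S1 hS1' (e * (t - (C.pulseEnd j + C.L j)))
      (e * (t - C.dwellEnd j))) (abs_nonneg τB)
    rw [hB]
    linarith [mul_nonneg hNR hB0, mul_nonneg hNR hB2, mul_nonneg (abs_nonneg τB) hS2]
  · rw [d2.deriv, ← mul_sub e, ← mul_sub e, mul_left_comm τB, ← mul_add, abs_mul, abs_of_pos he,
      mul_comm B]
    refine mul_le_mul_of_nonneg_left ((abs_add_le _ _).trans ?_) he.le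
    rw [abs_mul, abs_mul, abs_mul, abs_mul, abs_of_pos he]
    have hq1 := ((mul_le_of_le_one_left (mul_nonneg he.le (abs_nonneg _)) he1).trans
      (mul_le_of_le_one_left (abs_nonneg _) he1)).trans hr2
    have hq2 := mul_le_mul_of_nonneg_left ((mul_le_of_le_one_left (abs_nonneg _) he1).trans
      (hdiff _ S2 hS2' (e * (t - (C.pulseEnd j + C.L j))) (e * (t - C.dwellEnd j))))
      (abs_nonneg τB)
    rw [hB]
    linarith [mul_nonneg hNR hB0, mul_nonneg hNR hB1, mul_nonneg (abs_nonneg τB) hS1]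

/-- The squashing is nearly in `[0, τB]`, slow, and its squared slope is negligible against
`t ^ (-7/6)`, once `j0` is large. -/
theorem tau_bounds (N : ℕ) (R τB δ K t0 T0 : ℝ) (hτ : 0 ≤ τB) (hδ : 0 < δ) (hK : 0 < K)
    (ht0 : 0 < t0) : ∃ J0 : ℕ, ∀ C : Clock, C.N = N → C.T0 = T0 → J0 ≤ C.j0 →
      ∀ α : ℕ → Fin C.N → ℝ, (∀ j i, |α j i| ≤ R) → ∀ t,
        C.tau τB α t ∈ Set.Icc (-δ) (τB + δ) ∧ |deriv (C.tau τB α) t| ≤ δ ∧
        |deriv (deriv (C.tau τB α)) t| ≤ δ ∧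
        deriv (C.tau τB α) t ^ 2 ≤ K * (max t 0 + t0) ^ (-(7 : ℝ) / 6) := by
  obtain ⟨B, hB0, hB⟩ := round_bounds N R τB
  obtain ⟨J1, hJ1⟩ := exists_nat_ge (B / δ)
  obtain ⟨J2, hJ2⟩ := exists_nat_ge (T0 + t0)
  obtain ⟨J3, hJ3⟩ := exists_nat_ge ((B ^ 2 * 9 / K) ^ (6 : ℕ))
  refine ⟨N + 4 + J1 + J2 + J3, fun C hCN hCT hj α hα t => ?_⟩
  rcases le_total t C.T0 with h | h
  · have e0 := C.tau_eventually_zero_of_le τB α h
    have e1 : deriv (C.tau τB α) t = 0 := by rw [e0.deriv_eq]; simp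
    have e2 : deriv (deriv (C.tau τB α)) t = 0 := by
      have := e0.deriv
      rw [this.deriv_eq]
      simp
    rw [C.tau_zero_of_le τB α h, e1, e2]
    refine ⟨⟨by linarith, by linarith⟩, by simpa using hδ.le, by simpa using hδ.le, ?_⟩
    rw [zero_pow two_ne_zero]
    have : 0 < max t 0 + t0 := by linarith [le_max_right t 0]
    positivity
  obtain ⟨j, h1, h2⟩ := C.exists_round h
  have ev := C.tau_eventually τB α ⟨h1, h2.le⟩
  obtain ⟨b0, b1, b2⟩ := hB C hCN j (α j) (hα j) t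
  have hM1 := C.one_le_M j
  have hMj := C.j0_le_M j
  have hjR : ((N + 4 + J1 + J2 + J3 : ℕ) : ℝ) ≤ C.j0 := by exact_mod_cast hj
  push_cast at hjR
  have hN0 : (0 : ℝ) ≤ N := Nat.cast_nonneg _
  have hj1 : (0 : ℝ) ≤ J1 := Nat.cast_nonneg _
  have hj2 : (0 : ℝ) ≤ J2 := Nat.cast_nonneg _
  have hj3 : (0 : ℝ) ≤ J3 := Nat.cast_nonneg _
  have heps : B * C.eps j ≤ δ := by
    rw [Clock.eps, ← div_eq_mul_inv, div_le_iff₀ (C.L_pos j)]
    have hBδ : B ≤ δ * C.M j := by
      have := mul_le_mul_of_nonneg_left (hJ1.trans (by linarith : (J1 : ℝ) ≤ C.M j)) hδ.le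
      rwa [mul_div_cancel₀ _ hδ.ne'] at this
    exact hBδ.trans (mul_le_mul_of_nonneg_left (le_self_pow₀ hM1 (by norm_num)) hδ.le)
  have hd1 : deriv (C.tau τB α) t = deriv (C.roundTau τB j (α j)) t := ev.deriv_eq
  have hd2 : deriv (deriv (C.tau τB α)) t = deriv (deriv (C.roundTau τB j (α j))) t :=
    ev.deriv.deriv_eq
  rw [ev.eq_of_nhds, hd1, hd2, Clock.roundTau]
  obtain ⟨g0, g1⟩ := C.bergerTau_mem hτ j t
  obtain ⟨p0, p1⟩ := abs_le.1 (b0.trans heps)
  refine ⟨⟨by linarith, by linarith⟩, b1.trans heps, b2.trans heps, ?_⟩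
  have ht : max t 0 = t := max_eq_left (C.hT0.trans h)
  have hN4 : C.N + 4 ≤ C.j0 := by omega
  have hend := C.T_succ_le hN4 j
  have hM5 : C.M j ≤ C.M j ^ 5 := le_self_pow₀ hM1 (by norm_num)
  have htt : t + t0 ≤ 3 * C.M j ^ 5 := by
    rw [hCT] at hend
    linarith
  have hpos : 0 < max t 0 + t0 := by linarith [le_max_right t 0]
  have hK' : B ^ 2 * 9 / K ≤ C.M j ^ ((1 : ℝ) / 6) := by
    have h6 : (B ^ 2 * 9 / K) ^ (6 : ℕ) ≤ C.M j := hJ3.trans (by linarith)
    have := Real.rpow_le_rpow (by positivity) h6 (show (0 : ℝ) ≤ 1 / 6 by norm_num)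
    rwa [one_div, show ((6 : ℝ)⁻¹) = ((6 : ℕ) : ℝ)⁻¹ by norm_num,
      Real.pow_rpow_inv_natCast (by positivity) (by norm_num),
      show (((6 : ℕ) : ℝ)⁻¹) = (1 / 6 : ℝ) by norm_num] at this
  have hsq : deriv (C.roundTau τB j (α j)) t ^ 2 ≤ B ^ 2 * C.eps j ^ 2 := by
    rw [← sq_abs, ← mul_pow]
    exact pow_le_pow_left₀ (abs_nonneg _) b1 2
  refine hsq.trans ?_
  have hMpos : 0 < C.M j := lt_of_lt_of_le one_pos hM1
  have hpow : (max t 0 + t0) ^ ((7 : ℝ) / 6) ≤ 9 * C.M j ^ ((35 : ℝ) / 6) := by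
    rw [ht]
    refine (Real.rpow_le_rpow (by linarith [C.hT0]) htt (by norm_num)).trans ?_
    rw [Real.mul_rpow (by norm_num) (by positivity), ← Real.rpow_natCast (C.M j) 5,
      ← Real.rpow_mul hMpos.le]
    refine mul_le_mul ?_ (le_of_eq (by norm_num)) (Real.rpow_nonneg hMpos.le _) (by norm_num)
    calc (3 : ℝ) ^ ((7 : ℝ) / 6) ≤ (3 : ℝ) ^ (2 : ℝ) :=
          Real.rpow_le_rpow_of_exponent_le (by norm_num) (by norm_num)
      _ = 9 := by norm_num
  rw [neg_div, Real.rpow_neg hpos.le, ← div_eq_mul_inv,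
    le_div_iff₀ (Real.rpow_pos_of_pos hpos _)]
  calc B ^ 2 * C.eps j ^ 2 * (max t 0 + t0) ^ ((7 : ℝ) / 6)
      ≤ B ^ 2 * C.eps j ^ 2 * (9 * C.M j ^ ((35 : ℝ) / 6)) :=
        mul_le_mul_of_nonneg_left hpow (by positivity)
    _ = B ^ 2 * 9 / C.M j ^ ((1 : ℝ) / 6) := by
        have he6 : C.eps j ^ 2 = (C.M j ^ ((35 : ℝ) / 6) * C.M j ^ ((1 : ℝ) / 6))⁻¹ := by
          rw [Clock.eps, Clock.L, inv_pow, ← Real.rpow_add hMpos, ← pow_mul]
          norm_num
        rw [he6]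
        field_simp
    _ ≤ K := by
        rw [div_le_iff₀ (Real.rpow_pos_of_pos hMpos _)]
        rw [div_le_iff₀ hK] at hK'
        linarith

end Vale.Agent.P225.Full.Schedule
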