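import Vale.Agent.P225.Full.AsmSpec
import Vale.Agent.P225.Full.Scalar
import Vale.Agent.P225.Full.RatioLin
import Vale.Agent.P225.Full.Schedule
import Vale.Agent.P225.Full.RoundSol

/-! # Elementary facts for the assembly -/

namespace Vale.Agent.P225.Full.Asm

open Real Filter Topology

lemma mC_eq : (Spec.mC : ℝ) = 16 := by norm_num [Spec.mC]

lemma lamR_eq32 (l : ℕ) : lamR l = (l : ℝ) * ((l : ℝ) + 32) := by
  simp only [lamR, sphEig, Spec.mC]
  push_cast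
  ring

lemma lamR_nonneg (l : ℕ) : 0 ≤ lamR l := lamR_nonneg_round l

lemma charge_sq_le {l P : ℕ} (hP : P ≤ l) : (2 * (P : ℝ) - l) ^ 2 ≤ lamR l := by
  rw [lamR_eq32]
  have h : (P : ℝ) ≤ l := by exact_mod_cast hP
  have h0 : (0 : ℝ) ≤ P := Nat.cast_nonneg P
  nlinarith

lemma expo_spec {lam : ℝ} (h : 0 ≤ lam) :
    0 ≤ Spec.expo lam ∧ Spec.expo lam * (Spec.expo lam + 32) = lam := by
  have h1 : 0 ≤ 1024 + 4 * lam := by positivity
  have h2 := Real.sq_sqrt h1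
  have h3 : 32 ≤ √(1024 + 4 * lam) := Real.le_sqrt_of_sq_le (by linarith)
  have e : Spec.expo lam = (√(1024 + 4 * lam) - 32) / 2 := by
    simp only [Spec.expo, mC_eq]
    norm_num
  rw [e]
  constructor
  · linarith
  · nlinarith

lemma expo_pos {lam : ℝ} (h : 0 < lam) : 0 < Spec.expo lam := by
  obtain ⟨h1, h2⟩ := expo_spec h.le
  rcases h1.lt_or_eq with h3 | h3
  · exact h3
  · rw [← h3] at h2; linarith

lemma gammaR_spec (l : ℕ) :
    0 ≤ gammaR l ∧ gammaR l * (gammaR l + 32) = lamR l * exp (-2 * pinfC) :=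
  expo_spec (mul_nonneg (lamR_nonneg l) (exp_pos _).le)

lemma gammaR_pos {l : ℕ} (hl : 1 ≤ l) : 0 < gammaR l := by
  refine expo_pos (mul_pos ?_ (exp_pos _))
  rw [lamR_eq32]
  have : (1 : ℝ) ≤ l := by exact_mod_cast hl
  positivity

lemma exp_pinfC_dwell : exp (-2 * pinfC + log Spec.tB / 33) = 1 / Spec.sB := by
  have h := sB_eq
  rw [← h, mC_eq, show (2 : ℝ) * 16 + 1 = 33 by norm_num, ← exp_add, one_div, ← exp_neg]
  congr 1
  ring

lemma muB_dwell (ψ : ℝ) (l P : ℕ) :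
    muB ψ (log Spec.tB) l P = exp (-2 * (ψ - pinfC)) * Spec.level l P := by
  have ht : (0 : ℝ) < Spec.tB := by norm_num [Spec.tB]
  have h1 : exp (-2 * ψ + log Spec.tB / 33) = exp (-2 * (ψ - pinfC)) * (1 / Spec.sB) := by
    rw [← exp_pinfC_dwell, ← exp_add]
    congr 1
    ring
  rw [muB, mC_eq, show (2 : ℝ) * 16 + 1 = 33 by norm_num, h1, exp_neg, exp_log ht, Spec.level,
    lamR_eq32, mC_eq, one_div Spec.tB]
  ring

lemma muB_zero (ψ : ℝ) (l P : ℕ) : muB ψ 0 l P = exp (-2 * ψ) * lamR l := by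
  simp [muB]

lemma muB_nonneg {ψ τ : ℝ} (hτ : 0 ≤ τ) {l P : ℕ} (hP : P ≤ l) : 0 ≤ muB ψ τ l P := by
  refine mul_nonneg (exp_pos _).le ?_
  have h1 := charge_sq_le hP
  have h2 : exp (-τ) ≤ 1 := exp_le_one_iff.2 (by linarith)
  have h3 := exp_pos (-τ)
  nlinarith [sq_nonneg (2 * (P : ℝ) - l)]

lemma level_nonneg {l P : ℕ} (hP : P ≤ l) : 0 ≤ Spec.level l P := by
  have h := muB_nonneg (ψ := pinfC) (Real.log_nonneg (show (1 : ℝ) ≤ Spec.tB by norm_num [Spec.tB])) hP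
  simpa [muB_dwell] using h

lemma muB_le {ψ τ : ℝ} (hψ : -1 ≤ ψ) (hτ0 : 0 ≤ τ) (hτ : τ ≤ 1) {l P : ℕ} :
    muB ψ τ l P ≤ exp 3 * lamR l := by
  have h2 : exp (-τ) ≤ 1 := exp_le_one_iff.2 (by linarith)
  have h4 : lamR l - (1 - exp (-τ)) * (2 * (P : ℝ) - l) ^ 2 ≤ lamR l := by
    nlinarith [sq_nonneg (2 * (P : ℝ) - l)]
  refine le_trans (mul_le_mul_of_nonneg_left h4 (exp_pos _).le)
    (mul_le_mul_of_nonneg_right (exp_le_exp.2 ?_) (lamR_nonneg l))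
  rw [mC_eq]
  linarith

lemma neg_one_le_pinfC : -1 ≤ pinfC := by
  rw [pinfC]
  have h1 : log Spec.sB ≥ 1 - Spec.sB⁻¹ := one_sub_inv_le_log_of_pos (by norm_num [Spec.sB])
  have h2 : 0 ≤ log Spec.tB := log_nonneg (by norm_num [Spec.tB])
  have h3 : Spec.sB⁻¹ ≤ 2 := by norm_num [Spec.sB]
  linarith

lemma neg_one_le_psi {t0 : ℝ} (ht0 : 0 < t0) (t : ℝ) : -1 ≤ Prof.psi pinfC t0 t :=
  neg_one_le_pinfC.trans (Prof.le_psi margins_C.1.le ht0 t)

lemma tendsto_drift {t0 : ℝ} (ht0 : 0 < t0) : Tendsto (drift0 t0) atTop (𝓝 32) := by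
  have h := ((tendsto_sig (p := pinfC) ht0).const_mul (2 * (Spec.mC : ℝ) + 1)).const_sub (2 * (Spec.mC : ℝ))
  rw [mul_zero, sub_zero, mC_eq] at h
  unfold drift0
  rw [mC_eq]
  norm_num at h ⊢
  exact h

/-- The derivative of a quotient by a positive function. -/
lemma deriv_div_pos {f U : ℝ → ℝ} (hf : ContDiff ℝ (⊤ : ℕ∞) f) (hU : ContDiff ℝ (⊤ : ℕ∞) U) {t : ℝ}
    (h : U t ≠ 0) :
    deriv (fun s => f s / U s) t = deriv f t / U t - f t / U t * (deriv U t / U t) := by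
  rw [deriv_fun_div (hf.differentiable (by simp)).differentiableAt
    (hU.differentiable (by simp)).differentiableAt h]
  field_simp

/-- Growth of a positive round solution. -/
lemma roundSol_growth {t0 : ℝ} (ht0 : 0 < t0) {l : ℕ} {U : ℝ → ℝ} (hU : IsRoundSol t0 l U)
    {a b cm Γ : ℝ} (hab : a ≤ b) (hcm : 0 < cm) (hΓ : 0 ≤ Γ)
    (hc : ∀ t ∈ Set.Icc a b, cm ≤ drift0 t0 t)
    (hM : ∀ t ∈ Set.Icc a b, exp (-2 * Prof.psi pinfC t0 t) * lamR l ≤ Γ * (Γ + cm))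
    (hr : deriv U a / U a ≤ Γ) : U b ≤ U a * exp (Γ * (b - a)) := by
  have h := scalarGrowth a b (drift0 t0) (fun t => exp (-2 * Prof.psi pinfC t0 t) * lamR l) U cm
    (Γ * (Γ + cm)) Γ hab (hU.1.of_le (WithTop.coe_le_coe.2 le_top)) (contDiff_drift0 ht0).continuous
    ((continuous_exp.comp (continuous_const.mul (Prof.contDiff_psi (n := ⊤) ht0).continuous)).mul
      continuous_const) (fun t _ => hU.2.2.2.1 t)
    (fun t ht => ⟨hc t ht, mul_nonneg (exp_pos _).le (lamR_nonneg l), hM t ht⟩) hΓ le_rfl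
    (by linarith) (hU.2.1 a).1 (hU.2.1 a).2
  refine h.2.trans (le_of_eq ?_)
  rw [max_eq_right (by linarith), zero_div, add_zero]

end Vale.Agent.P225.Full.Asm
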