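import Vale.Agent.P225.Full.AsmSpec

/-! # The coefficient matrices of the shell equations, and their solutions -/

namespace Vale.Agent.P225.Full

open MvPolynomial Matrix Filter Topology Finset

section xi

variable {n l : ℕ} {J : Matrix (Fin n) (Fin n) ℝ}

lemma xiSq_coe (hJ : IsCS J) (h : Harm n l) :
    ((xi2 n l J h : Harm n l) : Poly n) = xiPoly J (xiPoly J (h : Poly n)) :=
  xi2_apply hJ h

lemma genB_coe {m : ℕ} {J : Matrix (Fin (2 * m + 2)) (Fin (2 * m + 2)) ℝ} (hJ : IsCS J)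
    (h : Harm (2 * m + 2) l) :
    ((genB m l J h : Harm (2 * m + 2) l) : Poly (2 * m + 2)) =
      xiPoly J (xiPoly J (h : Poly (2 * m + 2))) +
        (sphEig (2 * m + 2) l / (2 * m + 1)) • (h : Poly (2 * m + 2)) :=
  isGen_genB m l J hJ h

lemma isCS_stdJ (m : ℕ) : IsCS (stdJ (2 * m + 2)) := by
  have hskew : ∀ a b : Fin (2 * m + 2), stdJ (2 * m + 2) a b = -stdJ (2 * m + 2) b a := fun a b => by
    simp only [stdJ]
    split_ifs <;> first | (exfalso; omega) | norm_num
  refine ⟨?_, ?_⟩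
  · ext a b
    rw [Matrix.transpose_apply, Matrix.neg_apply, hskew b a]
  · ext a b
    rw [Matrix.mul_apply, Matrix.neg_apply, Matrix.one_apply]
    by_cases ha : a.val % 2 = 0
    · rw [Finset.sum_eq_single ⟨a.val + 1, by omega⟩
        (fun c _ hc => by
          have : c.val ≠ a.val + 1 := fun h => hc (Fin.ext h)
          simp only [stdJ]
          split_ifs <;> first | (exfalso; omega) | simp)
        (by simp)]
      simp only [stdJ, Fin.ext_iff, and_true]
      split_ifs <;> first | (exfalso; omega) | norm_num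
    · rw [Finset.sum_eq_single ⟨a.val - 1, by omega⟩
        (fun c _ hc => by
          have : c.val ≠ a.val - 1 := fun h => hc (Fin.ext h)
          simp only [stdJ]
          split_ifs <;> first | (exfalso; omega) | simp)
        (by simp)]
      simp only [stdJ, Fin.ext_iff]
      split_ifs <;> first | (exfalso; omega) | norm_num

end xi

section matrices

variable {m l : ℕ} (P : Profile (2 * m + 2)) (E : Spec.EigenShell m l)

lemma genMat_genB (J : Matrix (Fin (2 * m + 2)) (Fin (2 * m + 2)) ℝ) :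
    Spec.genMat E (genB m l) J =
      xiMat E J + (sphEig (2 * m + 2) l / (2 * m + 1)) • (1 : Matrix (Fin E.D) (Fin E.D) ℝ) := by
  simp [Spec.genMat, xiMat, genB]

lemma xiMat_stdJ :
    xiMat E (stdJ (2 * m + 2)) =
      Matrix.diagonal fun a => -(2 * (E.charge a : ℝ) - l) ^ 2 := by
  ext a b
  have h : xi2 (2 * m + 2) l (stdJ (2 * m + 2)) (E.basis b) =
      (-(2 * (E.charge b : ℝ) - l) ^ 2) • E.basis b :=
    Subtype.ext (by rw [xi2_apply (isCS_stdJ m), Submodule.coe_smul]; exact E.eigen b)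
  rw [xiMat, LinearMap.toMatrix_apply, h, map_smul, Module.Basis.repr_self, Finsupp.smul_apply,
    Finsupp.single_apply, Matrix.diagonal_apply]
  rcases eq_or_ne a b with rfl | hab
  · simp
  · simp [hab, Ne.symm hab]

lemma Mshell_eq_xiMat (t : ℝ) :
    Mshell P E t = (Real.exp (-2 * P.q t) * sphEig (2 * m + 2) l) • (1 : Matrix (Fin E.D) (Fin E.D) ℝ)
      - (Real.exp (-2 * P.p t) - Real.exp (-2 * P.q t)) • xiMat E (P.J t) := rfl

lemma Mshell_stdJ {t : ℝ} (hJ : P.J t = stdJ (2 * m + 2)) :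
    Mshell P E t = Matrix.diagonal fun a =>
      Real.exp (-2 * P.q t) * sphEig (2 * m + 2) l +
        (Real.exp (-2 * P.p t) - Real.exp (-2 * P.q t)) * (2 * (E.charge a : ℝ) - l) ^ 2 :=
  Mshell_berger P E hJ (isCS_stdJ m)

lemma Mshell_muB {l : ℕ} (P : Profile (2 * Spec.mC + 2)) (E : Spec.EigenShell Spec.mC l) {t ψ τ : ℝ}
    (hp : P.p t = ψ + (Spec.mC : ℝ) / (2 * Spec.mC + 1) * τ)
    (hq : P.q t = ψ - τ / (2 * (2 * (Spec.mC : ℝ) + 1))) (hJ : P.J t = stdJ (2 * Spec.mC + 2)) :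
    Mshell P E t = Matrix.diagonal fun a => Asm.muB ψ τ l (E.charge a) := by
  rw [Mshell_stdJ P E hJ]
  congr 1
  funext a
  have h1 : Real.exp (-2 * P.q t) = Real.exp (-2 * ψ + τ / (2 * (Spec.mC : ℝ) + 1)) := by
    rw [hq]; congr 1; field_simp; ring
  have h2 : Real.exp (-2 * P.p t) = Real.exp (-2 * P.q t) * Real.exp (-τ) := by
    rw [← Real.exp_add, hp, hq]; congr 1; field_simp; ring
  simp only [Asm.muB, Asm.lamR, h2, h1]
  ring

lemma Profile.Adm.drift_smooth {P : Profile (2 * m + 2)} (hP : P.Adm) :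
    ContDiff ℝ (⊤ : ℕ∞) (P.drift m) := by
  have h1 : ContDiff ℝ (⊤ : ℕ∞) (deriv P.p) := (contDiff_infty_iff_deriv.1 hP.smooth_p).2
  have h2 : ContDiff ℝ (⊤ : ℕ∞) (deriv P.q) := (contDiff_infty_iff_deriv.1 hP.smooth_q).2
  exact (contDiff_const.add h1).add (contDiff_const.mul h2)

lemma Mshell_smooth (hP : P.Adm) (a b : Fin E.D) :
    ContDiff ℝ (⊤ : ℕ∞) fun t => Mshell P E t a b := by
  have hp := hP.smooth_p
  have hq := hP.smooth_q
  have e : ∀ t, Mshell P E t a b =
      Real.exp (-2 * P.q t) * sphEig (2 * m + 2) l * (1 : Matrix (Fin E.D) (Fin E.D) ℝ) a b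
        - (Real.exp (-2 * P.p t) - Real.exp (-2 * P.q t)) * xiMat E (P.J t) a b := fun t => by
    simp [Mshell_eq_xiMat]
  simp only [e]
  refine contDiff_iff_contDiffAt.2 fun t₀ => ?_
  rcases hP.local_J t₀ with h | h
  · refine ContDiffAt.congr_of_eventuallyEq (f := fun t =>
      Real.exp (-2 * P.q t) * sphEig (2 * m + 2) l * (1 : Matrix (Fin E.D) (Fin E.D) ℝ) a b
        - (Real.exp (-2 * P.p t) - Real.exp (-2 * P.q t)) * xiMat E (P.J t₀) a b) ?_ ?_
    · exact ContDiff.contDiffAt (by fun_prop)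
    · exact h.mono fun t ht => by simp only [ht]
  · refine ContDiffAt.congr_of_eventuallyEq (f := fun t =>
      Real.exp (-2 * P.q t) * sphEig (2 * m + 2) l * (1 : Matrix (Fin E.D) (Fin E.D) ℝ) a b) ?_ ?_
    · exact ContDiff.contDiffAt (by fun_prop)
    · exact h.mono fun t ht => by simp [ht]

end matrices

section solutions

variable {m l : ℕ} {P : Profile (2 * m + 2)} {E : Spec.EigenShell m l}

/-- Solutions of the shell equation with any data at any time. -/
theorem exists_shellSol (hLin : Spec.LinODE) (hP : P.Adm) (t₀ : ℝ) (y₀ y₁ : Fin E.D → ℝ) :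
    ∃ y : ℝ → Fin E.D → ℝ, IsShellSol P E y ∧
      ∀ a, y t₀ a = y₀ a ∧ deriv (fun t => y t a) t₀ = y₁ a := by
  obtain ⟨y, hs, h0, he⟩ :=
    (hLin E.D (P.drift m) (Mshell P E) hP.drift_smooth (Mshell_smooth P E hP)).1 t₀ y₀ y₁
  exact ⟨y, ⟨hs, he⟩, h0⟩

/-- They are unique. -/
theorem shellSol_unique (hLin : Spec.LinODE) (hP : P.Adm) {y z : ℝ → Fin E.D → ℝ}
    (hy : IsShellSol P E y) (hz : IsShellSol P E z) (t₀ : ℝ)
    (h0 : ∀ a, y t₀ a = z t₀ a ∧ deriv (fun t => y t a) t₀ = deriv (fun t => z t a) t₀) :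
    y = z := by
  have hu := (hLin E.D (P.drift m) (Mshell P E) hP.drift_smooth (Mshell_smooth P E hP)).2.2
  funext t a
  exact hu t₀ t y z (fun a => (hy.1 a).of_le (WithTop.coe_le_coe.2 le_top)) (fun a => (hz.1 a).of_le (WithTop.coe_le_coe.2 le_top))
    (fun a s _ => ⟨hy.2 a s, hz.2 a s⟩) h0 a t Set.right_mem_uIcc

/-- A function vanishing on a left half line has vanishing derivative there. -/
lemma deriv_eq_zero_of_flat {f : ℝ → ℝ} (hf : Differentiable ℝ f) (h : ∀ t ≤ 0, f t = 0) {t : ℝ}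
    (ht : t ≤ 0) : deriv f t = 0 := by
  have h1 : HasDerivWithinAt f (deriv f t) (Set.Iic t) t := (hf t).hasDerivAt.hasDerivWithinAt
  have h2 : HasDerivWithinAt f 0 (Set.Iic t) t :=
    (hasDerivWithinAt_const t (Set.Iic t) (0 : ℝ)).congr
      (fun s hs => h s (le_trans hs ht)) (h t ht)
  exact (uniqueDiffWithinAt_Iic t).eq_deriv (Set.Iic t) h1 h2

lemma drift_core (hP : P.Adm) {t : ℝ} (ht : t ≤ 0) : P.drift m t = 2 * m := by
  rw [Profile.drift,
    deriv_eq_zero_of_flat (hP.smooth_p.differentiable (by simp)) (fun s hs => (hP.flat s hs).1) ht,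
    deriv_eq_zero_of_flat (hP.smooth_q.differentiable (by simp)) (fun s hs => (hP.flat s hs).2) ht]
  ring

lemma Mshell_core (hP : P.Adm) {t : ℝ} (ht : t ≤ 0) :
    Mshell P E t = sphEig (2 * m + 2) l • (1 : Matrix (Fin E.D) (Fin E.D) ℝ) := by
  obtain ⟨h1, h2⟩ := hP.flat t ht
  simp [Mshell, h1, h2]

/-- A solution with the data of `exp (l t) e_b` at the time zero is this function before. -/
theorem shellSol_core (hLin : Spec.LinODE) (hP : P.Adm) {y : ℝ → Fin E.D → ℝ}
    (hy : IsShellSol P E y) (b : Fin E.D)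
    (h0 : ∀ a, y 0 a = (if a = b then 1 else 0) ∧
      deriv (fun t => y t a) 0 = if a = b then (l : ℝ) else 0) :
    ∀ t ≤ 0, ∀ a, y t a = if a = b then Real.exp (l * t) else 0 := by
  have hu := (hLin E.D (P.drift m) (Mshell P E) hP.drift_smooth (Mshell_smooth P E hP)).2.2
  set z : ℝ → Fin E.D → ℝ := fun t a => (if a = b then (1 : ℝ) else 0) * Real.exp (l * t) with hz
  have hd : ∀ a t, deriv (fun s => z s a) t = (l : ℝ) * z t a := fun a t => by
    have hl : HasDerivAt (fun s : ℝ => (l : ℝ) * s) (l : ℝ) t := by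
      simpa using (hasDerivAt_id t).const_mul (l : ℝ)
    rw [(hl.exp.const_mul (if a = b then (1 : ℝ) else 0)).deriv, hz]
    ring
  have hdd : ∀ a t, deriv (deriv fun s => z s a) t = (l : ℝ) ^ 2 * z t a := fun a t => by
    rw [funext (hd a), deriv_const_mul_field, hd]
    ring
  have hzs : ∀ a, ContDiff ℝ 2 fun t => z t a := fun a => by simp only [hz]; fun_prop
  intro t ht a
  rw [hu 0 t y z (fun a => (hy.1 a).of_le (WithTop.coe_le_coe.2 le_top)) hzs (fun a s hs => ?_) (fun a => ?_) a t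
    Set.right_mem_uIcc]
  · simp [hz]
  · refine ⟨hy.2 a s, ?_⟩
    have hs0 : s ≤ 0 := by
      rw [Set.uIcc_of_ge ht] at hs
      exact hs.2
    rw [hd, hdd, drift_core hP hs0, Mshell_core hP hs0]
    simp only [Matrix.smul_apply, Matrix.one_apply, smul_eq_mul, mul_ite, mul_one, mul_zero, ite_mul,
      zero_mul, Finset.sum_ite_eq, Finset.mem_univ, if_true, sphEig]
    push_cast
    ring
  · rw [(h0 a).1, (h0 a).2, hd]
    by_cases h : a = b <;> simp [hz, h]

/-- The solution starting as a mode of the flat core. -/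
theorem exists_coreSol (hLin : Spec.LinODE) (hP : P.Adm) (b : Fin E.D) :
    ∃ y : ℝ → Fin E.D → ℝ, IsShellSol P E y ∧
      ∀ t ≤ 0, ∀ a, y t a = if a = b then Real.exp (l * t) else 0 := by
  obtain ⟨y, hy, h0⟩ := exists_shellSol hLin hP 0 (fun a => if a = b then 1 else 0)
    fun a => if a = b then (l : ℝ) else 0
  exact ⟨y, hy, shellSol_core hLin hP hy b h0⟩

lemma IsShellSol.sum_eq {y : ℝ → Fin E.D → ℝ} (hy : IsShellSol P E y) (t : ℝ) (a : Fin E.D) :
    deriv (deriv fun s => y s a) t + P.drift m t * deriv (fun s => y s a) t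
      = (Mshell P E t *ᵥ y t) a :=
  hy.2 a t

end solutions

end Vale.Agent.P225.Full
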