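import Vale.Agent.P225.Full.Model

/-! # Completeness of the model metrics, given that their components are continuous -/

namespace Vale.Agent.P225.Full.Cpl

open MeasureTheory Filter Topology Matrix Finset

variable {n : ℕ}

lemma rad_sq (x : Coord n) : rad x ^ 2 = ∑ i, x i ^ 2 :=
  Real.sq_sqrt (sum_nonneg fun i _ => sq_nonneg _)

lemma rad_nonneg (x : Coord n) : 0 ≤ rad x := Real.sqrt_nonneg _

lemma rad_pos {x : Coord n} (hx : x ≠ 0) : 0 < rad x := by
  obtain ⟨i, hi⟩ := Function.ne_iff.1 hx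
  have hi0 : x i ≠ 0 := hi
  exact Real.sqrt_pos.2 (lt_of_lt_of_le (pow_two_pos_of_ne_zero hi0)
    (single_le_sum (f := fun i => x i ^ 2) (fun _ _ => sq_nonneg _) (mem_univ i)))

lemma rad_zero : rad (0 : Coord n) = 0 := by simp [rad]

lemma abs_le_rad (x : Coord n) (i : Fin n) : |x i| ≤ rad x := by
  rw [← Real.sqrt_sq_eq_abs]
  exact Real.sqrt_le_sqrt (single_le_sum (f := fun i => x i ^ 2) (fun _ _ => sq_nonneg _) (mem_univ i))

lemma dot_skew {J : Matrix (Fin n) (Fin n) ℝ} (hJ : IsCS J) (x : Coord n) :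
    ∑ i, x i * (J *ᵥ x) i = 0 := by
  have h : x ⬝ᵥ (J *ᵥ x) = -(x ⬝ᵥ (J *ᵥ x)) := by
    conv_lhs => rw [dotProduct_mulVec, ← mulVec_transpose, hJ.1, neg_mulVec, neg_dotProduct,
      dotProduct_comm]
  have h' : (∑ i, x i * (J *ᵥ x) i) = -∑ i, x i * (J *ᵥ x) i := h
  linarith

lemma norm_J {J : Matrix (Fin n) (Fin n) ℝ} (hJ : IsCS J) (x : Coord n) :
    ∑ i, (J *ᵥ x) i ^ 2 = ∑ i, x i ^ 2 := by
  have h : (J *ᵥ x) ⬝ᵥ (J *ᵥ x) = x ⬝ᵥ x := by
    rw [dotProduct_mulVec, ← mulVec_transpose, hJ.1, mulVec_mulVec, neg_mul, hJ.2]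
    simp
  simpa [dotProduct, sq] using h

/-- The quadratic form of a metric. -/
def quad (g : MetricField n) (x v : Coord n) : ℝ := ∑ i, ∑ j, g x i j * v i * v j

variable (P : Profile n)

lemma quad_zero (v : Coord n) : quad P.metric 0 v = ∑ i, v i ^ 2 := by
  simp [quad, Profile.metric, sq, Finset.sum_ite_eq]

lemma quad_eq {x : Coord n} (hx : x ≠ 0) (v : Coord n) :
    quad P.metric x v = radPart x v ^ 2
      + Real.exp (2 * P.q (logRad x)) *
          ((∑ i, v i ^ 2) - radPart x v ^ 2 - fibPart (P.J (logRad x)) x v ^ 2)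
      + Real.exp (2 * P.p (logRad x)) * fibPart (P.J (logRad x)) x v ^ 2 := by
  have hd : ∀ i : Fin n, ∑ j, (if i = j then (1 : ℝ) else 0) * v i * v j = v i ^ 2 := fun i => by
    simp [Finset.sum_ite_eq, sq]
  set r := rad x
  set a := Real.exp (2 * P.p (logRad x))
  set b := Real.exp (2 * P.q (logRad x))
  set w := P.J (logRad x) *ᵥ x with hw
  have e : ∀ i j, P.metric x i j * v i * v j =
      (1 - b) * ((x i * v i) * (x j * v j) / r ^ 2) + b * ((if i = j then (1 : ℝ) else 0) * v i * v j)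
        + (a - b) * ((w i * v i) * (w j * v j) / r ^ 2) := fun i j => by
    rw [Profile.metric, if_neg hx]
    simp only [r, a, b, w]
    ring
  simp only [quad, e, sum_add_distrib, ← mul_sum, hd, ← sum_div, ← sum_mul, radPart, fibPart, div_pow, r,
    ← hw]
  ring

lemma bessel {J : Matrix (Fin n) (Fin n) ℝ} (hJ : IsCS J) {x : Coord n} (hx : x ≠ 0) (v : Coord n) :
    radPart x v ^ 2 + fibPart J x v ^ 2 ≤ ∑ i, v i ^ 2 := by
  have hr := rad_pos hx
  set A := radPart x v with hA
  set F := fibPart J x v with hF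
  set w := J *ᵥ x with hw
  have e1 : ∑ i, x i * v i = A * rad x := by rw [hA, radPart, div_mul_cancel₀ _ hr.ne']
  have e2 : ∑ i, w i * v i = F * rad x := by rw [hF, fibPart, div_mul_cancel₀ _ hr.ne']
  have e3 : ∑ i, w i ^ 2 = rad x ^ 2 := by rw [hw, norm_J hJ, rad_sq]
  have e4 : ∑ i, x i * w i = 0 := dot_skew hJ x
  have h0 : 0 ≤ ∑ i, (v i * rad x - A * x i - F * w i) ^ 2 := sum_nonneg fun i _ => sq_nonneg _
  have e : ∑ i, (v i * rad x - A * x i - F * w i) ^ 2 =
      rad x ^ 2 * ((∑ i, v i ^ 2) - A ^ 2 - F ^ 2) := by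
    have e' : ∀ i, (v i * rad x - A * x i - F * w i) ^ 2 =
        rad x ^ 2 * v i ^ 2 + A ^ 2 * x i ^ 2 + F ^ 2 * w i ^ 2 - 2 * rad x * A * (x i * v i)
          - 2 * rad x * F * (w i * v i) + 2 * A * F * (x i * w i) := fun i => by ring
    simp only [e', sum_add_distrib, sum_sub_distrib, ← mul_sum, e1, e2, e3, e4, ← rad_sq]
    ring
  rw [e] at h0
  nlinarith [(mul_nonneg_iff_of_pos_left (show 0 < rad x ^ 2 by positivity)).1 h0]

lemma radPart_sq_le (hP : P.Adm) (x v : Coord n) : radPart x v ^ 2 ≤ quad P.metric x v := by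
  by_cases hx : x = 0
  · subst hx; simp [quad_zero, radPart, rad_zero, sum_nonneg fun i _ => sq_nonneg (v i)]
  rw [quad_eq P hx]
  have h := bessel (hP.cs (logRad x)) hx v
  have h1 := Real.exp_pos (2 * P.q (logRad x))
  have h2 := Real.exp_pos (2 * P.p (logRad x))
  nlinarith [mul_nonneg h1.le (sub_nonneg.2 h), mul_nonneg h2.le (sq_nonneg (fibPart (P.J (logRad x)) x v))]

lemma quad_nonneg (hP : P.Adm) (x v : Coord n) : 0 ≤ quad P.metric x v :=
  (sq_nonneg _).trans (radPart_sq_le P hP x v)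

/-- On a ball the metric is comparable to the Euclidean one. -/
lemma quad_bounds (hP : P.Adm) (R : ℝ) : ∃ B : ℝ, 0 ≤ B ∧ ∀ x : Coord n, rad x ≤ R → ∀ v : Coord n,
    Real.exp (-(2 * B)) * (∑ i, v i ^ 2) ≤ quad P.metric x v ∧
      quad P.metric x v ≤ Real.exp (2 * B) * ∑ i, v i ^ 2 := by
  obtain ⟨Bp, hBp⟩ := (isCompact_Icc (a := (0 : ℝ)) (b := Real.log (max R 1))).exists_bound_of_continuousOn
    hP.smooth_p.continuous.continuousOn
  obtain ⟨Bq, hBq⟩ := (isCompact_Icc (a := (0 : ℝ)) (b := Real.log (max R 1))).exists_bound_of_continuousOn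
    hP.smooth_q.continuous.continuousOn
  set B := max 0 (max Bp Bq) with hB
  have hB0 : 0 ≤ B := le_max_left _ _
  refine ⟨B, hB0, fun x hx v => ?_⟩
  have hv : 0 ≤ ∑ i, v i ^ 2 := sum_nonneg fun i _ => sq_nonneg _
  have hlo : Real.exp (-(2 * B)) ≤ 1 := Real.exp_le_one_iff.2 (by linarith)
  have hhi : 1 ≤ Real.exp (2 * B) := Real.one_le_exp (by linarith)
  by_cases hx0 : x = 0
  · subst hx0
    rw [quad_zero]
    exact ⟨mul_le_of_le_one_left hv hlo, le_mul_of_one_le_left hv hhi⟩
  set t := logRad x with ht'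
  have hpq : |P.p t| ≤ B ∧ |P.q t| ≤ B := by
    rcases le_or_gt t 0 with ht | ht
    · obtain ⟨h1, h2⟩ := hP.flat t ht
      simp [h1, h2, hB0]
    have htI : t ∈ Set.Icc 0 (Real.log (max R 1)) :=
      ⟨ht.le, Real.log_le_log (rad_pos hx0) (hx.trans (le_max_left _ _))⟩
    exact ⟨(hBp t htI).trans ((le_max_left _ _).trans (le_max_right _ _)),
      (hBq t htI).trans ((le_max_right _ _).trans (le_max_right _ _))⟩
  have hE : ∀ s : ℝ, |s| ≤ B → Real.exp (-(2 * B)) ≤ Real.exp (2 * s) ∧ Real.exp (2 * s) ≤ Real.exp (2 * B) :=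
    fun s hs => ⟨Real.exp_le_exp.2 (by linarith [(abs_le.1 hs).1]), Real.exp_le_exp.2 (by linarith [(abs_le.1 hs).2])⟩
  have hp := hE _ hpq.1
  have hq := hE _ hpq.2
  rw [quad_eq P hx0]
  have h := bessel (hP.cs t) hx0 v
  set A := radPart x v ^ 2
  set F := fibPart (P.J t) x v ^ 2
  have hA : 0 ≤ A := sq_nonneg _
  have hF : 0 ≤ F := sq_nonneg _
  have hH : 0 ≤ (∑ i, v i ^ 2) - A - F := by linarith
  constructor
  · nlinarith [mul_le_mul_of_nonneg_right hlo hA, mul_le_mul_of_nonneg_right hq.1 hH,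
      mul_le_mul_of_nonneg_right hp.1 hF]
  · nlinarith [mul_le_mul_of_nonneg_right hhi hA, mul_le_mul_of_nonneg_right hq.2 hH,
      mul_le_mul_of_nonneg_right hp.2 hF]

variable {P}

/-- The integrand of the length of a curve. -/
noncomputable def speed (g : MetricField n) (c : ℝ → Coord n) (t : ℝ) : ℝ :=
  Real.sqrt (quad g (c t) (deriv c t))

lemma curveLength_eq (g : MetricField n) (c : ℝ → Coord n) :
    curveLength g c = ∫ t in (0 : ℝ)..1, speed g c t := rfl

section curve

variable (hg : ∀ i j, Continuous fun x => P.metric x i j) {c : ℝ → Coord n} (hc : ContDiff ℝ 1 c)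
include hg hc

lemma continuous_speed : Continuous (speed P.metric c) := by
  have hd : Continuous (deriv c) := hc.continuous_deriv le_rfl
  refine Real.continuous_sqrt.comp (continuous_finsetSum _ fun i _ => continuous_finsetSum _ fun j _ => ?_)
  exact (((hg i j).comp hc.continuous).mul ((continuous_apply i).comp hd)).mul
    ((continuous_apply j).comp hd)

lemma length_mono {s : ℝ} (h0 : 0 ≤ s) (h1 : s ≤ 1) :
    (∫ t in (0 : ℝ)..s, speed P.metric c t) ≤ curveLength P.metric c := by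
  rw [curveLength_eq]
  exact intervalIntegral.integral_mono_interval le_rfl h0 h1
    (Eventually.of_forall fun t => Real.sqrt_nonneg _) ((continuous_speed hg hc).intervalIntegrable _ _)

/-- The radius moves no faster than the length. -/
lemma abs_rad_sub_le (hP : P.Adm) {s : ℝ} (h0 : 0 ≤ s) (h1 : s ≤ 1) :
    |rad (c s) - rad (c 0)| ≤ curveLength P.metric c := by
  refine le_of_forall_pos_le_add fun δ hδ => ?_
  set φ : ℝ → ℝ := fun t => Real.sqrt (δ ^ 2 + ∑ i, c t i ^ 2) with hφ
  have hd : Differentiable ℝ c := hc.differentiable one_ne_zero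
  have hci : ∀ t i, HasDerivAt (fun t => c t i) (deriv c t i) t := fun t i =>
    (hasDerivAt_pi.1 (hd t).hasDerivAt) i
  have hpos : ∀ t, 0 < δ ^ 2 + ∑ i, c t i ^ 2 := fun t =>
    add_pos_of_pos_of_nonneg (by positivity) (sum_nonneg fun i _ => sq_nonneg _)
  set φ' : ℝ → ℝ := fun t => (∑ i, c t i * deriv c t i) / φ t
  have hφd : ∀ t, HasDerivAt φ (φ' t) t := fun t => by
    refine (((HasDerivAt.fun_sum (u := univ) fun i _ => (hci t i).fun_pow 2).const_add (δ ^ 2)).sqrt
      (hpos t).ne').congr_deriv ?_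
    simp only [φ', φ, Nat.cast_ofNat, Nat.add_one_sub_one, pow_one]
    rw [div_eq_div_iff (mul_pos two_pos (Real.sqrt_pos.2 (hpos t))).ne' (Real.sqrt_pos.2 (hpos t)).ne',
      Finset.sum_mul, Finset.sum_mul]
    exact sum_congr rfl fun i _ => by ring
  have hφc : Continuous φ' := by
    have hdc : Continuous (deriv c) := hc.continuous_deriv le_rfl
    refine (continuous_finsetSum _ fun i _ => ((continuous_apply i).comp hc.continuous).mul
      ((continuous_apply i).comp hdc)).div ?_ fun t => (Real.sqrt_pos.2 (hpos t)).ne'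
    exact continuous_iff_continuousAt.2 fun t => (hφd t).continuousAt
  have hle : ∀ t, |φ' t| ≤ speed P.metric c t := fun t => by
    refine le_trans ?_ (Real.abs_le_sqrt (radPart_sq_le P hP (c t) (deriv c t)))
    rcases eq_or_ne (c t) 0 with h | h
    · simp [φ', h]
    rw [radPart, abs_div, abs_div, abs_of_pos (Real.sqrt_pos.2 (hpos t)), abs_of_pos (rad_pos h)]
    exact div_le_div_of_nonneg_left (abs_nonneg _) (rad_pos h)
      (Real.sqrt_le_sqrt (le_add_of_nonneg_left (sq_nonneg δ)))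
  have hI : |φ s - φ 0| ≤ curveLength P.metric c := by
    rw [← intervalIntegral.integral_eq_sub_of_hasDerivAt (fun t _ => hφd t) (hφc.intervalIntegrable _ _)]
    refine (intervalIntegral.abs_integral_le_integral_abs h0).trans ((intervalIntegral.integral_mono_on h0
      (hφc.abs.intervalIntegrable _ _) ((continuous_speed hg hc).intervalIntegrable _ _)
      fun t _ => hle t).trans (length_mono hg hc h0 h1))
  have hb : ∀ t, rad (c t) ≤ φ t ∧ φ t ≤ rad (c t) + δ := fun t => by
    refine ⟨Real.sqrt_le_sqrt (le_add_of_nonneg_left (sq_nonneg δ)), ?_⟩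
    rw [hφ, Real.sqrt_le_left (add_nonneg (rad_nonneg _) hδ.le), ← rad_sq]
    nlinarith [rad_nonneg (c t)]
  rw [abs_le] at hI ⊢
  constructor <;> linarith [(hb s).1, (hb s).2, (hb 0).1, (hb 0).2]

/-- The Euclidean displacement is bounded by the length inside a ball. -/
lemma dist_le_length {R : ℝ} {B : ℝ}
    (hB : ∀ x : Coord n, rad x ≤ R → ∀ v : Coord n, Real.exp (-(2 * B)) * (∑ i, v i ^ 2) ≤ quad P.metric x v)
    (hR : ∀ t ∈ Set.Icc (0 : ℝ) 1, rad (c t) ≤ R) :
    dist (c 1) (c 0) ≤ Real.exp B * curveLength P.metric c := by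
  have hdc : Continuous (deriv c) := hc.continuous_deriv le_rfl
  have hd : Differentiable ℝ c := hc.differentiable one_ne_zero
  have h0 : 0 ≤ curveLength P.metric c :=
    intervalIntegral.integral_nonneg zero_le_one fun t _ => Real.sqrt_nonneg _
  refine (dist_pi_le_iff (mul_nonneg (Real.exp_pos _).le h0)).2 fun i => ?_
  have hi : Continuous fun t => deriv c t i := (continuous_apply i).comp hdc
  rw [Real.dist_eq, ← intervalIntegral.integral_eq_sub_of_hasDerivAt
    (f := fun t => c t i) (f' := fun t => deriv c t i)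
    (fun t _ => (hasDerivAt_pi.1 (hd t).hasDerivAt) i) (hi.intervalIntegrable _ _), curveLength_eq,
    ← intervalIntegral.integral_const_mul]
  refine (intervalIntegral.abs_integral_le_integral_abs zero_le_one).trans
    (intervalIntegral.integral_mono_on zero_le_one (hi.abs.intervalIntegrable _ _)
      (((continuous_speed hg hc).const_mul _).intervalIntegrable _ _) fun t ht => ?_)
  rw [speed, ← Real.sqrt_sq (Real.exp_pos B).le, ← Real.sqrt_mul (sq_nonneg _)]
  refine Real.abs_le_sqrt ?_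
  have h := hB (c t) (hR t ht) (deriv c t)
  calc deriv c t i ^ 2 ≤ ∑ j, deriv c t j ^ 2 :=
        single_le_sum (f := fun j => deriv c t j ^ 2) (fun _ _ => sq_nonneg _) (mem_univ i)
    _ = Real.exp B ^ 2 * (Real.exp (-(2 * B)) * ∑ j, deriv c t j ^ 2) := by
        rw [← mul_assoc, sq, ← Real.exp_add, ← Real.exp_add]
        simp [two_mul]
    _ ≤ Real.exp B ^ 2 * quad P.metric (c t) (deriv c t) := mul_le_mul_of_nonneg_left h (sq_nonneg _)

end curve

/-- The straight path. -/
def seg (x y : Coord n) (t : ℝ) : Coord n := x + t • (y - x)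

lemma seg_mem (x y : Coord n) : seg x y ∈ paths Set.univ x y :=
  ⟨contDiff_const.add (contDiff_id.smul contDiff_const), by simp [seg], by simp [seg],
    fun _ _ => Set.mem_univ _⟩

lemma rdist_le_length (g : MetricField n) {x y : Coord n} {c : ℝ → Coord n}
    (hc : c ∈ paths Set.univ x y) : rdist Set.univ g x y ≤ curveLength g c :=
  csInf_le ⟨0, by
    rintro _ ⟨d, -, rfl⟩
    exact intervalIntegral.integral_nonneg zero_le_one fun t _ => Real.sqrt_nonneg _⟩ ⟨c, hc, rfl⟩

lemma le_rdist (g : MetricField n) {x y : Coord n} {a : ℝ}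
    (h : ∀ c ∈ paths Set.univ x y, a ≤ curveLength g c) : a ≤ rdist Set.univ g x y :=
  le_csInf (Set.Nonempty.image _ ⟨_, seg_mem x y⟩) (by rintro _ ⟨c, hc, rfl⟩; exact h c hc)

theorem abs_rad_sub_le_rdist (hP : P.Adm) (hg : ∀ i j, Continuous fun x => P.metric x i j) (x y : Coord n) :
    |rad y - rad x| ≤ rdist Set.univ P.metric x y :=
  le_rdist _ fun c ⟨hc, h0, h1, _⟩ => by
    simpa [h0, h1] using abs_rad_sub_le hg hc hP zero_le_one le_rfl

/-- Completeness and the distance bound. -/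
theorem complete_of_continuous (hP : P.Adm) (hg : ∀ i j, Continuous fun x => P.metric x i j) :
    IsCompleteConnected Set.univ P.metric ∧ ∀ x, rad x ≤ rdist Set.univ P.metric 0 x := by
  refine ⟨⟨isConnected_univ, fun x _ y _ => ⟨_, seg_mem x y⟩, fun z _ hz => ?_⟩, fun x => ?_⟩
  swap
  · have := abs_rad_sub_le_rdist hP hg 0 x
    rwa [rad_zero, sub_zero, abs_of_nonneg (rad_nonneg x)] at this
  obtain ⟨N₁, hN₁⟩ := hz 1 one_pos
  set R := rad (z N₁) + 3 with hRdef
  obtain ⟨B, hB0, hB⟩ := quad_bounds P hP R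
  have hz1 : ∀ a ≥ N₁, rad (z a) ≤ rad (z N₁) + 1 := fun a ha => by
    have h := (abs_rad_sub_le_rdist hP hg (z N₁) (z a)).trans_lt (hN₁ N₁ le_rfl a ha)
    linarith [(abs_lt.1 h).2]
  have key : ∀ a ≥ N₁, ∀ b ≥ N₁, ∀ ε, 0 < ε → ε ≤ 1 → rdist Set.univ P.metric (z a) (z b) < ε →
      dist (z b) (z a) ≤ Real.exp B * ε := fun a ha b _ ε hε hε1 h => by
    obtain ⟨_, ⟨c, ⟨hc, h0, h1, hm⟩, rfl⟩, hl⟩ :=
      (csInf_lt_iff ⟨0, by
        rintro _ ⟨d, -, rfl⟩
        exact intervalIntegral.integral_nonneg zero_le_one fun t _ => Real.sqrt_nonneg _⟩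
        (Set.Nonempty.image _ ⟨_, seg_mem (z a) (z b)⟩)).1 h
    refine le_trans ?_ (mul_le_mul_of_nonneg_left hl.le (Real.exp_pos _).le)
    rw [← h0, ← h1]
    refine dist_le_length hg hc (fun x hx v => (hB x hx v).1) fun t ht => ?_
    have h' := abs_rad_sub_le hg hc hP ht.1 ht.2
    rw [h0] at h'
    linarith [(abs_le.1 h').2, hz1 a ha]
  have hcs : CauchySeq z := by
    refine Metric.cauchySeq_iff'.2 fun ε hε => ?_
    set ε' := min 1 (ε / (2 * Real.exp B)) with hε'
    obtain ⟨N, hN⟩ := hz ε' (lt_min one_pos (by positivity))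
    refine ⟨max N N₁, fun b hb => lt_of_le_of_lt (key (max N N₁) (le_max_right _ _) b
      ((le_max_right _ _).trans hb) ε' (lt_min one_pos (by positivity)) (min_le_left _ _)
      (hN _ (le_max_left _ _) b ((le_max_left _ _).trans hb))) ?_⟩
    calc Real.exp B * ε' ≤ Real.exp B * (ε / (2 * Real.exp B)) :=
          mul_le_mul_of_nonneg_left (min_le_right _ _) (Real.exp_pos _).le
      _ = ε / 2 := by field_simp
      _ < ε := half_lt_self hε
  obtain ⟨p, hp⟩ := cauchySeq_tendsto_of_complete hcs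
  refine ⟨p, Set.mem_univ _, ?_⟩
  have hd : Tendsto (fun a => dist p (z a)) atTop (𝓝 0) := by
    simpa [dist_comm] using tendsto_iff_dist_tendsto_zero.1 hp
  have hradc : Continuous (rad : Coord n → ℝ) := by unfold rad; fun_prop
  obtain ⟨C, hC⟩ := eventually_atTop.1 ((hradc.tendsto p).comp hp |>.eventually (gt_mem_nhds (lt_add_one (rad p))))
  set T := max R (2 * (rad p + 1))
  obtain ⟨B', hB'0, hB'⟩ := quad_bounds P hP T
  refine squeeze_zero' (Eventually.of_forall fun a => le_rdist _ fun c _ =>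
    intervalIntegral.integral_nonneg zero_le_one fun t _ => Real.sqrt_nonneg _)
    (g := fun a => Real.exp B' * (Real.sqrt n * dist p (z a))) (eventually_atTop.2 ⟨C, fun a ha => ?_⟩)
    (by simpa using (hd.const_mul (Real.sqrt n)).const_mul (Real.exp B'))
  refine (rdist_le_length _ (seg_mem (z a) p)).trans ?_
  rw [curveLength_eq]
  refine (intervalIntegral.integral_mono_on zero_le_one ((continuous_speed hg (seg_mem (z a) p).1).intervalIntegrable _ _)
    ((continuous_const (y := Real.exp B' * (Real.sqrt n * dist p (z a)))).intervalIntegrable _ _) fun t ht => ?_).trans_eq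
    (by simp)
  have hder : deriv (seg (z a) p) t = p - z a :=
    (((hasDerivAt_id t).smul_const (p - z a)).const_add (z a)).deriv.trans (one_smul _ _)
  have hrad : rad (seg (z a) p t) ≤ T := by
    have hza : rad (z a) < rad p + 1 := hC a ha
    refine le_trans ?_ (le_max_right _ _)
    rw [rad, Real.sqrt_le_left (by linarith [rad_nonneg p])]
    have e : ∀ i, seg (z a) p t i ^ 2 ≤ z a i ^ 2 + p i ^ 2 := fun i => by
      simp only [seg, Pi.add_apply, Pi.smul_apply, Pi.sub_apply, smul_eq_mul]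
      nlinarith [mul_nonneg (mul_nonneg ht.1 (sub_nonneg.2 ht.2)) (sq_nonneg (p i - z a i)),
        mul_le_mul_of_nonneg_right ht.2 (sq_nonneg (p i)), mul_nonneg ht.1 (sq_nonneg (z a i))]
    refine (sum_le_sum fun i _ => e i).trans ?_
    rw [sum_add_distrib, ← rad_sq, ← rad_sq]
    nlinarith [rad_nonneg (z a), rad_nonneg p]
  rw [speed, hder]
  refine (Real.sqrt_le_sqrt (hB' _ hrad _).2).trans ?_
  rw [Real.sqrt_mul (Real.exp_pos _).le, show 2 * B' = B' + B' by ring, Real.exp_add,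
    Real.sqrt_mul_self (Real.exp_pos _).le]
  refine mul_le_mul_of_nonneg_left ?_ (Real.exp_pos _).le
  rw [Real.sqrt_le_left (by positivity), mul_pow, Real.sq_sqrt (Nat.cast_nonneg _)]
  refine (sum_le_sum (g := fun _ : Fin n => dist p (z a) ^ 2) fun i _ => ?_).trans_eq (by simp)
  rw [← sq_abs, Pi.sub_apply, ← Real.dist_eq]
  exact pow_le_pow_left₀ dist_nonneg (dist_le_pi_dist p (z a) i) 2

end Vale.Agent.P225.Full.Cpl
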