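import Vale.Agent.P225.Full.Spec
import Vale.Agent.P225.Full.CompleteCore

/-! # From coefficient functions to a counterexample -/

namespace Vale.Agent.P225.Full

open MvPolynomial Matrix Filter Topology Finset

section xi

variable {n l : ℕ} {J : Matrix (Fin n) (Fin n) ℝ}

lemma xiPoly_apply (J : Matrix (Fin n) (Fin n) ℝ) (h : Poly n) :
    xiPoly J h = ∑ i, ∑ j, J i j • (X j * pderiv i h) := by
  simp [xiPoly, LinearMap.sum_apply]

lemma xiPoly_isHomogeneous (J : Matrix (Fin n) (Fin n) ℝ) {h : Poly n} (hh : h.IsHomogeneous l) :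
    (xiPoly J h).IsHomogeneous l := by
  rw [xiPoly_apply]
  refine IsHomogeneous.sum _ _ _ fun i _ => IsHomogeneous.sum _ _ _ fun j _ => ?_
  rw [← mem_homogeneousSubmodule]
  refine Submodule.smul_mem _ _ ?_
  rw [mem_homogeneousSubmodule]
  rcases Nat.eq_zero_or_pos l with rfl | hl
  · have h0 := hh
    rw [← totalDegree_zero_iff_isHomogeneous, totalDegree_eq_zero_iff_eq_C] at h0
    rw [h0, pderiv_C, mul_zero]
    exact isHomogeneous_zero _ _ _
  · have := (isHomogeneous_X ℝ j).mul (hh.pderiv (i := i))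
    rwa [Nat.add_sub_cancel' hl] at this

lemma pderiv_swap' (i j : Fin n) (h : Poly n) : pderiv i (pderiv j h) = pderiv j (pderiv i h) := by
  induction h using MvPolynomial.induction_on with
  | C a => simp
  | add p q hp hq => simp [hp, hq]
  | mul_X p k hp =>
    simp only [pderiv_mul, map_add, pderiv_X, hp]
    simp [Pi.single_apply]
    split_ifs <;> simp <;> ring

lemma plap_X_mul (j : Fin n) (h : Poly n) :
    plap n (X j * h) = (2 : ℝ) • pderiv j h + X j * plap n h := by
  have e : ∀ k : Fin n, pderiv k (pderiv k (X j * h)) =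
      (if k = j then (2 : ℝ) • pderiv j h else 0) + X j * pderiv k (pderiv k h) := fun k => by
    rcases eq_or_ne k j with rfl | hk
    · rw [if_pos rfl, pderiv_mul, pderiv_X_self, one_mul, map_add, pderiv_mul, pderiv_X_self, one_mul,
        ← add_assoc, two_smul]
    · simp [hk, pderiv_mul, pderiv_X_of_ne (R := ℝ) hk.symm]
  rw [plap_apply, plap_apply, Finset.sum_congr rfl fun k _ => e k]
  simp [Finset.sum_add_distrib, Finset.mul_sum]

lemma plap_pderiv (i : Fin n) (h : Poly n) : plap n (pderiv i h) = pderiv i (plap n h) := by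
  rw [plap_apply, plap_apply, map_sum]
  exact Finset.sum_congr rfl fun k _ => by rw [pderiv_swap' k i, pderiv_swap' k i]

lemma xiPoly_mem_Harm (hJ : IsCS J) {h : Poly n} (hh : h ∈ Harm n l) : xiPoly J h ∈ Harm n l := by
  obtain ⟨h1, h2⟩ := mem_Harm.1 hh
  refine mem_Harm.2 ⟨xiPoly_isHomogeneous J h1, ?_⟩
  set S : Poly n := ∑ i, ∑ j, J i j • pderiv j (pderiv i h) with hS
  have hskew : ∀ i j, J i j = -J j i := fun i j => by
    have := congrFun (congrFun hJ.1 j) i
    simpa [transpose_apply] using this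
  have hneg : S = -S := by
    conv_lhs => rw [hS, Finset.sum_comm]
    rw [hS, ← Finset.sum_neg_distrib]
    refine Finset.sum_congr rfl fun i _ => ?_
    rw [← Finset.sum_neg_distrib]
    refine Finset.sum_congr rfl fun j _ => ?_
    rw [pderiv_swap' i j, hskew j i, neg_smul]
  have hS0 : S = 0 := by
    have : (2 : ℝ) • S = 0 := by rw [two_smul]; nth_rw 2 [hneg]; exact add_neg_cancel S
    simpa using this
  rw [xiPoly_apply, map_sum]
  simp only [map_sum, map_smul, plap_X_mul, plap_pderiv, h2, map_zero, mul_zero, add_zero, smul_smul]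
  rw [show (∑ i, ∑ j, (J i j * 2) • pderiv j (pderiv i h)) = (2 : ℝ) • S by
    simp only [hS, Finset.smul_sum, smul_smul, mul_comm]]
  simp [hS0]

open Classical in
/-- `xi^2` on harmonic polynomials of degree `l` (junk zero unless `J` is a complex structure). -/
noncomputable def xi2 (n l : ℕ) (J : Matrix (Fin n) (Fin n) ℝ) : Harm n l →ₗ[ℝ] Harm n l :=
  if hJ : IsCS J then
    ((xiPoly J).restrict fun _ h => xiPoly_mem_Harm hJ h).comp
      ((xiPoly J).restrict fun _ h => xiPoly_mem_Harm hJ h)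
  else 0

lemma xi2_apply (hJ : IsCS J) (h : Harm n l) :
    ((xi2 n l J h : Harm n l) : Poly n) = xiPoly J (xiPoly J (h : Poly n)) := by
  rw [xi2, dif_pos hJ]
  rfl

/-- The traceless generators. -/
noncomputable def genB (m l : ℕ) (J : Matrix (Fin (2 * m + 2)) (Fin (2 * m + 2)) ℝ) :
    Harm (2 * m + 2) l →ₗ[ℝ] Harm (2 * m + 2) l :=
  xi2 _ l J + (sphEig (2 * m + 2) l / (2 * m + 1)) • LinearMap.id

lemma isGen_genB (m l : ℕ) : Spec.IsGen (genB m l) := fun J hJ h => by
  simp [genB, xi2_apply hJ]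

variable {m : ℕ}

/-- The matrix of the mode equation on a shell. -/
noncomputable def Mshell (P : Profile (2 * m + 2)) (E : Spec.EigenShell m l) (t : ℝ) :
    Matrix (Fin E.D) (Fin E.D) ℝ :=
  (Real.exp (-2 * P.q t) * sphEig (2 * m + 2) l) • (1 : Matrix (Fin E.D) (Fin E.D) ℝ) -
    (Real.exp (-2 * P.p t) - Real.exp (-2 * P.q t)) •
      LinearMap.toMatrix E.basis E.basis (xi2 (2 * m + 2) l (P.J t))

lemma Mshell_eq_genMat (P : Profile (2 * m + 2)) (E : Spec.EigenShell m l) (t : ℝ) :
    Mshell P E t =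
      (sphEig (2 * m + 2) l * (Real.exp (-2 * P.q t) +
          (Real.exp (-2 * P.p t) - Real.exp (-2 * P.q t)) / (2 * m + 1))) •
          (1 : Matrix (Fin E.D) (Fin E.D) ℝ) -
        (Real.exp (-2 * P.p t) - Real.exp (-2 * P.q t)) • Spec.genMat E (genB m l) (P.J t) := by
  simp only [Mshell, Spec.genMat, genB, map_add, map_smul, LinearMap.toMatrix_id, smul_add, smul_smul]
  have e : sphEig (2 * m + 2) l * (Real.exp (-2 * P.q t) +
        (Real.exp (-2 * P.p t) - Real.exp (-2 * P.q t)) / (2 * m + 1)) =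
      Real.exp (-2 * P.q t) * sphEig (2 * m + 2) l +
        (Real.exp (-2 * P.p t) - Real.exp (-2 * P.q t)) * (sphEig (2 * m + 2) l / (2 * m + 1)) := by
    ring
  rw [e, add_smul]
  abel

lemma Mshell_round (P : Profile (2 * m + 2)) (E : Spec.EigenShell m l) {t : ℝ} (ht : P.p t = P.q t) :
    Mshell P E t =
      (Real.exp (-2 * P.q t) * sphEig (2 * m + 2) l) • (1 : Matrix (Fin E.D) (Fin E.D) ℝ) := by
  simp [Mshell, ht]

lemma Mshell_berger (P : Profile (2 * m + 2)) (E : Spec.EigenShell m l) {t : ℝ}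
    (hJ : P.J t = stdJ (2 * m + 2)) (hcs : IsCS (stdJ (2 * m + 2))) :
    Mshell P E t = Matrix.diagonal fun a =>
      Real.exp (-2 * P.q t) * sphEig (2 * m + 2) l +
        (Real.exp (-2 * P.p t) - Real.exp (-2 * P.q t)) * (2 * (E.charge a : ℝ) - l) ^ 2 := by
  have hT : LinearMap.toMatrix E.basis E.basis (xi2 (2 * m + 2) l (stdJ (2 * m + 2))) =
      Matrix.diagonal fun a => -(2 * (E.charge a : ℝ) - l) ^ 2 := by
    ext a b
    have h : xi2 (2 * m + 2) l (stdJ (2 * m + 2)) (E.basis b) =
        (-(2 * (E.charge b : ℝ) - l) ^ 2) • E.basis b :=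
      Subtype.ext (by rw [xi2_apply hcs, Submodule.coe_smul]; exact E.eigen b)
    rw [LinearMap.toMatrix_apply, h, map_smul, Module.Basis.repr_self, Finsupp.smul_apply,
      Finsupp.single_apply, Matrix.diagonal_apply]
    rcases eq_or_ne a b with rfl | hab
    · simp
    · simp [hab, Ne.symm hab]
  rw [Mshell, hJ, hT]
  ext a b
  rcases eq_or_ne a b with rfl | hab
  · simp
  · simp [hab]

end xi

section bounds

variable {n : ℕ}

/-- The sum of the absolute values of the coefficients. -/
noncomputable def coeffNorm (h : Poly n) : ℝ := ∑ d ∈ h.support, |coeff d h|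

lemma coeffNorm_nonneg (h : Poly n) : 0 ≤ coeffNorm h := Finset.sum_nonneg fun _ _ => abs_nonneg _

lemma abs_evp_le {l : ℕ} {h : Poly n} (hh : h.IsHomogeneous l) (x : Coord n) :
    |evp h x| ≤ coeffNorm h * rad x ^ l := by
  rw [evp, eval_eq', coeffNorm, Finset.sum_mul]
  refine (Finset.abs_sum_le_sum_abs _ _).trans (Finset.sum_le_sum fun d hd => ?_)
  rw [abs_mul, Finset.abs_prod]
  refine mul_le_mul_of_nonneg_left ?_ (abs_nonneg _)
  calc ∏ i, |x i ^ d i| ≤ ∏ i, rad x ^ d i :=
        Finset.prod_le_prod (fun i _ => abs_nonneg _) fun i _ => by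
          rw [abs_pow]; exact pow_le_pow_left₀ (abs_nonneg _) (Cpl.abs_le_rad x i) _
    _ = rad x ^ ∑ i, d i := Finset.prod_pow_eq_pow_sum _ _ _
    _ = rad x ^ l := by
        congr 1
        rw [hh.degree_eq_sum_deg_support hd]
        exact (Finset.sum_subset (Finset.subset_univ _) fun i _ hi => Finsupp.notMem_support_iff.1 hi).symm

lemma exp_mul_logRad {x : Coord n} (hx : x ≠ 0) (l : ℕ) :
    Real.exp ((l : ℝ) * logRad x) = rad x ^ l := by
  rw [logRad, Real.exp_nat_mul, Real.exp_log (Cpl.rad_pos hx)]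

lemma eq_zero_of_evp {n : ℕ} (hn : 0 < n) {Q : Poly n}
    (h : ∀ x : Coord n, x ≠ 0 → rad x ≤ 1 → evp Q x = 0) : Q = 0 := by
  refine funext_set (fun _ => Set.Ioo (0 : ℝ) (1 / n))
    (fun _ => Set.Ioo_infinite (by positivity)) fun x hx => ?_
  rw [map_zero]
  have hx' : ∀ i, 0 < x i ∧ x i < 1 / n := fun i => hx i (Set.mem_univ i)
  refine h x (fun h0 => (hx' ⟨0, hn⟩).1.ne' (congrFun h0 _)) ?_
  rw [rad, Real.sqrt_le_one]
  have hn1 : (1 : ℝ) ≤ n := by exact_mod_cast hn
  have h1 : (1 : ℝ) / n ≤ 1 := by rw [div_le_one (by positivity)]; exact hn1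
  refine (Finset.sum_le_sum (g := fun _ => 1 / (n : ℝ)) fun i _ => ?_).trans_eq ?_
  · have := hx' i
    nlinarith
  · simp [Finset.sum_const]
    field_simp

end bounds

/-- Coefficient functions of enough columns give a counterexample. -/
theorem counterexample_of_coeffs (hCurv : Spec.Curvature) (hHarm : Spec.Harmonic)
    (hComp : Spec.Complete) {m k N : ℕ} (hm : 1 ≤ m) (E : ∀ l, Spec.EigenShell m l)
    (P : Profile (2 * m + 2)) (hP : P.Adm)
    (hrr : ∀ t, 0 ≤ P.rrTerm m t) (hfib : ∀ t, 0 ≤ P.fibTerm m t) (hhor : ∀ t, 0 ≤ P.horTerm m t)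
    (deg : Fin N → ℕ) (base : ∀ c, Fin (E (deg c)).D)
    (hbase : Function.Injective fun c => (⟨deg c, base c⟩ : Σ l, Fin (E l).D))
    (y : ∀ c, ℝ → Fin (E (deg c)).D → ℝ)
    (hy : ∀ c a, ContDiff ℝ (⊤ : ℕ∞) fun t => y c t a)
    (hode : ∀ c t a, deriv (deriv fun s => y c s a) t + P.drift m t * deriv (fun s => y c s a) t =
      (Mshell P (E (deg c)) t *ᵥ y c t) a)
    (hcore : ∀ c, ∀ t ≤ 0, ∀ a, y c t a = if a = base c then Real.exp ((deg c : ℝ) * t) else 0)
    (hgrow : ∃ C : ℝ, ∀ c, ∀ t, 0 ≤ t → ∑ a, |y c t a| ≤ C * Real.exp ((k : ℝ) * t))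
    (hN : harmonicDim (2 * m + 2) k < N) :
    YauCounterexample (2 * m + 2) k := by
  obtain ⟨hsm, hpd, hR0, hR⟩ := hCurv m P hm hP
  obtain ⟨hcc, hdist⟩ := hComp m P hm hP
  obtain ⟨C, hC⟩ := hgrow
  have hdeg : ∀ c, ∀ a, ((E (deg c)).basis a : Poly (2 * m + 2)).IsHomogeneous (deg c) :=
    fun c a => (mem_Harm.1 ((E (deg c)).basis a).2).1
  -- the harmonic functions
  have hex : ∀ c, ∃ u : Coord (2 * m + 2) → ℝ, ContDiff ℝ (⊤ : ℕ∞) u ∧
      (∀ x, laplace P.metric u x = 0) ∧ ∀ x, x ≠ 0 →
        u x = ∑ a, mode (deg c) (fun t => y c t a) ((E (deg c)).basis a : Poly (2 * m + 2)) x := by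
    intro c
    refine hHarm m P hm hP (E (deg c)).D (fun _ => deg c)
      (fun a => ((E (deg c)).basis a : Poly (2 * m + 2))) (fun a t => y c t a)
      (fun a => ((E (deg c)).basis a).2) (hy c) (fun a t ht => ?_) (fun l t => ?_)
    · rw [hcore c t ht, hcore c 0 le_rfl, mul_zero, Real.exp_zero, ite_mul, one_mul, zero_mul]
    · rcases eq_or_ne (deg c) l with rfl | hl
      · simp only [Finset.filter_true]
        set D := (E (deg c)).D
        set T := LinearMap.toMatrix (E (deg c)).basis (E (deg c)).basis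
          (xi2 (2 * m + 2) (deg c) (P.J t)) with hT
        set e := Real.exp (-2 * P.q t) * sphEig (2 * m + 2) (deg c)
        set δ := Real.exp (-2 * P.p t) - Real.exp (-2 * P.q t)
        have hxi : ∀ b, xiPoly (P.J t) (xiPoly (P.J t) ((E (deg c)).basis b : Poly (2 * m + 2))) =
            ∑ a, T a b • ((E (deg c)).basis a : Poly (2 * m + 2)) := fun b => by
          have h := congrArg Subtype.val
            ((E (deg c)).basis.sum_repr (xi2 (2 * m + 2) (deg c) (P.J t) ((E (deg c)).basis b)))
          rw [← xi2_apply (hP.cs t)]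
          refine h.symm.trans ?_
          rw [Submodule.coe_sum]
          exact Finset.sum_congr rfl fun a _ => by
            rw [Submodule.coe_smul, hT, LinearMap.toMatrix_apply]
        have hz : ∀ a, deriv (deriv fun s => y c s a) t + P.drift m t * deriv (fun s => y c s a) t
            - e * y c t a = -(δ * ∑ b, T a b * y c t b) := fun a => by
          rw [hode, Mshell, Matrix.sub_mulVec, Matrix.smul_mulVec, Matrix.smul_mulVec,
            Matrix.one_mulVec, Pi.sub_apply, Pi.smul_apply, Pi.smul_apply, smul_eq_mul, smul_eq_mul,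
            Matrix.mulVec, dotProduct]
          ring
        rw [Finset.sum_add_distrib]
        simp only [hxi, hz, Finset.smul_sum, smul_smul]
        rw [Finset.sum_comm (γ := Fin D) (f := fun b a => (δ * y c t b * T a b) • _),
          ← Finset.sum_add_distrib]
        refine Finset.sum_eq_zero fun a _ => ?_
        rw [← Finset.sum_smul, ← add_smul, Finset.mul_sum]
        rw [show -(∑ b, δ * (T a b * y c t b)) + ∑ b, δ * y c t b * T a b = 0 by
          rw [neg_add_eq_zero]; exact Finset.sum_congr rfl fun b _ => by ring, zero_smul]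
      · simp [hl]
  choose u hus hul hue using hex
  refine ⟨Set.univ, P.metric, 0, N, u, isOpen_univ, Set.mem_univ _, ⟨fun i j => (hsm i j).contDiffOn,
    fun x _ => hpd x, fun x _ v => ?_⟩, hcc, hN, fun c => ⟨(hus c).contDiffOn, fun x _ => hul c x, ?_⟩, ?_⟩
  · -- Ricci curvature
    by_cases hx : x = 0
    · subst hx
      exact le_of_eq (Finset.sum_eq_zero fun i _ => Finset.sum_eq_zero fun j _ => hR0 v i j).symm
    rw [hR x hx v]
    have hb := Cpl.bessel (hP.cs (logRad x)) hx v
    refine div_nonneg (add_nonneg (add_nonneg (mul_nonneg (hrr _) (sq_nonneg _))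
      (mul_nonneg (mul_nonneg (hfib _) (Real.exp_pos _).le) (sq_nonneg _)))
      (mul_nonneg (mul_nonneg (hhor _) (Real.exp_pos _).le) (by linarith))) (sq_nonneg _)
  · -- growth
    set K := ∑ a, coeffNorm ((E (deg c)).basis a : Poly (2 * m + 2)) with hK
    have hK0 : 0 ≤ K := Finset.sum_nonneg fun a _ => coeffNorm_nonneg _
    have hKa : ∀ a, coeffNorm ((E (deg c)).basis a : Poly (2 * m + 2)) ≤ K := fun a =>
      Finset.single_le_sum (f := fun a => coeffNorm ((E (deg c)).basis a : Poly (2 * m + 2)))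
        (fun a _ => coeffNorm_nonneg _) (Finset.mem_univ a)
    refine ⟨|u c 0| + K * (1 + |C|), fun x _ => ?_⟩
    rw [Real.rpow_natCast]
    have hd := hdist x
    have hr := Cpl.rad_nonneg x
    have h1 : (1 : ℝ) ≤ (1 + rdist Set.univ P.metric 0 x) ^ k := one_le_pow₀ (by linarith)
    have hA : 0 ≤ |u c 0| + K * (1 + |C|) := by positivity
    by_cases hx : x = 0
    · subst hx
      exact le_trans (le_add_of_nonneg_right (by positivity)) (le_mul_of_one_le_right hA h1)
    rw [hue c x hx]
    have hrp := Cpl.rad_pos hx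
    have hy' : ∑ a, |y c (logRad x) a| ≤ (1 + |C|) * (1 + rdist Set.univ P.metric 0 x) ^ k := by
      rcases le_or_gt (logRad x) 0 with ht | ht
      · refine le_trans ?_ (le_mul_of_one_le_right (by positivity) h1)
        simp only [hcore c _ ht, apply_ite abs, abs_zero, Finset.sum_ite_eq', Finset.mem_univ, if_true,
          Real.abs_exp]
        have : Real.exp ((deg c : ℝ) * logRad x) ≤ 1 :=
          Real.exp_le_one_iff.2 (mul_nonpos_of_nonneg_of_nonpos (Nat.cast_nonneg _) ht)
        linarith [abs_nonneg C]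
      · refine (hC c _ ht.le).trans ?_
        rw [exp_mul_logRad hx]
        refine mul_le_mul ?_ (pow_le_pow_left₀ hr (by linarith) _) (pow_nonneg hr _) (by positivity)
        linarith [le_abs_self C]
    calc |∑ a, mode (deg c) (fun t => y c t a) ((E (deg c)).basis a : Poly (2 * m + 2)) x|
        ≤ ∑ a, |y c (logRad x) a| * K := by
          refine (Finset.abs_sum_le_sum_abs _ _).trans (Finset.sum_le_sum fun a _ => ?_)
          rw [mode, abs_div, abs_mul, abs_pow, abs_of_pos hrp, div_le_iff₀ (pow_pos hrp _), mul_assoc]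
          exact mul_le_mul_of_nonneg_left ((abs_evp_le (hdeg c a) x).trans
            (mul_le_mul_of_nonneg_right (hKa a) (pow_nonneg hr _))) (abs_nonneg _)
      _ = (∑ a, |y c (logRad x) a|) * K := (Finset.sum_mul _ _ _).symm
      _ ≤ ((1 + |C|) * (1 + rdist Set.univ P.metric 0 x) ^ k) * K :=
          mul_le_mul_of_nonneg_right hy' hK0
      _ ≤ _ := by
          rw [add_mul (|u c 0|)]
          exact le_add_of_nonneg_of_le (mul_nonneg (abs_nonneg _) (by linarith)) (le_of_eq (by ring))
  · -- independence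
    rw [Fintype.linearIndependent_iff]
    intro g hg c₀
    set Q : Poly (2 * m + 2) := ∑ c, g c • ((E (deg c)).basis (base c) : Poly (2 * m + 2)) with hQdef
    have hQ : Q = 0 := by
      refine eq_zero_of_evp (by omega) fun x hx hx1 => ?_
      have ht : logRad x ≤ 0 := Real.log_nonpos (Cpl.rad_nonneg x) hx1
      have h0 := congrFun hg ⟨x, Set.mem_univ x⟩
      simp only [Finset.sum_apply, Pi.smul_apply, Set.domRestrict_apply, smul_eq_mul, Pi.zero_apply] at h0
      rw [← h0, hQdef, evp, map_sum]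
      refine Finset.sum_congr rfl fun c _ => ?_
      rw [smul_eq_C_mul, map_mul, eval_C, hue c x hx, Finset.sum_eq_single (base c)
        (fun a _ ha => by rw [mode, hcore c _ ht, if_neg ha, zero_mul, zero_div]) (by simp)]
      rw [mode, hcore c _ ht, if_pos rfl, exp_mul_logRad hx, mul_comm (rad x ^ deg c),
        mul_div_assoc, div_self (pow_ne_zero _ (Cpl.rad_pos hx).ne'), mul_one]
      rfl
    obtain ⟨φ, hφ⟩ := LinearMap.exists_extend ((Finsupp.lapply (base c₀)).comp
      (E (deg c₀)).basis.repr.toLinearMap)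
    have key : ∀ l (a : Fin (E l).D),
        φ (homogeneousComponent (deg c₀) ((E l).basis a : Poly (2 * m + 2))) =
          if (⟨l, a⟩ : Σ l, Fin (E l).D) = ⟨deg c₀, base c₀⟩ then 1 else 0 := by
      intro l a
      rw [homogeneousComponent_of_mem (mem_Harm.1 ((E l).basis a).2).1]
      rcases eq_or_ne (deg c₀) l with rfl | hl
      · rw [if_pos rfl]
        have h := LinearMap.congr_fun hφ ((E (deg c₀)).basis a)
        simp only [LinearMap.comp_apply, Submodule.subtype_apply, LinearEquiv.coe_coe,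
          Finsupp.lapply_apply, Module.Basis.repr_self, Finsupp.single_apply] at h
        rw [h]
        simp
      · rw [if_neg hl, map_zero, if_neg]
        exact fun h => hl (congrArg Sigma.fst h).symm
    have h0 := congrArg (fun Q => φ (homogeneousComponent (deg c₀) Q)) hQ
    simp only [hQdef, map_sum, map_smul, key, map_zero, smul_eq_mul, mul_ite, mul_one, mul_zero] at h0
    rw [Finset.sum_eq_single c₀ (fun c _ hc => if_neg fun h => hc (hbase h)) (by simp), if_pos rfl] at h0
    exact h0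

end Vale.Agent.P225.Full
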