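import Vale.Agent.P225.Full.Profiles
import Vale.Agent.P225.Full.Endgame

/-! # The shell equations, and the statements of the steps of the assembly -/

namespace Vale.Agent.P225.Full

open MvPolynomial Matrix Filter Topology Real

variable {n : ℕ}

/-- The matrix of `xi_J^2` in a shell basis. -/
noncomputable def xiMat {m l : ℕ} (E : Spec.EigenShell m l)
    (J : Matrix (Fin (2 * m + 2)) (Fin (2 * m + 2)) ℝ) : Matrix (Fin E.D) (Fin E.D) ℝ :=
  LinearMap.toMatrix E.basis E.basis (xi2 (2 * m + 2) l J)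

/-- `y` solves the shell equation on all of `ℝ`. -/
def IsShellSol {m l : ℕ} (P : Profile (2 * m + 2)) (E : Spec.EigenShell m l)
    (y : ℝ → Fin E.D → ℝ) : Prop :=
  (∀ a, ContDiff ℝ (⊤ : ℕ∞) fun t => y t a) ∧
    ∀ a t, deriv (deriv fun s => y s a) t + P.drift m t * deriv (fun s => y s a) t
      = ∑ i, Mshell P E t a i * y t i

namespace Asm

/-- The drift of the profiles of the counterexample. -/
noncomputable def drift0 (t0 t : ℝ) : ℝ :=
  2 * (Spec.mC : ℝ) - (2 * (Spec.mC : ℝ) + 1) * Prof.sig pinfC t0 t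

/-- The eigenvalue of the round sphere of degree `l`. -/
noncomputable def lamR (l : ℕ) : ℝ := sphEig (2 * Spec.mC + 2) l

/-- The limiting exponent on the round part. -/
noncomputable def gammaR (l : ℕ) : ℝ := Spec.expo (lamR l * exp (-2 * pinfC))

/-- The limiting drift after division by the round solution. -/
noncomputable def c0R (l : ℕ) : ℝ := 2 * gammaR l + 2 * (Spec.mC : ℝ)

/-- The weight of the pulse generator in degree `l`. -/
noncomputable def kapR (l : ℕ) : ℝ := exp (-2 * pinfC) / c0R l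

/-- The coefficient of a charge under the standard complex structure. -/
noncomputable def muB (ψ τ : ℝ) (l P : ℕ) : ℝ :=
  exp (-2 * ψ + τ / (2 * (Spec.mC : ℝ) + 1)) *
    (lamR l - (1 - exp (-τ)) * (2 * (P : ℝ) - l) ^ 2)

/-- The squashing during the pulses, in the time `s` since they start. -/
noncomputable def tauPulse {N : ℕ} (ε : ℝ) (α : Fin N → ℝ) (w : ℝ → ℝ) (s : ℝ) : ℝ :=
  ε * ∑ i, α i * w (ε * s - (i : ℕ))

/-- A positive increasing solution of the round equation. -/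
def IsRoundSol (t0 : ℝ) (l : ℕ) (U : ℝ → ℝ) : Prop :=
  ContDiff ℝ (⊤ : ℕ∞) U ∧ (∀ t, 0 < U t ∧ 0 ≤ deriv U t) ∧
    (∀ t ≤ 0, U t = exp (l * t)) ∧
    (∀ t, deriv (deriv U) t + drift0 t0 t * deriv U t
      = exp (-2 * Prof.psi pinfC t0 t) * lamR l * U t) ∧
    Tendsto (fun t => deriv U t / U t) atTop (𝓝 (gammaR l))

/-- Such solutions exist. -/
def RoundSol : Prop := ∀ t0 : ℝ, 0 < t0 → ∀ l : ℕ, ∃ U, IsRoundSol t0 l U

/-- The pulses of one round, exact on all shells `2 .. L` at once. In the coordinates `z = y / U`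
a column starting at a multiple of a basis vector ends, measured by `z + θ z'`, at a multiple of the
same column of the target. -/
def PulseStep : Prop := ∀ (t0 : ℝ), 0 < t0 → ∀ (L : ℕ) (E : ∀ l : ℕ, Spec.EigenShell Spec.mC l)
  (T : ∀ l : Fin (L + 1), Matrix (Fin (E l).D) (Fin (E l).D) ℝ) (U : ℕ → ℝ → ℝ) (w : ℝ → ℝ)
  (θmax : ℝ), (∀ l, (T l).det = 1) → (∀ l, IsRoundSol t0 l (U l)) → ContDiff ℝ (⊤ : ℕ∞) w →
  (∀ s, s ≤ 1 / 4 ∨ 3 / 4 ≤ s → w s = 0) → (∫ s in (0 : ℝ)..1, w s) = 1 →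
  ∃ (N : ℕ) (J : Fin N → Matrix (Fin (2 * Spec.mC + 2)) (Fin (2 * Spec.mC + 2)) ℝ) (R : ℝ),
    (∀ i, IsCS (J i)) ∧ 1 ≤ R ∧ ∀ δ > 0, ∃ η > 0, ∃ Tmin : ℝ, ∀ (a ε : ℝ)
      (V0 θ : ∀ l : Fin (L + 1), Matrix (Fin (E l).D) (Fin (E l).D) ℝ),
      Tmin ≤ a → 0 < ε → ε ≤ η → (∀ l i b, |V0 l i b| ≤ η) →
      (∀ l i b, 0 ≤ θ l i b ∧ θ l i b ≤ θmax ∧ θ l i b = θ l i i) →
      ∃ α : Fin N → ℝ, (∀ i, |α i| ≤ R) ∧
        ∀ P : Profile (2 * Spec.mC + 2), P.Adm → (∀ t, P.drift Spec.mC t = drift0 t0 t) →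
        (∀ s ∈ Set.Icc 0 ((N : ℝ) / ε),
          P.p (a + s) = Prof.psi pinfC t0 (a + s)
              + (Spec.mC : ℝ) / (2 * Spec.mC + 1) * tauPulse ε α w s ∧
          P.q (a + s) = Prof.psi pinfC t0 (a + s)
              - tauPulse ε α w s / (2 * (2 * (Spec.mC : ℝ) + 1)) ∧
          ∀ i : Fin N, w (ε * s - (i : ℕ)) ≠ 0 → P.J (a + s) = J i) →
        ∀ l : Fin (L + 1), 2 ≤ (l : ℕ) → ∀ (y : ℝ → Fin (E l).D → ℝ), IsShellSol P (E l) y →
          ∀ (b : Fin (E l).D) (A : ℝ),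
            (∀ i, y a i / U l a = A * (if i = b then 1 else 0) ∧
              deriv (fun t => y t i / U l t) a = A * V0 l i b) →
            ∃ κ : ℝ, R⁻¹ ≤ κ ∧ κ ≤ R ∧ ∀ i,
              y (a + N / ε) i / U l (a + N / ε)
                  + θ l i i * deriv (fun t => y t i / U l t) (a + N / ε) = A * κ * T l i b ∧
              |deriv (fun t => y t i / U l t) (a + N / ε)| ≤ |A| * δ

/-- The pivot between the pulses: bounded growth, exact exponent on the dwell, and relaxation to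
the round exponent on the last gap. -/
def TailMain : Prop := ∀ (a d0 d1 g e cm Γ γd γ c0 η : ℝ) (c M y : ℝ → ℝ),
  a ≤ d0 → d0 ≤ d1 → d1 ≤ g → g ≤ e → 0 < cm → 0 ≤ γd → γd ≤ Γ → 0 ≤ γ → γ ≤ Γ → 0 ≤ η → η < c0 →
  ContDiff ℝ 2 y → Continuous c → Continuous M →
  (∀ t ∈ Set.Icc a e, deriv (deriv y) t + c t * deriv y t = M t * y t) →
  (∀ t ∈ Set.Icc a e, cm ≤ c t ∧ 0 ≤ M t ∧ M t ≤ Γ * (Γ + cm)) →
  (∀ t ∈ Set.Icc d0 d1, M t ≤ γd * (γd + cm)) →
  (∀ t ∈ Set.Icc g e, |c t - c0| ≤ η ∧ |M t - γ * (γ + c0)| ≤ η) →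
  0 < y a → 0 ≤ deriv y a → deriv y a ≤ Γ * y a →
  0 < y e ∧
    y e ≤ y a * exp (γd * (d1 - d0) + Γ * ((d0 - a) + (e - d1)) + 3 * Γ / cm) ∧
    |deriv y e / y e - γ| ≤ 2 * Γ * exp (-(c0 - η) * (e - g)) + (1 + γ) * η / (c0 - η)

end Asm

end Vale.Agent.P225.Full
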