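import Vale.Agent.P225.Full.Schedule
import Vale.Agent.P225.Full.AsmSpec

/-! # The scheduled profile is admissible with nonnegative Ricci terms -/

noncomputable section

open Real Filter Topology Matrix

namespace Vale.Agent.P225.Full.Schedule

/-- The standard structure is a complex structure. -/
theorem isCS_stdJ (m : ℕ) : IsCS (stdJ (2 * m + 2)) := by
  let p : Fin (2 * m + 2) → Fin (2 * m + 2) := fun i =>
    if h : i.val % 2 = 0 then ⟨i.val + 1, by have := i.isLt; omega⟩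
    else ⟨i.val - 1, by have := i.isLt; omega⟩
  refine ⟨?_, ?_⟩
  · ext i j
    simp only [Matrix.transpose_apply, Matrix.neg_apply, stdJ]
    split_ifs <;> first | (exfalso; omega) | norm_num
  · ext i j
    have h1 : ∀ k, k ≠ p i → stdJ (2 * m + 2) i k = 0 := fun k hk => by
      simp only [p, ne_eq, Fin.ext_iff] at hk
      simp only [stdJ]
      split_ifs at hk ⊢ <;> first | rfl | (simp only at hk; omega)
    rw [Matrix.mul_apply, Finset.sum_eq_single (p i)
      (fun k _ hk => by rw [h1 k hk, zero_mul]) (by simp)]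
    simp only [Matrix.neg_apply, Matrix.one_apply, stdJ, p, Fin.ext_iff]
    by_cases h : i.val % 2 = 0 <;> simp only [h, dite_true, dite_false] <;> split_ifs <;>
      first | (exfalso; omega) | (norm_num; done) | simp_all

/-- The squashing of the dwells. -/
def tauC : ℝ := log Spec.tB

lemma tauC_nonneg : 0 ≤ tauC := log_nonneg (by norm_num [Spec.tB])

/-- The profile of a schedule. -/
def schedProfile (C : Clock) (t0 : ℝ) (α : ℕ → Fin C.N → ℝ)
    (Ji : Fin C.N → Matrix (Fin (2 * Spec.mC + 2)) (Fin (2 * Spec.mC + 2)) ℝ) :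
    Profile (2 * Spec.mC + 2) :=
  bergerProfile Spec.mC pinfC t0 (C.tau tauC α) (C.Jfun Ji)

/-- For `T0` past a threshold and `j0` large, every bounded choice of amplitudes gives an
admissible profile with nonnegative Ricci terms. -/
theorem exists_sched_ricci : ∃ t0 t1 : ℝ, 0 < t0 ∧ 1 ≤ t1 ∧ ∀ (N : ℕ) (R T0 : ℝ), t1 ≤ T0 →
    ∃ J0 : ℕ, ∀ C : Clock, C.N = N → C.T0 = T0 → J0 ≤ C.j0 →
      ∀ α : ℕ → Fin C.N → ℝ, (∀ j i, |α j i| ≤ R) → ∀ Ji, (∀ i, IsCS (Ji i)) →
        (schedProfile C t0 α Ji).Adm ∧ ∀ t,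
          0 ≤ (schedProfile C t0 α Ji).rrTerm Spec.mC t ∧
          0 ≤ (schedProfile C t0 α Ji).fibTerm Spec.mC t ∧
          0 ≤ (schedProfile C t0 α Ji).horTerm Spec.mC t := by
  obtain ⟨t0, t1, δ, K, h0, h1, hδ, hK, H⟩ := exists_ricci_profile_C
  refine ⟨t0, t1, h0, h1, fun N R T0 hT0 => ?_⟩
  set a := log (9999 / 10000 : ℝ) with ha
  set b := log (10501 / 10000 : ℝ) with hb
  have ha0 : a < 0 := log_neg (by norm_num) (by norm_num)
  have hb0 : tauC < b := log_lt_log (by norm_num [Spec.tB]) (by norm_num [Spec.tB])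
  set d := min δ (min (-a) (b - tauC)) with hd
  have hdpos : 0 < d := lt_min hδ (lt_min (by linarith) (by linarith))
  have hd1 : d ≤ δ := min_le_left _ _
  have hd2 : d ≤ -a := (min_le_right _ _).trans (min_le_left _ _)
  have hd3 : d ≤ b - tauC := (min_le_right _ _).trans (min_le_right _ _)
  obtain ⟨J0, hJ0⟩ := tau_bounds N R tauC d K t0 T0 tauC_nonneg hdpos hK h0
  refine ⟨J0, fun C hN hT hj α hα Ji hJi => ?_⟩
  have hb' := hJ0 C hN hT hj α hα
  have hcs : ∀ t, IsCS (C.Jfun Ji t) := C.Jfun_isCS hJi (isCS_stdJ _)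
  refine ⟨bergerProfile_adm h0 (C.contDiff_tau tauC α) hcs
    (fun t ht => C.tau_zero_of_le tauC α (ht.trans C.hT0)) (C.local_J tauC α Ji), ?_⟩
  refine H (C.Jfun Ji) (C.tau tauC α) (C.contDiff_tau tauC α)
    (fun t ht => C.tau_zero_of_le tauC α (by linarith)) (fun t ht => ?_)
  obtain ⟨⟨g1, g2⟩, g3, g4, g5⟩ := hb' t
  refine ⟨⟨by linarith, by linarith⟩, g3.trans hd1, g4.trans hd1, g5.trans ?_⟩
  have htpos : 0 < t := by linarith
  rw [show (-(7 : ℝ) / 6) = -(7 / 6 : ℝ) by ring, max_eq_left htpos.le,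
    Real.rpow_neg htpos.le, Real.rpow_neg (by linarith)]
  gcongr
  linarith

/-- The pulse block of round `j`, in the form used by `Asm.PulseStep`. -/
theorem sched_pulse (C : Clock) (t0 : ℝ) (α : ℕ → Fin C.N → ℝ)
    (Ji : Fin C.N → Matrix (Fin (2 * Spec.mC + 2)) (Fin (2 * Spec.mC + 2)) ℝ) (j : ℕ) {s : ℝ}
    (hs : s ∈ Set.Icc 0 ((C.N : ℝ) / C.eps j)) :
    (schedProfile C t0 α Ji).p (C.T j + s) = Prof.psi pinfC t0 (C.T j + s)
        + (Spec.mC : ℝ) / (2 * Spec.mC + 1) * Asm.tauPulse (C.eps j) (α j) bump s ∧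
      (schedProfile C t0 α Ji).q (C.T j + s) = Prof.psi pinfC t0 (C.T j + s)
        - Asm.tauPulse (C.eps j) (α j) bump s / (2 * (2 * (Spec.mC : ℝ) + 1)) ∧
      ∀ i : Fin C.N, bump (C.eps j * s - (i : ℕ)) ≠ 0 →
        (schedProfile C t0 α Ji).J (C.T j + s) = Ji i := by
  rw [C.N_mul_L_div] at hs
  have hmem : C.T j + s ∈ Set.Icc (C.T j) (C.pulseEnd j) :=
    ⟨by linarith [hs.1], by rw [Clock.pulseEnd]; linarith [hs.2]⟩
  have ht := C.tau_pulse tauC α hmem
  rw [add_sub_cancel_left] at ht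
  refine ⟨?_, ?_, fun i hi => C.Jfun_of_bump Ji (j := j) (i := i) (by rwa [add_sub_cancel_left])⟩
  · simp only [schedProfile, bergerProfile, ht, Asm.tauPulse]
  · simp only [schedProfile, bergerProfile, ht, Asm.tauPulse]

/-- The drift of a scheduled profile does not depend on the schedule. -/
theorem sched_drift (C : Clock) {t0 : ℝ} (ht0 : 0 < t0) (α : ℕ → Fin C.N → ℝ)
    (Ji : Fin C.N → Matrix (Fin (2 * Spec.mC + 2)) (Fin (2 * Spec.mC + 2)) ℝ) (t : ℝ) :
    (schedProfile C t0 α Ji).drift Spec.mC t = Asm.drift0 t0 t :=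
  bergerProfile_drift ht0 (C.contDiff_tau tauC α) t

end Vale.Agent.P225.Full.Schedule
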