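import Vale.Agent.P225.Full.AsmBase
import Vale.Agent.P225.Full.Coef
import Vale.Agent.P225.Full.SchedProfile

/-! # The family of scheduled profiles and its distinguished solutions -/

namespace Vale.Agent.P225.Full.Asm

open Real Filter Topology Matrix Schedule

/-- Abbreviation for the complex structures of the pulses. -/
abbrev Jmat : Type := Matrix (Fin (2 * Spec.mC + 2)) (Fin (2 * Spec.mC + 2)) ℝ

variable {t0 : ℝ} {C : Clock} {α α' : ℕ → Fin C.N → ℝ} {Ji : Fin C.N → Jmat} {l : ℕ}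
  {E : Spec.EigenShell Spec.mC l}

lemma sched_adm (ht0 : 0 < t0) (hJ : ∀ i, IsCS (Ji i)) (α : ℕ → Fin C.N → ℝ) :
    (schedProfile C t0 α Ji).Adm :=
  bergerProfile_adm ht0 (C.contDiff_tau tauC α) (C.Jfun_isCS hJ (Schedule.isCS_stdJ _))
    (fun _ ht => C.tau_zero_of_le tauC α (ht.trans C.hT0)) (C.local_J tauC α Ji)

lemma sched_round {t : ℝ} (ht : C.tau tauC α t = 0) :
    Mshell (schedProfile C t0 α Ji) E t =
      (exp (-2 * Prof.psi pinfC t0 t) * lamR l) • (1 : Matrix (Fin E.D) (Fin E.D) ℝ) := by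
  rw [Mshell_round _ _ (by simp [schedProfile, bergerProfile, ht])]
  simp [schedProfile, bergerProfile, ht, lamR]

lemma sched_rest {j : ℕ} {t : ℝ} (ht : t ∈ Set.Icc (C.pulseEnd j) (C.T (j + 1))) :
    Mshell (schedProfile C t0 α Ji) E t = Matrix.diagonal fun i =>
      muB (Prof.psi pinfC t0 t) (C.bergerTau tauC j t) l (E.charge i) := by
  have h := C.tau_rest tauC α ht
  refine Mshell_muB _ E ?_ ?_ (C.Jfun_rest Ji ht)
  · simp only [schedProfile, bergerProfile, h]
  · simp only [schedProfile, bergerProfile, h]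

lemma sched_congr {j : ℕ} (hα : ∀ i < j, α i = α' i) {t : ℝ} (ht : t ≤ C.T j) :
    Mshell (schedProfile C t0 α Ji) E t = Mshell (schedProfile C t0 α' Ji) E t := by
  have h := (C.tau_congr tauC α α' hα ht).eq_of_nhds
  simp only [Mshell, schedProfile, bergerProfile, h]

/-- Two functions equal up to a time have the same derivative there. -/
lemma deriv_eq_of_eq_before {f g : ℝ → ℝ} (hf : Differentiable ℝ f) (hg : Differentiable ℝ g)
    {t : ℝ} (h : ∀ s ≤ t, f s = g s) : deriv f t = deriv g t :=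
  (uniqueDiffWithinAt_Iic t).eq_deriv (Set.Iic t) (hf t).hasDerivAt.hasDerivWithinAt
    ((hg t).hasDerivAt.hasDerivWithinAt.congr (fun s hs => h s hs) (h t le_rfl))

/-- The solution which is the round solution times a basis vector up to the first round. -/
def IsCore (C : Clock) (t0 : ℝ) (α : ℕ → Fin C.N → ℝ) (Ji : Fin C.N → Jmat) (U : ℝ → ℝ)
    (b : Fin E.D) (y : ℝ → Fin E.D → ℝ) : Prop :=
  IsShellSol (schedProfile C t0 α Ji) E y ∧
    ∀ t ≤ C.T0, ∀ i, y t i = U t * if i = b then 1 else 0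

variable {U : ℝ → ℝ}

lemma roundSol_solves (hLin : Spec.LinODE) (ht0 : 0 < t0) (hJ : ∀ i, IsCS (Ji i))
    (hU : IsRoundSol t0 l U) (b : Fin E.D) {y : ℝ → Fin E.D → ℝ}
    (hy : IsShellSol (schedProfile C t0 α Ji) E y)
    (hd : ∀ i, y C.T0 i = U C.T0 * (if i = b then 1 else 0) ∧
      deriv (fun t => y t i) C.T0 = deriv U C.T0 * (if i = b then 1 else 0)) :
    ∀ t ≤ C.T0, ∀ i, y t i = U t * if i = b then 1 else 0 := by
  intro t ht i
  have hP := sched_adm ht0 hJ α
  have hu := (hLin E.D _ _ hP.drift_smooth (Mshell_smooth _ E hP)).2.2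
  refine hu C.T0 t y (fun s i => U s * if i = b then 1 else 0)
    (fun i => (hy.1 i).of_le (WithTop.coe_le_coe.2 le_top))
    (fun i => (hU.1.mul contDiff_const).of_le (WithTop.coe_le_coe.2 le_top))
    (fun i s hs => ⟨hy.2 i s, ?_⟩) (fun i => ⟨(hd i).1, ?_⟩) i t Set.right_mem_uIcc
  · rw [Set.uIcc_of_ge ht] at hs
    have h1 : deriv (fun r => U r * if i = b then (1 : ℝ) else 0) =
        fun r => deriv U r * if i = b then (1 : ℝ) else 0 := funext fun r => deriv_mul_const_field _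
    rw [h1, deriv_mul_const_field, sched_drift C ht0 α Ji s,
      sched_round (C.tau_zero_of_le tauC α hs.2), Finset.sum_eq_single b (fun k _ hk => by simp [hk])
        (by simp), if_pos rfl, Matrix.smul_apply, Matrix.one_apply, smul_eq_mul]
    linear_combination (if i = b then (1 : ℝ) else 0) * hU.2.2.2.1 s
  · rw [(hd i).2, deriv_mul_const_field]

lemma exists_isCore (hLin : Spec.LinODE) (ht0 : 0 < t0) (hJ : ∀ i, IsCS (Ji i))
    (hU : IsRoundSol t0 l U) (α : ℕ → Fin C.N → ℝ) (b : Fin E.D) :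
    ∃ y, IsCore C t0 α Ji U b (E := E) y := by
  obtain ⟨y, hy, hd⟩ := exists_shellSol hLin (sched_adm ht0 hJ α) C.T0
    (fun i => U C.T0 * if i = b then 1 else 0) (fun i => deriv U C.T0 * if i = b then 1 else 0)
  exact ⟨y, hy, roundSol_solves hLin ht0 hJ hU b hy hd⟩

/-- The value and derivative at the start of a round depend only on the earlier rounds. -/
lemma IsCore.congr (hLin : Spec.LinODE) (ht0 : 0 < t0) (hJ : ∀ i, IsCS (Ji i))
    {b : Fin E.D} {y z : ℝ → Fin E.D → ℝ} (hy : IsCore C t0 α Ji U b y)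
    (hz : IsCore C t0 α' Ji U b z) {j : ℕ} (hα : ∀ i < j, α i = α' i) :
    ∀ i, y (C.T j) i = z (C.T j) i ∧
      deriv (fun t => y t i) (C.T j) = deriv (fun t => z t i) (C.T j) := by
  have hP := sched_adm ht0 hJ α
  have hu := (hLin E.D _ _ hP.drift_smooth (Mshell_smooth _ E hP)).2.2
  have hd : ∀ {β : ℕ → Fin C.N → ℝ} {w : ℝ → Fin E.D → ℝ}, IsCore C t0 β Ji U b w →
      ∀ i, Differentiable ℝ fun t => w t i := fun hw i => (hw.1.1 i).differentiable (by simp)
  have h0 : ∀ i, y C.T0 i = z C.T0 i ∧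
      deriv (fun t => y t i) C.T0 = deriv (fun t => z t i) C.T0 := fun i =>
    ⟨by rw [hy.2 _ le_rfl, hz.2 _ le_rfl],
      deriv_eq_of_eq_before (hd hy i) (hd hz i) fun s hs => by rw [hy.2 _ hs, hz.2 _ hs]⟩
  have heq : ∀ s ≤ C.T j, ∀ i, y s i = z s i := fun s hs i => by
    rcases le_total s C.T0 with h | h
    · rw [hy.2 _ h, hz.2 _ h]
    · refine hu C.T0 s y z (fun i => (hy.1.1 i).of_le (WithTop.coe_le_coe.2 le_top))
        (fun i => (hz.1.1 i).of_le (WithTop.coe_le_coe.2 le_top))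
        (fun i r hr => ⟨hy.1.2 i r, ?_⟩) h0 i s Set.right_mem_uIcc
      rw [Set.uIcc_of_le h] at hr
      have e := hz.1.2 i r
      rw [sched_drift C ht0] at e ⊢
      rw [sched_congr hα (hr.2.trans hs)]
      exact e
  exact fun i => ⟨heq _ le_rfl i,
    deriv_eq_of_eq_before (hd hy i) (hd hz i) fun s hs => heq s hs i⟩

lemma abs_drift0_le (ht0 : 0 < t0) (t : ℝ) : |drift0 t0 t| ≤ 32 + 33 * (-pinfC / (6 * t0)) := by
  have h1 := Prof.sig_nonneg margins_C.1.le ht0 t
  have h2 := Prof.sig_le margins_C.1.le ht0 t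
  rw [drift0, mC_eq, abs_le]
  constructor <;> linarith

lemma exp_four_le : exp (4 : ℝ) ≤ 81 := by
  calc exp (4 : ℝ) = exp 1 ^ (4 : ℕ) := by rw [← exp_nat_mul]; norm_num
    _ ≤ (3 : ℝ) ^ (4 : ℕ) := pow_le_pow_left₀ (exp_pos _).le exp_one_lt_three.le 4
    _ = 81 := by norm_num

/-- A bound for the coefficients, uniform in the schedule. -/
lemma sched_bound (E : ∀ l, Spec.EigenShell Spec.mC l) (ht0 : 0 < t0) (Ji : Fin C.N → Jmat) (L : ℕ) :
    ∃ B : ℝ, 1 ≤ B ∧ ∀ α : ℕ → Fin C.N → ℝ, ∀ t, |C.tau tauC α t| ≤ 1 →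
      |(schedProfile C t0 α Ji).drift Spec.mC t| ≤ B ∧
      ∀ l ≤ L, ∀ a i, |Mshell (schedProfile C t0 α Ji) (E l) t a i| ≤ B := by
  set X : ℕ → ℝ := fun l => (∑ a, ∑ b, |xiMat (E l) (stdJ _) a b|) +
    ∑ k, ∑ a, ∑ b, |xiMat (E l) (Ji k) a b| with hX
  have hX0 : ∀ l, 0 ≤ X l := fun l => add_nonneg
    (Finset.sum_nonneg fun _ _ => Finset.sum_nonneg fun _ _ => abs_nonneg _)
    (Finset.sum_nonneg fun _ _ => Finset.sum_nonneg fun _ _ => Finset.sum_nonneg fun _ _ => abs_nonneg _)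
  set B : ℝ := 32 + 33 * (-pinfC / (6 * t0)) + ∑ l ∈ Finset.range (L + 1), 81 * (lamR l + 2 * X l)
    with hB
  have hp : 0 ≤ -pinfC / (6 * t0) := div_nonneg (neg_nonneg.2 margins_C.1.le) (by positivity)
  have hS : ∀ l, 0 ≤ 81 * (lamR l + 2 * X l) := fun l => by linarith [lamR_nonneg l, hX0 l]
  have hSs : 0 ≤ ∑ l ∈ Finset.range (L + 1), 81 * (lamR l + 2 * X l) :=
    Finset.sum_nonneg fun l _ => hS l
  refine ⟨B, by rw [hB]; linarith, fun α t ht => ⟨?_, fun l hl a i => ?_⟩⟩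
  · rw [sched_drift C ht0]
    exact (abs_drift0_le ht0 t).trans (by linarith)
  have hJ : |xiMat (E l) ((schedProfile C t0 α Ji).J t) a i| ≤ X l := by
    have h1 : ∀ (M : Matrix (Fin (E l).D) (Fin (E l).D) ℝ), |M a i| ≤ ∑ a, ∑ b, |M a b| := fun M =>
      (Finset.single_le_sum (f := fun b => |M a b|) (fun _ _ => abs_nonneg _) (Finset.mem_univ i)).trans
        (Finset.single_le_sum (f := fun a => ∑ b, |M a b|)
          (fun _ _ => Finset.sum_nonneg fun _ _ => abs_nonneg _) (Finset.mem_univ a))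
    show |xiMat (E l) (C.Jfun Ji t) a i| ≤ X l
    by_cases h : ∃ p, t ∈ C.slot p
    · obtain ⟨p, hp⟩ := h
      rw [C.Jfun_slot Ji hp]
      refine (h1 _).trans (le_add_of_nonneg_of_le ?_ ?_)
      · exact Finset.sum_nonneg fun _ _ => Finset.sum_nonneg fun _ _ => abs_nonneg _
      · exact Finset.single_le_sum (f := fun k => ∑ a, ∑ b, |xiMat (E l) (Ji k) a b|)
          (fun _ _ => Finset.sum_nonneg fun _ _ => Finset.sum_nonneg fun _ _ => abs_nonneg _)
          (Finset.mem_univ p.2)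
    · rw [C.Jfun_out Ji (by simpa using h)]
      exact (h1 _).trans (le_add_of_nonneg_right (Finset.sum_nonneg fun _ _ =>
        Finset.sum_nonneg fun _ _ => Finset.sum_nonneg fun _ _ => abs_nonneg _))
  have hψ := neg_one_le_psi ht0 t
  obtain ⟨h1, h2⟩ := abs_le.1 ht
  have hq : exp (-2 * (schedProfile C t0 α Ji).q t) ≤ 81 := by
    refine (exp_le_exp.2 ?_).trans exp_four_le
    simp only [schedProfile, bergerProfile, mC_eq]
    linarith
  have hpp : exp (-2 * (schedProfile C t0 α Ji).p t) ≤ 81 := by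
    refine (exp_le_exp.2 ?_).trans exp_four_le
    simp only [schedProfile, bergerProfile, mC_eq]
    linarith
  have hone : |(1 : Matrix (Fin (E l).D) (Fin (E l).D) ℝ) a i| ≤ 1 := by
    rw [Matrix.one_apply]; split_ifs <;> simp
  rw [Mshell_eq_xiMat, Matrix.sub_apply, Matrix.smul_apply, Matrix.smul_apply, smul_eq_mul, smul_eq_mul]
  refine (abs_sub _ _).trans (le_trans ?_ (le_add_of_nonneg_of_le (by linarith)
    (Finset.single_le_sum (f := fun l => 81 * (lamR l + 2 * X l)) (fun l _ => hS l)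
      (Finset.mem_range.2 (Nat.lt_succ_of_le hl)))))
  rw [show sphEig (2 * Spec.mC + 2) l = lamR l from rfl, abs_mul, abs_mul, abs_mul, abs_exp,
    abs_of_nonneg (lamR_nonneg l)]
  have e1 := mul_le_mul (mul_le_mul_of_nonneg_right hq (lamR_nonneg l)) hone (abs_nonneg _)
    (mul_nonneg (by norm_num) (lamR_nonneg l))
  have hdiff : |exp (-2 * (schedProfile C t0 α Ji).p t) - exp (-2 * (schedProfile C t0 α Ji).q t)| ≤ 162 := by
    refine (abs_sub _ _).trans ?_
    rw [abs_exp, abs_exp]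
    linarith
  have e2 := mul_le_mul hdiff hJ (abs_nonneg _) (by norm_num : (0 : ℝ) ≤ 162)
  linarith

end Vale.Agent.P225.Full.Asm
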