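import Vale.Agent.P225.Full.AsmStep

/-! # Choice of the constants -/

namespace Vale.Agent.P225.Full.Asm

open Real Filter Topology Matrix Schedule

lemma exp_neg_le_inv {x : ℝ} (hx : 0 < x) : exp (-x) ≤ x⁻¹ := by
  rw [exp_neg]
  exact inv_anti₀ hx (by linarith [add_one_le_exp x])

lemma exp_three_le : exp (3 : ℝ) ≤ 27 := by
  calc exp (3 : ℝ) = exp 1 ^ (3 : ℕ) := by rw [← exp_nat_mul]; norm_num
    _ ≤ (3 : ℝ) ^ (3 : ℕ) := pow_le_pow_left₀ (exp_pos _).le exp_one_lt_three.le 3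
    _ = 27 := by norm_num

/-- The constants: squashing schedule, accuracy, starting time. -/
theorem exists_good (hPulse : PulseStep) (E : ∀ l, Spec.EigenShell Spec.mC l) (L : ℕ)
    (Sel : ∀ l, Finset (Fin (E l).D)) (prm : ∀ l, Equiv.Perm (Fin (E l).D))
    (T : ∀ l, Matrix (Fin (E l).D) (Fin (E l).D) ℝ) (ν : ℝ) (hν : 0 < ν)
    (hSel : ∀ l, (l < 2 ∨ L < l) → Sel l = ∅) (hprm : ∀ l, ∀ c ∈ Sel l, prm l c ∈ Sel l)
    (hdet : ∀ l, (T l).det = 1)
    (hT : ∀ l, ∀ c ∈ Sel l, (∀ a, a ≠ prm l c → T l a c = 0) ∧ |T l (prm l c) c| = 1) :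
    ∃ (t0 : ℝ) (U : ℕ → ℝ → ℝ) (C : Clock) (Ji : Fin C.N → Jmat) (Γ cm η η' δ R : ℝ),
      Good t0 L E U C Ji Sel prm T ν Γ cm η η' δ R ∧
      ∀ α : ℕ → Fin C.N → ℝ, (∀ j i, |α j i| ≤ R) →
        (∀ t, 0 ≤ (schedProfile C t0 α Ji).rrTerm Spec.mC t ∧
          0 ≤ (schedProfile C t0 α Ji).fibTerm Spec.mC t ∧
          0 ≤ (schedProfile C t0 α Ji).horTerm Spec.mC t) ∧
        ∀ t, |C.tau tauC α t| ≤ 1 := by
  obtain ⟨t0, t1, ht0, ht1, hric⟩ := exists_sched_ricci
  choose U hU using roundSol t0 ht0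
  set Γ : ℝ := 1 + ν + ∑ l ∈ Finset.range (L + 1),
    (22 * lamR l + gammaR l + ∑ P ∈ Finset.range (l + 1), Spec.expo (Spec.level l P)) with hΓ
  have hsum0 : ∀ l, 0 ≤ ∑ P ∈ Finset.range (l + 1), Spec.expo (Spec.level l P) := fun l =>
    Finset.sum_nonneg fun P hP =>
      (expo_spec (level_nonneg (Nat.lt_succ_iff.1 (Finset.mem_range.1 hP)))).1
  have hterm : ∀ l, 0 ≤ 22 * lamR l + gammaR l +
      ∑ P ∈ Finset.range (l + 1), Spec.expo (Spec.level l P) := fun l => by
    linarith [lamR_nonneg l, (gammaR_spec l).1, hsum0 l]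
  have hΓl : ∀ l ≤ L, 22 * lamR l + gammaR l +
      (∑ P ∈ Finset.range (l + 1), Spec.expo (Spec.level l P)) + 1 + ν ≤ Γ := fun l hl => by
    have := Finset.single_le_sum (f := fun l => 22 * lamR l + gammaR l +
      ∑ P ∈ Finset.range (l + 1), Spec.expo (Spec.level l P)) (fun l _ => hterm l)
      (Finset.mem_range.2 (Nat.lt_succ_of_le hl))
    linarith
  have hΓ1 : 1 ≤ Γ := by
    have := Finset.sum_nonneg (s := Finset.range (L + 1)) fun l _ => hterm l
    linarith
  have hΓd : ∀ l ≤ L, ∀ P ≤ l, dwellExp ν l P ≤ Γ := fun l hl P hP => by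
    have := Finset.single_le_sum (f := fun P => Spec.expo (Spec.level l P))
      (fun Q hQ => (expo_spec (level_nonneg (Nat.lt_succ_iff.1 (Finset.mem_range.1 hQ)))).1)
      (Finset.mem_range.2 (Nat.lt_succ_of_le hP))
    rw [dwellExp]
    linarith [hΓl l hl, lamR_nonneg l, (gammaR_spec l).1]
  set ζ : ℝ := 16 * ν / (Γ + 16 * ν) with hζ
  have hζpos : 0 < ζ := by positivity
  have hζ1 : ζ ≤ 1 := by rw [hζ, div_le_one (by linarith)]; linarith
  have hζΓ : ζ * Γ ≤ 16 * ν := by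
    rw [hζ, div_mul_eq_mul_div, div_le_iff₀ (by linarith)]
    exact mul_le_mul_of_nonneg_left (by linarith) (by linarith)
  set cm : ℝ := 32 - ζ with hcm
  have hcm31 : 31 ≤ cm := by linarith
  obtain ⟨N, Ji, R, hJi, hR, hP⟩ := hPulse t0 ht0 L E (fun l => T l) U bump (1 / 31)
    (fun l => hdet l) hU bump_smooth
    (fun s hs => hs.elim bump_left bump_right) bump_integral
  set g0 : ℝ := (1 + ∑ l ∈ Finset.Icc 2 L, (gammaR l)⁻¹)⁻¹ with hg0
  have hinv : 0 ≤ ∑ l ∈ Finset.Icc 2 L, (gammaR l)⁻¹ :=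
    Finset.sum_nonneg fun l _ => inv_nonneg.2 (gammaR_spec l).1
  have hg0pos : 0 < g0 := by positivity
  have hg01 : g0 ≤ 1 := inv_le_one_of_one_le₀ (by linarith)
  have hg0l : ∀ l, 2 ≤ l → l ≤ L → g0 ≤ gammaR l := fun l h2 hl => by
    have hpos : 0 < gammaR l := gammaR_pos (by omega)
    have h := Finset.single_le_sum (f := fun l => (gammaR l)⁻¹)
      (fun l _ => inv_nonneg.2 (gammaR_spec l).1) (Finset.mem_Icc.2 ⟨h2, hl⟩)
    calc g0 ≤ ((gammaR l)⁻¹)⁻¹ := inv_anti₀ (by positivity) (by linarith)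
      _ = gammaR l := inv_inv _
  have hR0 : 0 < R := one_pos.trans_le hR
  set δ : ℝ := g0 / (4 * R) with hδ
  have hδpos : 0 < δ := by positivity
  have hδ4 : δ * (4 * R) = g0 := div_mul_cancel₀ _ (by positivity)
  obtain ⟨η, hη, Tmin, hpulse⟩ := hP δ hδpos
  set η' : ℝ := min (g0 / 2) (η / (2 * (Γ + 1))) with hη'
  have hη'pos : 0 < η' := lt_min (by positivity) (by positivity)
  have hη'g : η' ≤ g0 / 2 := min_le_left _ _
  have hη'η : η' * (2 * (Γ + 1)) ≤ η :=
    (le_div_iff₀ (by linarith)).1 (min_le_right _ _)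
  -- the starting time
  have hev : ∀ᶠ t in atTop, |drift0 t0 t - 32| ≤ min η' ζ ∧
      ∀ l ∈ Finset.range (L + 1), |deriv (U l) t / U l t - gammaR l| ≤ η' ∧
        |exp (-2 * Prof.psi pinfC t0 t) * lamR l - gammaR l * (gammaR l + 32)| ≤ η' := by
    have hnear : ∀ {f : ℝ → ℝ} {x ρ : ℝ}, Tendsto f atTop (𝓝 x) → 0 < ρ →
        ∀ᶠ t in atTop, |f t - x| ≤ ρ := fun hf hρ =>
      ((tendsto_order.1 (tendsto_iff_norm_sub_tendsto_zero.1 hf)).2 _ hρ).mono fun t ht => le_of_lt ht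
    refine (hnear (tendsto_drift ht0) (lt_min hη'pos hζpos)).and
      ((Filter.eventually_all_finset _).2 fun l _ => (hnear (hU l).2.2.2.2 hη'pos).and (hnear ?_ hη'pos))
    have h := (tendsto_psi_C ht0).mul_const (lamR l)
    rwa [(gammaR_spec l).2, mul_comm (lamR l) (exp (-2 * pinfC))]
  obtain ⟨T1, hT1⟩ := eventually_atTop.1 hev
  set T0 : ℝ := max (max T1 Tmin) t1 with hT0
  have hT01 : t1 ≤ T0 := le_max_right _ _
  have hT0T1 : T1 ≤ T0 := (le_max_left _ _).trans (le_max_left _ _)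
  have hT0min : Tmin ≤ T0 := (le_max_right _ _).trans (le_max_left _ _)
  obtain ⟨J0, hJ0⟩ := hric N R T0 hT01
  obtain ⟨J1, hJ1⟩ := tau_bounds N R tauC (1 / 2) 1 t0 T0 tauC_nonneg (by norm_num) one_pos ht0
  obtain ⟨J2, hJ2⟩ := exists_nat_ge ((2 * Γ + 2) / η)
  obtain ⟨J3, hJ3⟩ := exists_nat_ge η⁻¹
  let C : Clock := ⟨N, T0, J0 + J1 + J2 + J3 + 1, zero_le_one.trans (ht1.trans hT01), by omega⟩
  refine ⟨t0, U, C, Ji, Γ, cm, η, η', δ, R, ?_, fun α hα => ⟨?_, fun t => ?_⟩⟩
  · have hj2 : (2 * Γ + 2) / η ≤ C.j0 := hJ2.trans (by simp only [C]; push_cast; linarith)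
    have hj3 : η⁻¹ ≤ C.j0 := hJ3.trans (by simp only [C]; push_cast; linarith)
    have hj0pos : (0 : ℝ) < C.j0 := lt_of_lt_of_le (inv_pos.2 hη) hj3
    have hjsmall : 2 * (Γ + 1) / C.j0 ≤ η := by
      rw [div_le_iff₀ hη] at hj2
      rw [div_le_iff₀ hj0pos]
      linarith
    have hLj : ∀ j, (C.j0 : ℝ) ≤ C.L j := fun j =>
      (C.j0_le_M j).trans (le_self_pow₀ (C.one_le_M j) (by norm_num))
    have hexp : ∀ (j : ℕ) (a : ℝ), 31 ≤ a → exp (-a * C.L j) ≤ 1 / C.j0 := fun j a ha => by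
      have hL := C.L_pos j
      rw [neg_mul, one_div]
      refine (exp_neg_le_inv (by nlinarith)).trans (inv_anti₀ hj0pos ?_)
      exact (hLj j).trans (le_mul_of_one_le_left hL.le (by linarith))
    refine
      { ht0 := ht0, hJi := hJi, hU := hU
        hSel := fun l c hc => ?_
        hprm := hprm, hT := hT, hν := hν, hcm := hcm31, hη := hη, hη'0 := hη'pos.le
        hη'1 := by linarith
        hR := hR, hδ := hδpos, hδR := by linarith
        hδγ := fun l h2 hl => ?_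
        hΓ0 := by linarith
        hΓg := fun l hl => by linarith [hΓl l hl, lamR_nonneg l, hsum0 l]
        hΓd := hΓd
        hΓl := fun l hl => ?_
        late := fun t ht => ?_
        small1 := fun j => ?_
        small2 := fun j l hl => ?_
        pulse := fun j V0 θ hV0 hθ => ?_ }
    · by_contra hcon
      have : Sel l = ∅ := hSel l (by omega)
      simp [this] at hc
    · linarith [hg0l l h2 hl]
    · have h1 := mul_le_mul_of_nonneg_right exp_three_le (lamR_nonneg l)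
      have h2 : 22 * lamR l ≤ Γ := by linarith [hΓl l hl, (gammaR_spec l).1, hsum0 l]
      have h3 := mul_le_mul_of_nonneg_left (show 31 ≤ Γ + cm by linarith) (show 0 ≤ Γ by linarith)
      linarith [lamR_nonneg l]
    · obtain ⟨hd, hl'⟩ := hT1 t (hT0T1.trans ht)
      obtain ⟨hd1, hd2⟩ := le_min_iff.1 hd
      refine ⟨by linarith [(abs_le.1 hd2).1], hd1, fun l hl => ?_⟩
      obtain ⟨h1, h2⟩ := hl' l (Finset.mem_range.2 (Nat.lt_succ_of_le hl))
      refine ⟨h1, h2, fun P hP => ?_⟩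
      have hlev := level_nonneg hP
      obtain ⟨he0, he⟩ := expo_spec hlev
      have hψ : exp (-2 * (Prof.psi pinfC t0 t - pinfC)) ≤ 1 :=
        exp_le_one_iff.2 (by linarith [Prof.le_psi margins_C.1.le ht0 (p := pinfC) t])
      rw [show tauC = log Spec.tB from rfl, muB_dwell]
      refine (mul_le_of_le_one_left hlev hψ).trans ?_
      have h5 := mul_le_mul_of_nonneg_left (hΓd l hl P hP) hζpos.le
      have h6 : 0 ≤ ν * (2 * Spec.expo (Spec.level l P) + ν) := by positivity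
      simp only [dwellExp, hcm] at h5 ⊢
      linarith
    · have h1 := hexp j cm hcm31
      have h2 : exp (-cm * (C.T (j + 1) - C.pulseEnd j)) ≤ exp (-cm * C.L j) := by
        refine exp_le_exp.2 ?_
        have : C.L j ≤ C.T (j + 1) - C.pulseEnd j := by
          rw [C.T_succ, Clock.pulseEnd]
          linarith [C.L_pos j, C.M4_pos j]
        have := mul_le_mul_of_nonneg_left this (show 0 ≤ cm by linarith)
        linarith
      have h3 : 2 * R * δ * (Γ * (1 / 31) + 1) ≤ 2 * (Γ + 1) := by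
        have hK : 0 ≤ Γ * (1 / 31) + 1 := by positivity
        have := mul_le_mul_of_nonneg_right (show 2 * R * δ ≤ 1 by linarith) hK
        linarith
      refine le_trans (mul_le_mul h3 (h2.trans h1) (exp_pos _).le (by linarith)) ?_
      rw [mul_one_div]
      exact hjsmall
    · have h1 := hexp j (32 - η') (by linarith)
      have h2 : (1 + gammaR l) * η' / (32 - η') ≤ Γ * η' := by
        rw [div_le_iff₀ (by linarith)]
        have ha := mul_le_mul_of_nonneg_right (show 1 + gammaR l ≤ Γ by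
          linarith [hΓl l hl, lamR_nonneg l, hsum0 l]) hη'pos.le
        have hb := mul_le_mul_of_nonneg_left (show 1 ≤ 32 - η' by linarith)
          (show 0 ≤ Γ * η' by positivity)
        linarith
      have h4 : 2 * Γ * exp (-(32 - η') * C.L j) ≤ η / 2 := by
        have h6 : exp (-(32 - η') * C.L j) ≤ 1 / (31 * C.j0) := by
          rw [neg_mul, one_div]
          refine (exp_neg_le_inv (by nlinarith [C.L_pos j])).trans (inv_anti₀ (by positivity) ?_)
          exact mul_le_mul (by linarith) (hLj j) hj0pos.le (by linarith)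
        refine (mul_le_mul_of_nonneg_left h6 (by linarith)).trans ?_
        rw [div_le_iff₀ hj0pos] at hjsmall
        rw [mul_one_div, div_le_iff₀ (by positivity)]
        linarith
      linarith
    · obtain ⟨a, ha, hgo⟩ := hpulse (C.T j) (C.eps j) V0 θ (hT0min.trans (C.T0_le j)) (C.eps_pos j)
        ((C.eps_le j).trans (inv_le_of_inv_le₀ hη hj3)) hV0 hθ
      refine ⟨a, ha, fun α hα l hl y hy b A hd => ?_⟩
      have := hgo (schedProfile C t0 α Ji) (sched_adm ht0 hJi α) (fun t => sched_drift C ht0 α Ji t)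
        (fun s hs => by rw [← hα]; exact sched_pulse C t0 α Ji j hs) l hl y hy b A hd
      rwa [show C.T j + (N : ℝ) / C.eps j = C.pulseEnd j by
        rw [show (N : ℝ) = (C.N : ℝ) from rfl, C.N_mul_L_div]; rfl] at this
  · exact (hJ0 C rfl rfl (by simp only [C]; omega) α hα Ji hJi).2
  · obtain ⟨h1, h2⟩ := (hJ1 C rfl rfl (by simp only [C]; omega) α hα t).1
    have := tauC_nonneg
    have htau : tauC ≤ 1 / 20 := by
      rw [tauC]
      refine (log_le_sub_one_of_pos (show (0 : ℝ) < Spec.tB by norm_num [Spec.tB])).trans ?_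
      norm_num [Spec.tB]
    rw [abs_le]
    constructor <;> linarith

end Vale.Agent.P225.Full.Asm
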