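import Vale.Agent.P225.Full.AsmBase

/-! # From the end of the pulses to the start of the next round -/

namespace Vale.Agent.P225.Full.Asm

open Real Filter Topology

variable {D : ℕ}

private lemma off_arith {X1 X0 u α δ R K E η Ye : ℝ} (h2 : X1 ≤ E * X0) (hX : X0 ≤ u * α * δ * K)
    (hE : 0 ≤ E) (hR : 0 < R) (hu : 0 ≤ u) (hα : 0 ≤ α) (hδ : 0 ≤ δ) (hK : 0 ≤ K)
    (hη : 2 * R * δ * K * E ≤ η) (hY : u * (α / (2 * R)) ≤ Ye) : X1 ≤ η * Ye := by
  have h0 : 0 ≤ η := le_trans (by positivity) hη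
  calc X1 ≤ E * (u * α * δ * K) := h2.trans (mul_le_mul_of_nonneg_left hX hE)
    _ = 2 * R * δ * K * E * (u * (α / (2 * R))) := by field_simp
    _ ≤ η * (u * (α / (2 * R))) := mul_le_mul_of_nonneg_right hη (by positivity)
    _ ≤ η * Ye := mul_le_mul_of_nonneg_left hY h0

/-- Between the pulses of one round and those of the next the equations are diagonal: the column
returns to a multiple of a basis vector, with a small derivative in the coordinates `z = y / U`. -/
theorem tail_step (hTail : TailMain)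
    {a d0 d1 g e cm Γ γd γ η' δ R θmax η : ℝ} (ha : a ≤ d0) (hd : d0 ≤ d1) (hg : d1 ≤ g) (he : g ≤ e)
    (hae : a < e) (hcm : 0 < cm) (hγd : 0 ≤ γd) (hγdΓ : γd ≤ Γ) (hγ : 0 ≤ γ) (hγΓ : γ + 1 ≤ Γ)
    (hη'0 : 0 ≤ η') (hη'1 : η' ≤ 1 / 2) (hR : 1 ≤ R) (hδ0 : 0 < δ)
    (hδR : δ * (4 * R) ≤ 1) (hδθ : δ * θmax * (2 * R) ≤ 1) (hδγ : δ * (2 * R) ≤ γ - η')
    (hη1 : 2 * R * δ * (Γ * θmax + 1) * exp (-cm * (e - a)) ≤ η)
    (hη2 : 2 * Γ * exp (-(32 - η') * (e - g)) + (1 + γ) * η' / (32 - η') + η' ≤ η)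
    {c U : ℝ → ℝ} {μ : Fin D → ℝ → ℝ} {y : ℝ → Fin D → ℝ}
    (hU : ContDiff ℝ (⊤ : ℕ∞) U) (hUp : ∀ t ∈ Set.Icc a e, 0 < U t ∧ 0 ≤ deriv U t)
    (hUr : ∀ t ∈ Set.Icc a e, |deriv U t / U t - γ| ≤ η')
    (hy : ∀ i, ContDiff ℝ (⊤ : ℕ∞) fun t => y t i) (hc : Continuous c) (hμc : ∀ i, Continuous (μ i))
    (hode : ∀ i, ∀ t ∈ Set.Icc a e,
      deriv (deriv fun s => y s i) t + c t * deriv (fun s => y s i) t = μ i t * y t i)
    (hcμ : ∀ i, ∀ t ∈ Set.Icc a e, cm ≤ c t ∧ 0 ≤ μ i t ∧ μ i t ≤ Γ * (Γ + cm))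
    {θs θ : Fin D → ℝ} (hθs : ∀ i, 0 ≤ θs i ∧ θs i ≤ θmax)
    (hseg : ∀ i, ∃ κ : ℝ, 1 ≤ κ ∧ ∀ f : ℝ → ℝ, ContDiff ℝ 2 f →
      (∀ t ∈ Set.Icc a e, deriv (deriv f) t + c t * deriv f t = μ i t * f t) →
      f e = κ * (f a + θs i * deriv f a) ∧
      (f e = 0 → |deriv f e| ≤ exp (-cm * (e - a)) * |deriv f a|))
    (hθ : ∀ i, θ i = θs i * U a / (U a + θs i * deriv U a))
    (b : Fin D) (hdwell : ∀ t ∈ Set.Icc d0 d1, μ b t ≤ γd * (γd + cm))
    (hgap : ∀ t ∈ Set.Icc g e, |c t - 32| ≤ η' ∧ |μ b t - γ * (γ + 32)| ≤ η')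
    {A κ s : ℝ} (hA : A ≠ 0) (hκ1 : R⁻¹ ≤ κ) (hκ2 : κ ≤ R) (hs : |s| = 1)
    (hend : ∀ i, y a i / U a + θ i * deriv (fun t => y t i / U t) a = A * κ * (if i = b then s else 0) ∧
      |deriv (fun t => y t i / U t) a| ≤ |A| * δ) :
    ∃ A' : ℝ, A' ≠ 0 ∧
      (∀ i, y e i / U e = A' * (if i = b then 1 else 0) ∧
        |deriv (fun t => y t i / U t) e| ≤ η * |A'|) ∧
      |A'| * U e ≤ |A| * U a * (2 * R) *
        exp (γd * (d1 - d0) + Γ * ((d0 - a) + (e - d1)) + 3 * Γ / cm) := by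
  have hmema : a ∈ Set.Icc a e := ⟨le_rfl, hae.le⟩
  have hmeme : e ∈ Set.Icc a e := ⟨hae.le, le_rfl⟩
  obtain ⟨hUa, hU'a⟩ := hUp a hmema
  obtain ⟨hUe, -⟩ := hUp e hmeme
  have hra := abs_le.1 (hUr a hmema)
  have hre := hUr e hmeme
  have hR0 : 0 < R := one_pos.trans_le hR
  have hκ0 : 0 < κ := (inv_pos.2 hR0).trans_le hκ1
  have hA0 : 0 < |A| := abs_pos.2 hA
  have hC2 : ∀ i, ContDiff ℝ 2 fun t => y t i := fun i =>
    (hy i).of_le (WithTop.coe_le_coe.2 le_top)
  set z : Fin D → ℝ := fun i => y a i / U a with hz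
  set z1 : Fin D → ℝ := fun i => deriv (fun t => y t i / U t) a with hz1
  have hya : ∀ i, y a i = U a * z i := fun i => (mul_div_cancel₀ _ hUa.ne').symm
  have hy'a : ∀ i, deriv (fun t => y t i) a = deriv U a * z i + U a * z1 i := fun i => by
    have h := deriv_div_pos (hy i) hU hUa.ne'
    simp only [hz1, h, hz]
    field_simp
    ring
  have hθ0 : ∀ i, 0 ≤ θ i ∧ θ i ≤ θmax := fun i => by
    have h1 := mul_nonneg (hθs i).1 hU'a
    rw [hθ i]
    refine ⟨by have := (hθs i).1; positivity, le_trans ?_ (hθs i).2⟩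
    rw [div_le_iff₀ (by linarith)]
    exact mul_le_mul_of_nonneg_left (by linarith) (hθs i).1
  have hθmax : 0 ≤ θmax := (hθ0 b).1.trans (hθ0 b).2
  have hfun : ∀ i, y a i + θs i * deriv (fun t => y t i) a =
      (U a + θs i * deriv U a) * (z i + θ i * z1 i) := fun i => by
    have : 0 < U a + θs i * deriv U a := by linarith [mul_nonneg (hθs i).1 hU'a]
    rw [hya, hy'a, hθ i]
    field_simp
    ring
  -- the pivot, normalised to be positive
  set σ : ℝ := if 0 ≤ A * s then 1 else -1 with hσ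
  have hσA : σ * (A * s) = |A| := by
    have h : |A * s| = |A| := by rw [abs_mul, hs, mul_one]
    rw [← h, hσ]
    split_ifs with h0
    · rw [one_mul, abs_of_nonneg h0]
    · rw [neg_one_mul, abs_of_neg (not_le.1 h0)]
  have hσ1 : |σ| = 1 := by rw [hσ]; split_ifs <;> simp
  have hz1b : |σ * z1 b| ≤ |A| * δ := by rw [abs_mul, hσ1, one_mul]; exact (hend b).2
  have hzb : σ * z b = |A| * κ - θ b * (σ * z1 b) := by
    have h : z b + θ b * z1 b = A * κ * s := by rw [(hend b).1, if_pos rfl]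
    rw [← hσA, show z b = A * κ * s - θ b * z1 b by linarith]
    ring
  have hθz : |θ b * (σ * z1 b)| ≤ θmax * (|A| * δ) := by
    rw [abs_mul, abs_of_nonneg (hθ0 b).1]
    exact mul_le_mul (hθ0 b).2 hz1b (abs_nonneg _) hθmax
  have hzlow : |A| / (2 * R) ≤ σ * z b := by
    have h1 := mul_le_mul_of_nonneg_left hκ1 hA0.le
    have h2 : θmax * (|A| * δ) ≤ |A| / (2 * R) := by
      rw [le_div_iff₀ (by positivity)]
      calc θmax * (|A| * δ) * (2 * R) = |A| * (δ * θmax * (2 * R)) := by ring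
        _ ≤ |A| * 1 := mul_le_mul_of_nonneg_left hδθ hA0.le
        _ = |A| := mul_one _
    have h3 : |A| * R⁻¹ = 2 * (|A| / (2 * R)) := by field_simp
    linarith [(abs_le.1 hθz).2]
  have hzpos : 0 < σ * z b := (div_pos hA0 (by positivity)).trans_le hzlow
  have hzup : σ * z b ≤ 2 * R * |A| := by
    have h1 := mul_le_mul_of_nonneg_left hκ2 hA0.le
    have h2 : θmax * (|A| * δ) ≤ |A| * R := by
      calc θmax * (|A| * δ) = |A| * (δ * θmax) := by ring
        _ ≤ |A| * R := mul_le_mul_of_nonneg_left (by nlinarith [mul_nonneg hδ0.le hθmax]) hA0.le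
    linarith [(abs_le.1 hθz).1]
  have hz1z : |σ * z1 b| ≤ 2 * R * δ * (σ * z b) := by
    refine hz1b.trans ?_
    have := mul_le_mul_of_nonneg_left hzlow (show 0 ≤ 2 * R * δ by positivity)
    calc |A| * δ = 2 * R * δ * (|A| / (2 * R)) := by field_simp
      _ ≤ _ := this
  set Y : ℝ → ℝ := fun t => σ * y t b with hYdef
  have hY' : ∀ t, deriv Y t = σ * deriv (fun t => y t b) t := fun t => deriv_const_mul_field σ
  have hY'' : ∀ t, deriv (deriv Y) t = σ * deriv (deriv fun t => y t b) t := fun t => by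
    rw [funext hY']; exact deriv_const_mul_field σ
  have hYa : Y a = U a * (σ * z b) := by rw [hYdef]; simp only; rw [hya]; ring
  have hY'a : deriv Y a = deriv U a * (σ * z b) + U a * (σ * z1 b) := by rw [hY', hy'a]; ring
  have hU'lo : (γ - η') * U a ≤ deriv U a := by
    have := (le_div_iff₀ hUa).1 (show γ - η' ≤ deriv U a / U a by linarith)
    linarith
  have hU'hi : deriv U a ≤ (γ + η') * U a := by
    have := (div_le_iff₀ hUa).1 (show deriv U a / U a ≤ γ + η' by linarith)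
    linarith
  have hRδ : 2 * R * δ ≤ 1 / 2 := by linarith
  obtain ⟨hYe, hYgrow, hYrel⟩ := hTail a d0 d1 g e cm Γ γd γ 32 η' c (μ b) Y ha hd hg he hcm hγd hγdΓ
    hγ (by linarith) hη'0 (by linarith) (contDiff_const.mul (hC2 b)) hc (hμc b)
    (fun t ht => by
      rw [hY'', hY', hYdef]
      simp only
      linear_combination σ * hode b t ht)
    (hcμ b) hdwell hgap (by rw [hYa]; exact mul_pos hUa hzpos)
    (by
      rw [hY'a]
      have h1 := mul_le_mul_of_nonneg_right hU'lo hzpos.le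
      have h2 := mul_le_mul_of_nonneg_left hz1z hUa.le
      have h3 := mul_le_mul_of_nonneg_right hδγ (mul_pos hUa hzpos).le
      have h4 := mul_le_mul_of_nonneg_left (abs_le.1 (le_refl |σ * z1 b|)).1 hUa.le
      linarith)
    (by
      rw [hY'a, hYa]
      have h1 := mul_le_mul_of_nonneg_right hU'hi hzpos.le
      have h2 := mul_le_mul_of_nonneg_left hz1z hUa.le
      have h3 := mul_le_mul_of_nonneg_right hRδ (mul_pos hUa hzpos).le
      have h4 := mul_le_mul_of_nonneg_left (le_abs_self (σ * z1 b)) hUa.le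
      have h5 := mul_le_mul_of_nonneg_right (show γ + η' + 1 / 2 ≤ Γ by linarith) (mul_pos hUa hzpos).le
      linarith)
  have hyb : y e b = σ * Y e := by
    rw [hYdef]
    simp only
    rw [← mul_assoc, show σ * σ = 1 by rw [← abs_mul_abs_self σ, hσ1, one_mul], one_mul]
  have hyb0 : y e b ≠ 0 := fun h => by
    have : Y e = 0 := by rw [hYdef]; simp [h]
    linarith
  have habsb : |y e b| = Y e := by rw [hyb, abs_mul, hσ1, one_mul, abs_of_pos hYe]
  have hYmono : U a * (|A| / (2 * R)) ≤ Y e := by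
    obtain ⟨κ', hκ', hf⟩ := hseg b
    have h := (hf (fun t => y t b) (hC2 b) (hode b)).1
    have hUθ : U a ≤ U a + θs b * deriv U a := by linarith [mul_nonneg (hθs b).1 hU'a]
    have hab : U a * (|A| / (2 * R)) ≤ |y e b| := by
      rw [h, hfun, (hend b).1, if_pos rfl, abs_mul, abs_mul, abs_mul, abs_mul, hs, mul_one,
        abs_of_pos (one_pos.trans_le hκ'), abs_of_pos (hUa.trans_le hUθ), abs_of_pos hκ0]
      have h1 : |A| / (2 * R) ≤ |A| * κ := by
        refine le_trans ?_ (mul_le_mul_of_nonneg_left hκ1 hA0.le)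
        rw [div_eq_mul_inv]
        exact mul_le_mul_of_nonneg_left (inv_anti₀ hR0 (by linarith)) hA0.le
      calc U a * (|A| / (2 * R)) ≤ (U a + θs b * deriv U a) * (|A| * κ) :=
            mul_le_mul hUθ h1 (by positivity) (by linarith)
        _ ≤ κ' * ((U a + θs b * deriv U a) * (|A| * κ)) :=
            le_mul_of_one_le_left (mul_nonneg (by linarith) (by positivity)) hκ'
    rwa [habsb] at hab
  refine ⟨y e b / U e, div_ne_zero hyb0 hUe.ne', fun i => ?_, ?_⟩
  · rcases eq_or_ne i b with rfl | hib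
    · refine ⟨by rw [if_pos rfl, mul_one], ?_⟩
      rw [deriv_div_pos (hy i) hU hUe.ne']
      have hr : deriv (fun t => y t i) e / U e - y e i / U e * (deriv U e / U e) =
          y e i / U e * ((deriv Y e / Y e - γ) - (deriv U e / U e - γ)) := by
        rw [hY', hYdef]
        have := hUe.ne'
        have : σ ≠ 0 := fun h => by simp [h] at hσ1
        field_simp
        ring
      rw [hr, abs_mul, mul_comm η]
      refine mul_le_mul_of_nonneg_left ((abs_sub _ _).trans ?_) (abs_nonneg _)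
      linarith
    · obtain ⟨κ', hκ', hf⟩ := hseg i
      obtain ⟨h1, h2⟩ := hf (fun t => y t i) (hC2 i) (hode i)
      have hy0 : y e i = 0 := by
        rw [h1, hfun, (hend i).1, if_neg hib]
        ring
      refine ⟨by rw [hy0, if_neg hib, zero_div, mul_zero], ?_⟩
      rw [deriv_div_pos (hy i) hU hUe.ne', hy0, zero_div, zero_mul, sub_zero, abs_div, abs_div,
        abs_of_pos hUe, ← mul_div_assoc]
      refine div_le_div_of_nonneg_right ?_ hUe.le
      rw [habsb]
      have hzi : |z i| ≤ θmax * (|A| * δ) := by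
        have h : z i + θ i * z1 i = 0 := by rw [(hend i).1, if_neg hib, mul_zero]
        rw [show z i = -(θ i * z1 i) by linarith, abs_neg, abs_mul, abs_of_nonneg (hθ0 i).1]
        exact mul_le_mul (hθ0 i).2 (hend i).2 (abs_nonneg _) hθmax
      have hyi : |deriv (fun t => y t i) a| ≤ U a * |A| * δ * (Γ * θmax + 1) := by
        rw [hy'a]
        refine (abs_add_le _ _).trans ?_
        rw [abs_mul, abs_mul, abs_of_nonneg hU'a, abs_of_pos hUa]
        have h1 := mul_le_mul (hU'hi.trans (mul_le_mul_of_nonneg_right (show γ + η' ≤ Γ by linarith) hUa.le)) hzi (abs_nonneg _)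
          (mul_nonneg (by linarith) hUa.le)
        have h2 := mul_le_mul_of_nonneg_left (hend i).2 hUa.le
        linarith
      exact off_arith (h2 hy0) hyi (exp_pos _).le hR0 hUa.le hA0.le hδ0.le
        (add_nonneg (mul_nonneg (show (0 : ℝ) ≤ Γ by linarith) hθmax) zero_le_one) hη1 hYmono
  · rw [abs_div, abs_of_pos hUe, div_mul_cancel₀ _ hUe.ne', habsb]
    refine hYgrow.trans (mul_le_mul_of_nonneg_right ?_ (exp_pos _).le)
    rw [hYa]
    calc U a * (σ * z b) ≤ U a * (2 * R * |A|) := mul_le_mul_of_nonneg_left hzup hUa.le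
      _ = _ := by ring

end Vale.Agent.P225.Full.Asm
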