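import Vale.Agent.P225.Full.AsmFamily
import Vale.Agent.P225.Full.AsmTail

/-! # One round: exact switch, dwell, relaxation -/

namespace Vale.Agent.P225.Full.Asm

open Real Filter Topology Matrix Schedule

variable {t0 : ℝ} {L : ℕ} {E : ∀ l, Spec.EigenShell Spec.mC l} {U : ℕ → ℝ → ℝ} {C : Clock}
  {Ji : Fin C.N → Jmat}

/-- The exponent used for a charge during the dwell. -/
noncomputable def dwellExp (ν : ℝ) (l P : ℕ) : ℝ := Spec.expo (Spec.level l P) + ν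

/-- What is fixed before the amplitudes are chosen. -/
structure Good (t0 : ℝ) (L : ℕ) (E : ∀ l, Spec.EigenShell Spec.mC l) (U : ℕ → ℝ → ℝ) (C : Clock)
    (Ji : Fin C.N → Jmat) (Sel : ∀ l, Finset (Fin (E l).D)) (prm : ∀ l, Equiv.Perm (Fin (E l).D))
    (T : ∀ l, Matrix (Fin (E l).D) (Fin (E l).D) ℝ) (ν Γ cm η η' δ R : ℝ) : Prop where
  ht0 : 0 < t0
  hJi : ∀ i, IsCS (Ji i)
  hU : ∀ l, IsRoundSol t0 l (U l)
  hSel : ∀ l, ∀ c ∈ Sel l, 2 ≤ l ∧ l ≤ L
  hprm : ∀ l, ∀ c ∈ Sel l, prm l c ∈ Sel l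
  hT : ∀ l, ∀ c ∈ Sel l, (∀ a, a ≠ prm l c → T l a c = 0) ∧ |T l (prm l c) c| = 1
  hν : 0 < ν
  hcm : 31 ≤ cm
  hη : 0 < η
  hη'0 : 0 ≤ η'
  hη'1 : η' ≤ 1 / 2
  hR : 1 ≤ R
  hδ : 0 < δ
  hδR : δ * (4 * R) ≤ 1
  hδγ : ∀ l, 2 ≤ l → l ≤ L → δ * (2 * R) ≤ gammaR l - η'
  hΓ0 : 0 ≤ Γ
  hΓg : ∀ l ≤ L, gammaR l + 1 ≤ Γ
  hΓd : ∀ l ≤ L, ∀ P ≤ l, dwellExp ν l P ≤ Γ
  hΓl : ∀ l ≤ L, exp 3 * lamR l ≤ Γ * (Γ + cm)
  late : ∀ t, C.T0 ≤ t → cm ≤ drift0 t0 t ∧ |drift0 t0 t - 32| ≤ η' ∧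
    ∀ l ≤ L, |deriv (U l) t / U l t - gammaR l| ≤ η' ∧
      |exp (-2 * Prof.psi pinfC t0 t) * lamR l - gammaR l * (gammaR l + 32)| ≤ η' ∧
      ∀ P ≤ l, muB (Prof.psi pinfC t0 t) tauC l P ≤ dwellExp ν l P * (dwellExp ν l P + cm)
  small1 : ∀ j, 2 * R * δ * (Γ * (1 / 31) + 1) * exp (-cm * (C.T (j + 1) - C.pulseEnd j)) ≤ η
  small2 : ∀ j, ∀ l ≤ L,
    2 * Γ * exp (-(32 - η') * C.L j) + (1 + gammaR l) * η' / (32 - η') + η' ≤ η
  pulse : ∀ (j : ℕ) (V0 θ : ∀ l : Fin (L + 1), Matrix (Fin (E l).D) (Fin (E l).D) ℝ),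
    (∀ l i b, |V0 l i b| ≤ η) → (∀ l i b, 0 ≤ θ l i b ∧ θ l i b ≤ 1 / 31 ∧ θ l i b = θ l i i) →
    ∃ a : Fin C.N → ℝ, (∀ i, |a i| ≤ R) ∧ ∀ α : ℕ → Fin C.N → ℝ, α j = a →
      ∀ l : Fin (L + 1), 2 ≤ (l : ℕ) → ∀ (y : ℝ → Fin (E l).D → ℝ),
        IsShellSol (schedProfile C t0 α Ji) (E l) y → ∀ (b : Fin (E l).D) (A : ℝ),
          (∀ i, y (C.T j) i / U l (C.T j) = A * (if i = b then 1 else 0) ∧
            deriv (fun t => y t i / U l t) (C.T j) = A * V0 l i b) →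
          ∃ κ : ℝ, R⁻¹ ≤ κ ∧ κ ≤ R ∧ ∀ i,
            y (C.pulseEnd j) i / U l (C.pulseEnd j)
                + θ l i i * deriv (fun t => y t i / U l t) (C.pulseEnd j) = A * κ * T l i b ∧
            |deriv (fun t => y t i / U l t) (C.pulseEnd j)| ≤ |A| * δ

variable {Sel : ∀ l, Finset (Fin (E l).D)} {prm : ∀ l, Equiv.Perm (Fin (E l).D)}
  {T : ∀ l, Matrix (Fin (E l).D) (Fin (E l).D) ℝ} {ν Γ cm η η' δ R : ℝ}

/-- The state of all columns at the start of round `j`. -/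
def Inv (t0 : ℝ) (E : ∀ l, Spec.EigenShell Spec.mC l) (U : ℕ → ℝ → ℝ) (C : Clock)
    (Ji : Fin C.N → Jmat) (Sel : ∀ l, Finset (Fin (E l).D)) (prm : ∀ l, Equiv.Perm (Fin (E l).D))
    (η : ℝ) (α : ℕ → Fin C.N → ℝ) (j : ℕ) : Prop :=
  ∀ l, ∀ c ∈ Sel l, ∀ y, IsCore C t0 α Ji (U l) c y →
    ∃ A : ℝ, A ≠ 0 ∧ ∀ i, y (C.T j) i / U l (C.T j) = A * (if i = (prm l ^ j) c then 1 else 0) ∧
      |deriv (fun t => y t i / U l t) (C.T j)| ≤ η * |A|

lemma perm_pow_mem {D : ℕ} {p : Equiv.Perm (Fin D)} {s : Finset (Fin D)} (h : ∀ c ∈ s, p c ∈ s)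
    {c : Fin D} (hc : c ∈ s) : ∀ j : ℕ, (p ^ j) c ∈ s
  | 0 => hc
  | j + 1 => by rw [pow_succ', Equiv.Perm.mul_apply]; exact h _ (perm_pow_mem h hc j)

lemma perm_pow_symm_mem {D : ℕ} {p : Equiv.Perm (Fin D)} {s : Finset (Fin D)} (h : ∀ c ∈ s, p c ∈ s)
    {b : Fin D} (hb : b ∈ s) (j : ℕ) : (p ^ j).symm b ∈ s := by
  have himg : s.image (p ^ j) = s :=
    Finset.eq_of_subset_of_card_le
      (fun x hx => by
        obtain ⟨c, hc, rfl⟩ := Finset.mem_image.1 hx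
        exact perm_pow_mem h hc j)
      (Finset.card_image_of_injective s (p ^ j).injective).ge
  rw [← himg] at hb
  obtain ⟨c, hc, rfl⟩ := Finset.mem_image.1 hb
  rwa [Equiv.symm_apply_apply]

lemma pulseEnd_lt (C : Clock) (j : ℕ) : C.pulseEnd j < C.T (j + 1) := by
  have h1 := C.L_pos j
  have h2 := C.M4_pos j
  rw [C.T_succ, Clock.pulseEnd]
  linarith

/-- The functionals of the segments after the pulses. -/
lemma exists_theta (G : Good t0 L E U C Ji Sel prm T ν Γ cm η η' δ R) (j l : ℕ) (i : Fin (E l).D) :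
    ∃ θ : ℝ, 0 ≤ θ ∧ θ ≤ 1 / 31 ∧ ∃ κ : ℝ, 1 ≤ κ ∧ ∀ f : ℝ → ℝ, ContDiff ℝ 2 f →
      (∀ t ∈ Set.Icc (C.pulseEnd j) (C.T (j + 1)), deriv (deriv f) t + drift0 t0 t * deriv f t =
        muB (Prof.psi pinfC t0 t) (C.bergerTau tauC j t) l ((E l).charge i) * f t) →
      f (C.T (j + 1)) = κ * (f (C.pulseEnd j) + θ * deriv f (C.pulseEnd j)) ∧
      (f (C.T (j + 1)) = 0 → |deriv f (C.T (j + 1))| ≤
        exp (-cm * (C.T (j + 1) - C.pulseEnd j)) * |deriv f (C.pulseEnd j)|) := by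
  have hcont : Continuous fun t => muB (Prof.psi pinfC t0 t) (C.bergerTau tauC j t) l ((E l).charge i) := by
    have h1 := (Prof.contDiff_psi (p := pinfC) (n := ⊤) G.ht0).continuous
    have h2 := (C.contDiff_bergerTau tauC j).continuous
    unfold muB
    fun_prop
  obtain ⟨θ, κ, h0, h1, h2, h3⟩ := scalarSegment (C.pulseEnd j) (C.T (j + 1)) cm (drift0 t0)
    (fun t => muB (Prof.psi pinfC t0 t) (C.bergerTau tauC j t) l ((E l).charge i)) (pulseEnd_lt C j)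
    (by linarith [G.hcm]) (contDiff_drift0 G.ht0).continuous hcont
    fun t ht => ⟨(G.late t ((C.T0_le j).trans ((C.T_le_pulseEnd j).trans ht.1))).1,
      muB_nonneg (C.bergerTau_mem tauC_nonneg j t).1 ((E l).le_deg i)⟩
  exact ⟨θ, h0, h1.trans (one_div_le_one_div_of_le (by norm_num) G.hcm), κ, h2, h3⟩

/-- One round. -/
theorem step (hTail : TailMain) (hLin : Spec.LinODE)
    (G : Good t0 L E U C Ji Sel prm T ν Γ cm η η' δ R) (α₀ : ℕ → Fin C.N → ℝ) (j : ℕ)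
    (hinv : Inv t0 E U C Ji Sel prm η α₀ j) :
    ∃ a : Fin C.N → ℝ, (∀ i, |a i| ≤ R) ∧ ∀ α : ℕ → Fin C.N → ℝ, (∀ i < j, α i = α₀ i) → α j = a →
      Inv t0 E U C Ji Sel prm η α (j + 1) ∧
      ∀ l, ∀ c ∈ Sel l, ∀ y, IsCore C t0 α Ji (U l) c y →
        |y (C.T (j + 1)) ((prm l ^ (j + 1)) c)| ≤ |y (C.T j) ((prm l ^ j) c)| * (2 * R) *
          exp (dwellExp ν l ((E l).charge ((prm l ^ (j + 1)) c)) * C.M j ^ 4 +
            Γ * ((C.N + 4) * C.L j) + 3 * Γ / cm) := by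
  classical
  choose y₀ hy₀ using fun (l : ℕ) (c : Fin (E l).D) =>
    exists_isCore hLin G.ht0 G.hJi (G.hU l) α₀ c (E := E l)
  choose θs hθ0 hθ1 hseg using exists_theta G j
  set P₁ := C.pulseEnd j with hP₁
  set e := C.T (j + 1) with he
  set θ : ∀ l : Fin (L + 1), Matrix (Fin (E l).D) (Fin (E l).D) ℝ := fun l i _ =>
    θs l i * U l P₁ / (U l P₁ + θs l i * deriv (U l) P₁) with hθdef
  set V0 : ∀ l : Fin (L + 1), Matrix (Fin (E l).D) (Fin (E l).D) ℝ := fun l i b =>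
    if b ∈ Sel l then deriv (fun t => y₀ l ((prm l ^ j).symm b) t i / U l t) (C.T j) /
      (y₀ l ((prm l ^ j).symm b) (C.T j) b / U l (C.T j)) else 0 with hV0def
  have hV0 : ∀ l i b, |V0 l i b| ≤ η := by
    intro l i b
    rw [hV0def]
    simp only
    split_ifs with hb
    · have hc := perm_pow_symm_mem (G.hprm l) hb j
      obtain ⟨A, hA, h⟩ := hinv l _ hc _ (hy₀ l _)
      rw [Equiv.apply_symm_apply] at h
      rw [(h b).1, if_pos rfl, mul_one, abs_div, div_le_iff₀ (abs_pos.2 hA)]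
      exact (h i).2
    · rw [abs_zero]; exact G.hη.le
  have hθb : ∀ l i b, 0 ≤ θ l i b ∧ θ l i b ≤ 1 / 31 ∧ θ l i b = θ l i i := by
    intro l i b
    obtain ⟨hU1, hU2⟩ := (G.hU l).2.1 P₁
    have h1 := mul_nonneg (hθ0 l i) hU2
    refine ⟨div_nonneg (mul_nonneg (hθ0 l i) hU1.le) (by linarith), le_trans ?_ (hθ1 l i), rfl⟩
    rw [div_le_iff₀ (by linarith)]
    exact mul_le_mul_of_nonneg_left (by linarith) (hθ0 l i)
  obtain ⟨a, haR, hpulse⟩ := G.pulse j V0 θ hV0 hθb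
  refine ⟨a, haR, fun α hag haj => ?_⟩
  have key : ∀ l, ∀ c ∈ Sel l, ∀ y, IsCore C t0 α Ji (U l) c y →
      ∃ A' : ℝ, A' ≠ 0 ∧
        (∀ i, y e i / U l e = A' * (if i = (prm l ^ (j + 1)) c then 1 else 0) ∧
          |deriv (fun t => y t i / U l t) e| ≤ η * |A'|) ∧
        |y e ((prm l ^ (j + 1)) c)| ≤ |y (C.T j) ((prm l ^ j) c)| * (2 * R) *
          exp (dwellExp ν l ((E l).charge ((prm l ^ (j + 1)) c)) * C.M j ^ 4 +
            Γ * ((C.N + 4) * C.L j) + 3 * Γ / cm) := by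
    intro l c hc y hy
    obtain ⟨hl2, hlL⟩ := G.hSel l c hc
    set l' : Fin (L + 1) := ⟨l, Nat.lt_succ_of_le hlL⟩
    set b := (prm l ^ j) c with hb
    have hbmem : b ∈ Sel l := perm_pow_mem (G.hprm l) hc j
    set b' := (prm l ^ (j + 1)) c with hb'
    have hb'eq : b' = prm l b := by rw [hb', pow_succ', Equiv.Perm.mul_apply]
    have hcg := (hy₀ l c).congr hLin G.ht0 G.hJi hy (j := j) (fun i hi => (hag i hi).symm)
    obtain ⟨A, hA, hA'⟩ := hinv l c hc _ (hy₀ l c)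
    have hUd : ∀ i (w : ℝ → Fin (E l).D → ℝ) {β : ℕ → Fin C.N → ℝ}, IsCore C t0 β Ji (U l) c w →
        deriv (fun t => w t i / U l t) (C.T j) =
          deriv (fun t => w t i) (C.T j) / U l (C.T j) -
            w (C.T j) i / U l (C.T j) * (deriv (U l) (C.T j) / U l (C.T j)) := fun i w β hw =>
      deriv_div_pos (hw.1.1 i) (G.hU l).1 ((G.hU l).2.1 _).1.ne'
    have hdata : ∀ i, y (C.T j) i / U l (C.T j) = A * (if i = b then 1 else 0) ∧
        deriv (fun t => y t i / U l t) (C.T j) = A * V0 l' i b := by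
      intro i
      have e1 : deriv (fun t => y t i / U l t) (C.T j) = deriv (fun t => y₀ l c t i / U l t) (C.T j) := by
        rw [hUd i y hy, hUd i _ (hy₀ l c), (hcg i).1, (hcg i).2]
      refine ⟨by rw [← (hcg i).1]; exact (hA' i).1, ?_⟩
      have e2 : V0 l' i b = deriv (fun t => y₀ l c t i / U l t) (C.T j) / A := by
        rw [hV0def]
        simp only [l']
        rw [if_pos hbmem, hb, Equiv.symm_apply_apply, (hA' _).1, if_pos rfl, mul_one]
      rw [e1, e2, mul_div_cancel₀ _ hA]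
    obtain ⟨κ, hκ1, hκ2, hend⟩ := hpulse α haj l' hl2 y hy.1 b A hdata
    obtain ⟨hT0', hTb⟩ := G.hT l b hbmem
    have hP₁T : C.T0 ≤ P₁ := (C.T0_le j).trans (C.T_le_pulseEnd j)
    have hlate : ∀ t ∈ Set.Icc P₁ e, C.T0 ≤ t := fun t ht => hP₁T.trans ht.1
    have hL := C.L_pos j
    have hM := C.M4_pos j
    have hPe : P₁ ≤ C.dwellStart j := by rw [hP₁, Clock.pulseEnd, Clock.dwellStart]; linarith
    have hde : C.dwellStart j ≤ C.dwellEnd j := by rw [Clock.dwellEnd]; linarith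
    have hdg : C.dwellEnd j ≤ e - C.L j := by rw [he, C.T_succ_eq]; linarith
    have hτ1 : ∀ t, C.bergerTau tauC j t ≤ 1 := fun t => (C.bergerTau_mem tauC_nonneg j t).2.trans (by
      rw [tauC]
      have := log_le_sub_one_of_pos (show (0 : ℝ) < Spec.tB by norm_num [Spec.tB])
      norm_num [Spec.tB] at this ⊢
      linarith)
    have hcont : ∀ i, Continuous fun t =>
        muB (Prof.psi pinfC t0 t) (C.bergerTau tauC j t) l ((E l).charge i) := fun i => by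
      have h1 := (Prof.contDiff_psi (p := pinfC) (n := ⊤) G.ht0).continuous
      have h2 := (C.contDiff_bergerTau tauC j).continuous
      unfold muB
      fun_prop
    obtain ⟨A', hA0, hnew, hgrow⟩ := tail_step hTail (γd := dwellExp ν l ((E l).charge b')) (Γ := Γ)
      (γ := gammaR l) (η' := η') (δ := δ) (R := R) (θmax := 1 / 31) (η := η) (cm := cm)
      (d0 := C.dwellStart j) (d1 := C.dwellEnd j) (g := e - C.L j)
      hPe hde hdg (by linarith) (pulseEnd_lt C j) (by linarith [G.hcm])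
      (add_nonneg (expo_spec (level_nonneg ((E l).le_deg _))).1 G.hν.le)
      (G.hΓd l hlL _ ((E l).le_deg _)) (gammaR_spec l).1 (G.hΓg l hlL) G.hη'0 G.hη'1 G.hR G.hδ G.hδR
      (by linarith [G.hδR, mul_nonneg G.hδ.le (zero_le_one.trans G.hR)]) (G.hδγ l hl2 hlL) (G.small1 j)
      (by rw [sub_sub_cancel]; exact G.small2 j l hlL) (c := drift0 t0) (U := U l)
      (μ := fun i t => muB (Prof.psi pinfC t0 t) (C.bergerTau tauC j t) l ((E l).charge i)) (y := y)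
      (G.hU l).1 (fun t _ => (G.hU l).2.1 t) (fun t ht => ((G.late t (hlate t ht)).2.2 l hlL).1)
      hy.1.1 (contDiff_drift0 G.ht0).continuous hcont
      (fun i t ht => by
        have h := hy.1.2 i t
        rw [sched_drift C G.ht0 α Ji, sched_rest ht] at h
        rw [h, Finset.sum_eq_single i (fun k _ hk => by simp [Matrix.diagonal_apply_ne _ (Ne.symm hk)])
          (by simp), Matrix.diagonal_apply_eq])
      (fun i t ht => ⟨(G.late t (hlate t ht)).1,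
        muB_nonneg (C.bergerTau_mem tauC_nonneg j t).1 ((E l).le_deg i),
        (muB_le (neg_one_le_psi G.ht0 t) (C.bergerTau_mem tauC_nonneg j t).1 (hτ1 t)).trans (G.hΓl l hlL)⟩)
      (θs := θs l) (θ := fun i => θ l' i i) (fun i => ⟨hθ0 l i, hθ1 l i⟩) (hseg l) (fun i => rfl)
      b'
      (fun t ht => by
        rw [C.bergerTau_dwell tauC ht]
        exact ((G.late t (hlate t ⟨hPe.trans ht.1, ht.2.trans (hdg.trans (by linarith))⟩)).2.2 l hlL).2.2
          _ ((E l).le_deg _))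
      (fun t ht => by
        have ht' : C.T0 ≤ t := hlate t ⟨(hPe.trans (hde.trans hdg)).trans ht.1, ht.2⟩
        refine ⟨(G.late t ht').2.1, ?_⟩
        rw [C.bergerTau_right ht.1, muB_zero]
        exact ((G.late t ht').2.2 l hlL).2.1)
      hA hκ1 hκ2 (s := T l b' b) (by rw [hb'eq]; exact hTb)
      (fun i => ⟨by
        rw [(hend i).1]
        rcases eq_or_ne i b' with rfl | hib
        · rw [if_pos rfl]
        · rw [if_neg hib]
          have h0 : T l i b = 0 := hT0' i (hb'eq ▸ hib)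
          exact congrArg (A * κ * ·) h0, (hend i).2⟩)
    refine ⟨A', hA0, hnew, ?_⟩
    have hUe := ((G.hU l).2.1 e).1
    have hUT := ((G.hU l).2.1 (C.T j)).1
    have hye : |y e b'| = |A'| * U l e := by
      have h := (hnew b').1
      rw [if_pos rfl, mul_one, div_eq_iff hUe.ne'] at h
      rw [h, abs_mul, abs_of_pos hUe]
    have hyT : |y (C.T j) b| = |A| * U l (C.T j) := by
      have h := (hdata b).1
      rw [if_pos rfl, mul_one, div_eq_iff hUT.ne'] at h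
      rw [h, abs_mul, abs_of_pos hUT]
    have hUg : U l P₁ ≤ U l (C.T j) * exp (Γ * (P₁ - C.T j)) := by
      refine roundSol_growth G.ht0 (G.hU l) (C.T_le_pulseEnd j) (by linarith [G.hcm] : (0 : ℝ) < cm)
        G.hΓ0 (fun t ht => (G.late t ((C.T0_le j).trans ht.1)).1) (fun t _ => ?_) ?_
      · refine le_trans (mul_le_mul_of_nonneg_right (exp_le_exp.2 ?_) (lamR_nonneg l)) (G.hΓl l hlL)
        linarith [neg_one_le_psi G.ht0 t]
      · have h := (abs_le.1 ((G.late _ (C.T0_le j)).2.2 l hlL).1).2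
        linarith [G.hΓg l hlL, G.hη'1]
    rw [hye, hyT]
    refine hgrow.trans ?_
    have hR0 : (0 : ℝ) ≤ 2 * R := by linarith [G.hR]
    calc |A| * U l P₁ * (2 * R) * exp (dwellExp ν l ((E l).charge b') * (C.dwellEnd j - C.dwellStart j) +
          Γ * ((C.dwellStart j - P₁) + (e - C.dwellEnd j)) + 3 * Γ / cm)
        ≤ |A| * (U l (C.T j) * exp (Γ * (P₁ - C.T j))) * (2 * R) *
          exp (dwellExp ν l ((E l).charge b') * (C.dwellEnd j - C.dwellStart j) +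
            Γ * ((C.dwellStart j - P₁) + (e - C.dwellEnd j)) + 3 * Γ / cm) :=
          mul_le_mul_of_nonneg_right (mul_le_mul_of_nonneg_right
            (mul_le_mul_of_nonneg_left hUg (abs_nonneg _)) hR0) (exp_pos _).le
      _ = |A| * U l (C.T j) * (2 * R) * (exp (Γ * (P₁ - C.T j)) *
          exp (dwellExp ν l ((E l).charge b') * (C.dwellEnd j - C.dwellStart j) +
            Γ * ((C.dwellStart j - P₁) + (e - C.dwellEnd j)) + 3 * Γ / cm)) := by ring
      _ = _ := by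
          rw [← exp_add]
          congr 2
          rw [he, C.T_succ_eq, hP₁, Clock.dwellEnd, Clock.dwellStart, Clock.pulseEnd]
          ring
  refine ⟨fun l c hc y hy => ?_, fun l c hc y hy => ?_⟩
  · obtain ⟨A', h1, h2, -⟩ := key l c hc y hy
    exact ⟨A', h1, h2⟩
  · obtain ⟨A', -, -, h3⟩ := key l c hc y hy
    exact h3

end Vale.Agent.P225.Full.Asm
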