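import Vale.Agent.P225.Full.Spec

/-! # The model metric: smoothness, positivity, inverse, the flat core -/

namespace Vale.Agent.P225.Full

open Matrix Filter Topology

variable {n : ℕ}

theorem rad_sq (x : Coord n) : rad x ^ 2 = ∑ i, x i ^ 2 :=
  Real.sq_sqrt (Finset.sum_nonneg fun _ _ => sq_nonneg _)

theorem rad_nonneg (x : Coord n) : 0 ≤ rad x := Real.sqrt_nonneg _

theorem sum_sq_pos {x : Coord n} (hx : x ≠ 0) : 0 < ∑ i, x i ^ 2 := by
  obtain ⟨i, hi⟩ := Function.ne_iff.mp hx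
  have hi' : (0 : ℝ) < x i ^ 2 := by
    have : x i ≠ 0 := hi
    positivity
  exact lt_of_lt_of_le hi'
    (Finset.single_le_sum (f := fun j => x j ^ 2) (fun j _ => sq_nonneg (x j)) (Finset.mem_univ i))

theorem rad_pos {x : Coord n} (hx : x ≠ 0) : 0 < rad x := Real.sqrt_pos.2 (sum_sq_pos hx)

theorem rad_ne_zero {x : Coord n} (hx : x ≠ 0) : rad x ≠ 0 := (rad_pos hx).ne'

theorem rad_zero : rad (0 : Coord n) = 0 := by simp [rad]

theorem exp_logRad {x : Coord n} (hx : x ≠ 0) : Real.exp (logRad x) = rad x :=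
  Real.exp_log (rad_pos hx)

theorem logRad_nonpos {x : Coord n} (h : rad x ≤ 1) : logRad x ≤ 0 :=
  Real.log_nonpos (rad_nonneg x) h

theorem continuous_rad : Continuous (rad : Coord n → ℝ) := by
  unfold rad; fun_prop

theorem eventually_rad_lt_one {x : Coord n} (hx : rad x < 1) : ∀ᶠ y in 𝓝 x, rad y < 1 :=
  (isOpen_lt continuous_rad continuous_const).mem_nhds hx

theorem contDiffAt_rad {x : Coord n} (hx : x ≠ 0) {k : WithTop ℕ∞} : ContDiffAt ℝ k rad x := by
  unfold rad
  exact ((ContDiff.sum fun i _ => (contDiff_apply ℝ ℝ i).pow 2).contDiffAt).sqrt (sum_sq_pos hx).ne'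

theorem contDiffAt_logRad {x : Coord n} (hx : x ≠ 0) {k : WithTop ℕ∞} :
    ContDiffAt ℝ k logRad x :=
  (contDiffAt_rad hx).log (rad_ne_zero hx)

theorem hasFDerivAt_logRad {x : Coord n} (hx : x ≠ 0) :
    HasFDerivAt logRad ((rad x ^ 2)⁻¹ • ∑ i, x i • (ContinuousLinearMap.proj i : Coord n →L[ℝ] ℝ)) x
    := by
  have hs := (sum_sq_pos hx).ne'
  have h1 : HasFDerivAt (fun y : Coord n => ∑ i, y i ^ 2)
      (∑ i, (2 * x i) • (ContinuousLinearMap.proj i : Coord n →L[ℝ] ℝ)) x := by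
    refine HasFDerivAt.fun_sum fun i _ => ?_
    have h : HasFDerivAt (fun y : Coord n => y i)
        (ContinuousLinearMap.proj i : Coord n →L[ℝ] ℝ) x := hasFDerivAt_apply i x
    simpa using h.pow 2
  have h2 := (h1.sqrt hs).log (Real.sqrt_pos.2 (sum_sq_pos hx)).ne'
  refine h2.congr_fderiv ?_
  ext v
  simp only [_root_.smul_apply, _root_.sum_apply, smul_eq_mul,
    Finset.mul_sum]
  refine Finset.sum_congr rfl fun i _ => ?_
  rw [rad_sq]
  have h3 := Real.sq_sqrt (sum_sq_pos hx).le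
  have h4 := (Real.sqrt_pos.2 (sum_sq_pos hx)).ne'
  field_simp
  rw [h3]
  ring

theorem pd_logRad {x : Coord n} (hx : x ≠ 0) (i : Fin n) : pd i logRad x = x i / rad x ^ 2 := by
  simp only [pd, (hasFDerivAt_logRad hx).fderiv, _root_.smul_apply,
    _root_.sum_apply, smul_eq_mul, ContinuousLinearMap.proj_apply, Pi.single_apply]
  simp [div_eq_inv_mul]

theorem pd_congr {f g : Coord n → ℝ} {x : Coord n} (h : f =ᶠ[𝓝 x] g) (i : Fin n) :
    pd i f x = pd i g x := by
  simp only [pd, h.fderiv_eq]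

theorem IsCS.dot_self {J : Matrix (Fin n) (Fin n) ℝ} (hJ : IsCS J) (x : Coord n) :
    x ⬝ᵥ (J *ᵥ x) = 0 := by
  have h : x ⬝ᵥ (J *ᵥ x) = -(x ⬝ᵥ (J *ᵥ x)) := by
    conv_lhs => rw [Matrix.dotProduct_mulVec, ← Matrix.mulVec_transpose, hJ.1, Matrix.neg_mulVec,
      neg_dotProduct, dotProduct_comm]
  linarith

theorem IsCS.dot_mulVec {J : Matrix (Fin n) (Fin n) ℝ} (hJ : IsCS J) (x : Coord n) :
    (J *ᵥ x) ⬝ᵥ (J *ᵥ x) = x ⬝ᵥ x := by
  rw [Matrix.dotProduct_mulVec, ← Matrix.mulVec_transpose, Matrix.mulVec_mulVec, hJ.1,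
    Matrix.neg_mul, hJ.2, neg_neg, Matrix.one_mulVec]

theorem dot_self_eq_rad_sq (x : Coord n) : x ⬝ᵥ x = rad x ^ 2 := by
  rw [rad_sq]
  simp [dotProduct, sq]

/-- Berger form with horizontal coefficient `a` and fibre coefficient `b`. -/
noncomputable def bergerMat (J : Matrix (Fin n) (Fin n) ℝ) (x : Coord n) (a b : ℝ) :
    Matrix (Fin n) (Fin n) ℝ := fun i j =>
  x i * x j / rad x ^ 2
    + a * ((if i = j then 1 else 0) - x i * x j / rad x ^ 2)
    + (b - a) * ((J *ᵥ x) i * (J *ᵥ x) j) / rad x ^ 2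

theorem bergerMat_eq (J : Matrix (Fin n) (Fin n) ℝ) (x : Coord n) (a b : ℝ) :
    bergerMat J x a b = (rad x ^ 2)⁻¹ • vecMulVec x x
      + a • (1 - (rad x ^ 2)⁻¹ • vecMulVec x x)
      + (b - a) • ((rad x ^ 2)⁻¹ • vecMulVec (J *ᵥ x) (J *ᵥ x)) := by
  ext i j
  simp only [bergerMat, Matrix.add_apply, Matrix.smul_apply, Matrix.sub_apply, Matrix.one_apply,
    Matrix.vecMulVec_apply, smul_eq_mul]
  ring

theorem bergerMat_symm (J : Matrix (Fin n) (Fin n) ℝ) (x : Coord n) (a b : ℝ) :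
    (bergerMat J x a b)ᵀ = bergerMat J x a b := by
  ext i j
  simp only [Matrix.transpose_apply, bergerMat, eq_comm (a := j) (b := i)]
  ring

theorem bergerMat_one (J : Matrix (Fin n) (Fin n) ℝ) (x : Coord n) : bergerMat J x 1 1 = 1 := by
  ext i j
  simp [bergerMat, Matrix.one_apply]

theorem bergerMat_mul {J : Matrix (Fin n) (Fin n) ℝ} (hJ : IsCS J) {x : Coord n} (hx : x ≠ 0)
    (a b a' b' : ℝ) :
    bergerMat J x a b * bergerMat J x a' b' = bergerMat J x (a * a') (b * b') := by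
  have hr : rad x ^ 2 ≠ 0 := pow_ne_zero 2 (rad_ne_zero hx)
  have h1 : x ⬝ᵥ (J *ᵥ x) = 0 := hJ.dot_self x
  have h2 : (J *ᵥ x) ⬝ᵥ x = 0 := by rw [dotProduct_comm]; exact h1
  set R := (rad x ^ 2)⁻¹ • vecMulVec x x with hR
  set F := (rad x ^ 2)⁻¹ • vecMulVec (J *ᵥ x) (J *ᵥ x) with hF
  have hRR : R * R = R := by
    rw [hR, smul_mul_smul_comm, Matrix.vecMulVec_mul_vecMulVec, dot_self_eq_rad_sq,
      Matrix.vecMulVec_smul, smul_smul, mul_assoc, inv_mul_cancel₀ hr, mul_one]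
  have hFF : F * F = F := by
    rw [hF, smul_mul_smul_comm, Matrix.vecMulVec_mul_vecMulVec, hJ.dot_mulVec, dot_self_eq_rad_sq,
      Matrix.vecMulVec_smul, smul_smul, mul_assoc, inv_mul_cancel₀ hr, mul_one]
  have hRF : R * F = 0 := by
    rw [hR, hF, smul_mul_smul_comm, Matrix.vecMulVec_mul_vecMulVec, h1]; simp
  have hFR : F * R = 0 := by
    rw [hR, hF, smul_mul_smul_comm, Matrix.vecMulVec_mul_vecMulVec, h2]; simp
  rw [bergerMat_eq, bergerMat_eq, bergerMat_eq, ← hR, ← hF]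
  simp only [mul_add, add_mul, smul_mul_assoc, mul_smul_comm, mul_sub, sub_mul, one_mul, mul_one,
    hRR, hFF, hRF, hFR, smul_zero, sub_zero, add_zero, zero_add, sub_self]
  module

theorem bergerMat_inv {J : Matrix (Fin n) (Fin n) ℝ} (hJ : IsCS J) {x : Coord n} (hx : x ≠ 0)
    {a b : ℝ} (ha : a ≠ 0) (hb : b ≠ 0) : (bergerMat J x a b)⁻¹ = bergerMat J x a⁻¹ b⁻¹ := by
  refine Matrix.inv_eq_right_inv ?_
  rw [bergerMat_mul hJ hx, mul_inv_cancel₀ ha, mul_inv_cancel₀ hb, bergerMat_one]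

theorem bergerMat_posDef {J : Matrix (Fin n) (Fin n) ℝ} (hJ : IsCS J) {x : Coord n} (hx : x ≠ 0)
    {a b : ℝ} (ha : 0 < a) (hb : 0 < b) : (bergerMat J x a b).PosDef := by
  set A := bergerMat J x (Real.sqrt a) (Real.sqrt b) with hA
  have hsymm : Aᴴ = A := by
    rw [Matrix.conjTranspose_eq_transpose_of_trivial, hA, bergerMat_symm]
  have hleft : bergerMat J x (Real.sqrt a)⁻¹ (Real.sqrt b)⁻¹ * A = 1 := by
    rw [hA, bergerMat_mul hJ hx, inv_mul_cancel₀ (Real.sqrt_pos.2 ha).ne',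
      inv_mul_cancel₀ (Real.sqrt_pos.2 hb).ne', bergerMat_one]
  have hinj : Function.Injective A.mulVec := fun u v huv => by
    have := congrArg (fun w => bergerMat J x (Real.sqrt a)⁻¹ (Real.sqrt b)⁻¹ *ᵥ w) huv
    simpa [Matrix.mulVec_mulVec, hleft] using this
  have h := Matrix.PosDef.conjTranspose_mul_self A hinj
  rwa [hsymm, hA, bergerMat_mul hJ hx, Real.mul_self_sqrt ha.le, Real.mul_self_sqrt hb.le] at h

theorem metric_apply_of_ne (P : Profile n) {x : Coord n} (hx : x ≠ 0) :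
    P.metric x = bergerMat (P.J (logRad x)) x (Real.exp (2 * P.q (logRad x)))
      (Real.exp (2 * P.p (logRad x))) := by
  ext i j
  simp [Profile.metric, hx, bergerMat]

theorem metric_inv_eq {P : Profile n} (hP : P.Adm) {x : Coord n} (hx : x ≠ 0) :
    (P.metric x)⁻¹ = bergerMat (P.J (logRad x)) x (Real.exp (-2 * P.q (logRad x)))
      (Real.exp (-2 * P.p (logRad x))) := by
  rw [metric_apply_of_ne P hx, bergerMat_inv (hP.cs _) hx (Real.exp_pos _).ne' (Real.exp_pos _).ne',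
    ← Real.exp_neg, ← Real.exp_neg, neg_mul, neg_mul]

theorem metric_inv {P : Profile n} (hP : P.Adm) {x : Coord n} (hx : x ≠ 0) (i j : Fin n) :
    (P.metric x)⁻¹ i j = x i * x j / rad x ^ 2
      + Real.exp (-2 * P.q (logRad x)) * ((if i = j then 1 else 0) - x i * x j / rad x ^ 2)
      + (Real.exp (-2 * P.p (logRad x)) - Real.exp (-2 * P.q (logRad x))) *
          ((P.J (logRad x) *ᵥ x) i * (P.J (logRad x) *ᵥ x) j) / rad x ^ 2 := by
  rw [metric_inv_eq hP hx]; rfl

theorem metric_eq_one {P : Profile n} (hP : P.Adm) {x : Coord n} (h : rad x ≤ 1) :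
    P.metric x = 1 := by
  rcases eq_or_ne x 0 with rfl | hx
  · ext i j
    simp [Profile.metric, Matrix.one_apply]
  · obtain ⟨h1, h2⟩ := hP.flat _ (logRad_nonpos h)
    rw [metric_apply_of_ne P hx, h1, h2, mul_zero, Real.exp_zero, bergerMat_one]

theorem metric_eventually_one {P : Profile n} (hP : P.Adm) {x : Coord n} (h : rad x < 1) :
    ∀ᶠ y in 𝓝 x, P.metric y = 1 :=
  (eventually_rad_lt_one h).mono fun _ hy => metric_eq_one hP hy.le

/-- Near a point, the complex structure may be frozen. -/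
theorem metric_eventuallyEq {P : Profile n} (hP : P.Adm) {x : Coord n} (hx : x ≠ 0) :
    ∀ᶠ y in 𝓝 x, P.metric y = bergerMat (P.J (logRad x)) y (Real.exp (2 * P.q (logRad y)))
      (Real.exp (2 * P.p (logRad y))) := by
  have hne : ∀ᶠ y in 𝓝 x, y ≠ 0 := eventually_ne_nhds hx
  have hc : ContinuousAt logRad x := (contDiffAt_logRad hx (k := 0)).continuousAt
  rcases hP.local_J (logRad x) with h | h
  · filter_upwards [hne, hc.eventually h] with y hy hyJ
    rw [metric_apply_of_ne P hy, hyJ]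
  · filter_upwards [hne, hc.eventually h] with y hy hpq
    rw [metric_apply_of_ne P hy, hpq, bergerMat_eq, bergerMat_eq, sub_self, zero_smul, zero_smul]

/-- The inverse, with the frozen complex structure. -/
theorem metric_inv_eventuallyEq {P : Profile n} (hP : P.Adm) {x : Coord n} (hx : x ≠ 0) :
    ∀ᶠ y in 𝓝 x, (P.metric y)⁻¹ = bergerMat (P.J (logRad x)) y
      (Real.exp (-2 * P.q (logRad y))) (Real.exp (-2 * P.p (logRad y))) := by
  filter_upwards [eventually_ne_nhds hx, metric_eventuallyEq hP hx] with y hy h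
  rw [h, bergerMat_inv (hP.cs _) hy (Real.exp_pos _).ne' (Real.exp_pos _).ne',
    ← Real.exp_neg, ← Real.exp_neg, neg_mul, neg_mul]

theorem contDiffAt_bergerMat (J : Matrix (Fin n) (Fin n) ℝ) {x : Coord n} (hx : x ≠ 0)
    {k : WithTop ℕ∞} {a b : Coord n → ℝ} (ha : ContDiffAt ℝ k a x) (hb : ContDiffAt ℝ k b x)
    (i j : Fin n) : ContDiffAt ℝ k (fun y => bergerMat J y (a y) (b y) i j) x := by
  have happ : ∀ l : Fin n, ContDiffAt ℝ k (fun y : Coord n => y l) x := fun l =>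
    (contDiff_apply ℝ ℝ l).contDiffAt
  have hJ : ∀ l : Fin n, ContDiffAt ℝ k (fun y : Coord n => (J *ᵥ y) l) x := fun l => by
    simp only [Matrix.mulVec, dotProduct]
    exact ContDiffAt.sum fun s _ => contDiffAt_const.mul (happ s)
  have hr : rad x ^ 2 ≠ 0 := pow_ne_zero 2 (rad_ne_zero hx)
  have h2 : ContDiffAt ℝ k (fun y : Coord n => rad y ^ 2) x := (contDiffAt_rad hx).pow 2
  have hxx := ((happ i).mul (happ j)).div h2 hr
  exact (hxx.add (ha.mul (contDiffAt_const.sub hxx))).add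
    (((hb.sub ha).mul ((hJ i).mul (hJ j))).div h2 hr)

theorem metric_smooth {P : Profile n} (hP : P.Adm) (i j : Fin n) :
    ContDiff ℝ (⊤ : ℕ∞) fun x => P.metric x i j := by
  rw [contDiff_iff_contDiffAt]
  intro x
  rcases eq_or_ne x 0 with rfl | hx
  · refine (contDiffAt_const (c := (1 : Matrix (Fin n) (Fin n) ℝ) i j)).congr_of_eventuallyEq ?_
    exact (metric_eventually_one hP (by rw [rad_zero]; exact zero_lt_one)).mono
      fun y hy => congrFun (congrFun hy i) j
  · have hl := contDiffAt_logRad hx (k := ((⊤ : ℕ∞) : WithTop ℕ∞))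
    have hq : ContDiffAt ℝ (⊤ : ℕ∞) (fun y => Real.exp (2 * P.q (logRad y))) x :=
      (contDiffAt_const.mul (hP.smooth_q.contDiffAt.comp x hl)).exp
    have hp : ContDiffAt ℝ (⊤ : ℕ∞) (fun y => Real.exp (2 * P.p (logRad y))) x :=
      (contDiffAt_const.mul (hP.smooth_p.contDiffAt.comp x hl)).exp
    refine (contDiffAt_bergerMat (P.J (logRad x)) hx hq hp i j).congr_of_eventuallyEq ?_
    exact (metric_eventuallyEq hP hx).mono fun y hy => congrFun (congrFun hy i) j

theorem metric_posDef {P : Profile n} (hP : P.Adm) (x : Coord n) : (P.metric x).PosDef := by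
  rcases eq_or_ne x 0 with rfl | hx
  · rw [metric_eq_one hP (by rw [rad_zero]; exact zero_le_one)]
    exact Matrix.PosDef.one
  · rw [metric_apply_of_ne P hx]
    exact bergerMat_posDef (hP.cs _) hx (Real.exp_pos _) (Real.exp_pos _)

theorem christoffel_core {P : Profile n} (hP : P.Adm) {x : Coord n} (h : rad x < 1)
    (l i j : Fin n) : christoffel P.metric l i j x = 0 := by
  have h0 : ∀ a b c, pd a (fun y => P.metric y b c) x = 0 := fun a b c => by
    rw [pd_congr (g := fun _ => (1 : Matrix (Fin n) (Fin n) ℝ) b c)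
      ((metric_eventually_one hP h).mono fun y hy => congrFun (congrFun hy b) c)]
    simp [pd]
  simp [christoffel, h0]

theorem ricci_core {P : Profile n} (hP : P.Adm) {x : Coord n} (h : rad x < 1) (i j : Fin n) :
    ricciTensor P.metric i j x = 0 := by
  have h0 : ∀ a l b c, pd a (christoffel P.metric l b c) x = 0 := fun a l b c => by
    rw [pd_congr (g := fun _ => (0 : ℝ))
      ((eventually_rad_lt_one h).mono fun y hy => christoffel_core hP hy l b c)]
    simp [pd]
  simp [ricciTensor, h0, christoffel_core hP h]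

theorem ricci_zero {P : Profile n} (hP : P.Adm) (v : Coord n) (i j : Fin n) :
    ricciTensor P.metric i j 0 * v i * v j = 0 := by
  rw [ricci_core hP (by rw [rad_zero]; exact zero_lt_one) i j, zero_mul, zero_mul]

/-- The first three conjuncts of `Spec.Curvature`. -/
theorem curvature_base (m : ℕ) (P : Profile (2 * m + 2)) (hP : P.Adm) :
    (∀ i j, ContDiff ℝ (⊤ : ℕ∞) fun x => P.metric x i j) ∧ (∀ x, (P.metric x).PosDef) ∧
    (∀ v : Coord (2 * m + 2), ∀ i j, ricciTensor P.metric i j 0 * v i * v j = 0) :=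
  ⟨metric_smooth hP, metric_posDef hP, fun v i j => ricci_zero hP v i j⟩

end Vale.Agent.P225.Full
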