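import Vale.Agent.P225.Full.Spec
import Vale.Agent.P225.Full.CompleteCore
import Vale.Agent.P225.Full.CurvBase

/-! # The model metrics are complete -/

namespace Vale.Agent.P225.Full

theorem complete : Spec.Complete := fun _ _ _ hP =>
  Cpl.complete_of_continuous hP fun i j => (metric_smooth hP i j).continuous

end Vale.Agent.P225.Full
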