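import Mathlib

/-! # The rational certificate for the count -/

namespace Vale.Agent.P225.Full

open Finset

/-- `∫_0^a (y (1 - y))^n` as a polynomial in `a`. -/
def powInt (n : ℕ) (a : ℚ) : ℚ :=
  ∑ r ∈ range (n + 1), (n.choose r : ℚ) * (-1) ^ r / ((n : ℚ) + 1 + r) * a ^ (n + 1 + r)

/-- The band thresholds. -/
def cutAt (i : ℕ) : ℚ := ((64 - i : ℕ) : ℚ) / 128

/-- The total mass below a threshold; zero after the last one. -/
def massAt (i : ℕ) : ℚ := if i < 29 then powInt 15 (cutAt i) else 0

/-- The second moment below a threshold. -/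
def momAt (i : ℕ) : ℚ := powInt 15 (cutAt i) - 4 * powInt 16 (cutAt i)

/-- The relative range of degrees allowed for each threshold. -/
def ratioAt (i : ℕ) : ℚ :=
  (((([999133, 999187, 999249, 999318, 999395, 999480, 999574, 999676, 999787, 999907, 1000036,
    1000174, 1000321, 1000479, 1000646, 1000822, 1001009, 1001206, 1001412, 1001629, 1001857,
    1002094, 1002343, 1002601, 1002871, 1003151, 1003441, 1003743, 1004056] : List ℕ).getD i 0) : ℕ) : ℚ) / 1000000

theorem cert_level : ∀ i < 29, 0 < ratioAt i ∧ ratioAt i ≤ 2 ∧ massAt (i + 1) ≤ massAt i ∧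
    ratioAt i ^ 2 * (massAt i - 1 / 21 * momAt i) < 99683 / 100000 * massAt i := by
  decide +kernel

theorem cert_count : ((Nat.factorial 15 : ℕ) : ℚ) ^ 2 * 16 / (Nat.factorial 32 : ℕ)
    < ∑ i ∈ range 29, (massAt i - massAt (i + 1)) * ratioAt i ^ 33 := by
  decide +kernel

end Vale.Agent.P225.Full
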