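import Vale.Agent.P225.Full.CountMult
import Vale.Agent.P225.Full.CountCert

/-! # The count of charges with mean exponent below `k` -/

namespace Vale.Agent.P225.Full.CountProof

open Finset intervalIntegral MeasureTheory Vale.Agent.P225.Full.Spec

theorem integral_pow_eq (n : ℕ) (a : ℚ) :
    ∫ y in (0 : ℝ)..(a : ℝ), (y * (1 - y)) ^ n = ((powInt n a : ℚ) : ℝ) := by
  have h : ∀ y : ℝ, (y * (1 - y)) ^ n =
      ∑ r ∈ range (n + 1), (n.choose r : ℝ) * (-1) ^ r * y ^ (n + r) := by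
    intro y
    rw [mul_pow, show (1 : ℝ) - y = -y + 1 by ring, add_pow, mul_sum]
    refine sum_congr rfl fun r _ => ?_
    rw [one_pow, neg_pow, pow_add]
    ring
  rw [intervalIntegral.integral_congr fun y _ => h y,
    intervalIntegral.integral_finsetSum fun r _ => Continuous.intervalIntegrable (by fun_prop) _ _,
    powInt, Rat.cast_sum]
  refine sum_congr rfl fun r _ => ?_
  rw [intervalIntegral.integral_const_mul, integral_pow]
  push_cast
  rw [zero_pow (by omega)]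
  have : (n : ℝ) + 1 + r ≠ 0 := by positivity
  rw [show n + 1 + r = n + r + 1 by omega, show (n : ℝ) + 1 + r = (n : ℝ) + r + 1 by ring]
  field_simp
  ring

/-- The number of low charges for a threshold. -/
def cutP (l i : ℕ) : ℕ := l * (64 - i) / 128

/-- The selected charges: both ends of the spectrum. -/
def sel (l i : ℕ) : Finset ℕ :=
  range (cutP l i) ∪ (range (cutP l i)).image fun p => l - p

theorem two_cutP_le (l i : ℕ) : 2 * cutP l i ≤ l := by
  unfold cutP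
  have : l * (64 - i) ≤ l * 64 := Nat.mul_le_mul_left l (by omega)
  omega

theorem le_of_mem_sel {l i P : ℕ} (h : P ∈ sel l i) : P ≤ l := by
  have := two_cutP_le l i
  simp only [sel, mem_union, mem_image, mem_range] at h
  rcases h with h | ⟨p, -, rfl⟩ <;> omega

theorem sum_sel (l i : ℕ) (f : ℕ → ℝ) (hf : ∀ p ≤ l, f (l - p) = f p) :
    ∑ P ∈ sel l i, f P = 2 * ∑ p ∈ range (cutP l i), f p := by
  have := two_cutP_le l i
  rw [sel, sum_union, sum_image, two_mul]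
  · congr 1
    exact sum_congr rfl fun p hp => hf p (by rw [mem_range] at hp; omega)
  · intro x hx y hy hxy
    simp only [coe_range, Set.mem_Iio] at hx hy
    simp only at hxy
    omega
  · rw [disjoint_left]
    intro a ha hb
    simp only [mem_range, mem_image] at ha hb
    obtain ⟨p, hp, rfl⟩ := hb
    omega

theorem cutP_bounds (l i : ℕ) :
    (cutP l i : ℝ) ≤ (cutAt i : ℝ) * l ∧ (cutAt i : ℝ) * l ≤ (cutP l i : ℝ) + 1 ∧
      (cutAt i : ℝ) ≤ 1 := by
  have h1 : cutP l i * 128 ≤ l * (64 - i) := Nat.div_mul_le_self _ _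
  have h2 : l * (64 - i) ≤ cutP l i * 128 + 128 := by unfold cutP; omega
  have h1' : (cutP l i : ℝ) * 128 ≤ (l : ℝ) * ((64 - i : ℕ) : ℝ) := by exact_mod_cast h1
  have h2' : (l : ℝ) * ((64 - i : ℕ) : ℝ) ≤ (cutP l i : ℝ) * 128 + 128 := by exact_mod_cast h2
  have h3 : ((64 - i : ℕ) : ℝ) ≤ 64 := by exact_mod_cast (by omega : 64 - i ≤ 64)
  simp only [cutAt, Rat.cast_div, Rat.cast_natCast, Rat.cast_ofNat]
  refine ⟨?_, ?_, ?_⟩ <;> linarith

theorem mass_near {l i : ℕ} (hl : 64 ≤ l) (hi : i < 29) :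
    |normC * (∑ p ∈ range (cutP l i), (mult 16 l p : ℝ)) - (l : ℝ) ^ 32 * (massAt i : ℝ)|
      ≤ 600 * (l : ℝ) ^ 31 := by
  obtain ⟨ha, hb, hc⟩ := cutP_bounds l i
  have h := weighted_sum_near (u := fun _ => (1 : ℝ)) (L := 15) (by norm_num)
    (by unfold dens; fun_prop) (fun x _ => by simp) (fun x hx y hy => by
      simp only [one_mul, dens]
      refine (abs_pow_sub_pow_le_mul (mul_nonneg hx.1 (by linarith [hx.2]))
        (by nlinarith [hx.1, hx.2]) (mul_nonneg hy.1 (by linarith [hy.2]))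
        (by nlinarith [hy.1, hy.2]) 15).trans ?_
      push_cast
      refine mul_le_mul_of_nonneg_left ?_ (by norm_num)
      rw [show x * (1 - x) - y * (1 - y) = (x - y) * (1 - x - y) by ring, abs_mul]
      refine mul_le_of_le_one_right (abs_nonneg _) ?_
      rw [abs_le]; constructor <;> linarith [hx.1, hx.2, hy.1, hy.2])
    hl ha hb hc
  simp only [mul_one, one_mul, dens] at h
  rw [integral_pow_eq] at h
  have hm : massAt i = powInt 15 (cutAt i) := if_pos hi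
  rw [hm]
  refine h.trans ?_
  have : (0 : ℝ) ≤ (l : ℝ) ^ 31 := by positivity
  linarith

theorem mom_near {l i : ℕ} (hl : 64 ≤ l) :
    |normC * (∑ p ∈ range (cutP l i), (mult 16 l p : ℝ) * (1 - 2 * ((p : ℝ) / l)) ^ 2)
      - (l : ℝ) ^ 32 * (momAt i : ℝ)| ≤ 600 * (l : ℝ) ^ 31 := by
  obtain ⟨ha, hb, hc⟩ := cutP_bounds l i
  have e : ∀ y : ℝ, (1 - 2 * y) ^ 2 * dens y = (y * (1 - y)) ^ 15 - 4 * (y * (1 - y)) ^ 16 := by
    intro y; unfold dens; ring
  have h := weighted_sum_near (u := fun y => (1 - 2 * y) ^ 2) (L := 79) (by norm_num)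
    (by unfold dens; fun_prop)
    (fun x hx => by
      rw [abs_of_nonneg (sq_nonneg _)]
      nlinarith [hx.1, hx.2])
    (fun x hx y hy => by
      rw [e, e]
      have hxy : |x * (1 - x) - y * (1 - y)| ≤ |x - y| := by
        rw [show x * (1 - x) - y * (1 - y) = (x - y) * (1 - x - y) by ring, abs_mul]
        refine mul_le_of_le_one_right (abs_nonneg _) ?_
        rw [abs_le]; constructor <;> linarith [hx.1, hx.2, hy.1, hy.2]
      have hb : ∀ n : ℕ, |(x * (1 - x)) ^ n - (y * (1 - y)) ^ n| ≤ n * |x - y| := fun n =>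
        (abs_pow_sub_pow_le_mul (mul_nonneg hx.1 (by linarith [hx.2]))
          (by nlinarith [hx.1, hx.2]) (mul_nonneg hy.1 (by linarith [hy.2]))
          (by nlinarith [hy.1, hy.2]) n).trans
          (mul_le_mul_of_nonneg_left hxy (Nat.cast_nonneg n))
      have h15 := abs_le.1 (hb 15)
      have h16 := abs_le.1 (hb 16)
      push_cast at h15 h16
      rw [abs_le]
      constructor <;> linarith)
    hl ha hb hc
  rw [intervalIntegral.integral_congr fun y _ => e y,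
    intervalIntegral.integral_sub (Continuous.intervalIntegrable (by fun_prop) _ _)
      (Continuous.intervalIntegrable (by fun_prop) _ _),
    intervalIntegral.integral_const_mul, integral_pow_eq, integral_pow_eq] at h
  have hm : (momAt i : ℝ) = ((powInt 15 (cutAt i) : ℚ) : ℝ) - 4 * ((powInt 16 (cutAt i) : ℚ) : ℝ) := by
    unfold momAt; push_cast; ring
  rw [hm]
  refine h.trans ?_
  have : (0 : ℝ) ≤ (l : ℝ) ^ 31 := by positivity
  linarith

theorem expo_sub_le {k : ℕ} {lam : ℝ} (hlam : 0 ≤ lam) :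
    expo lam - k ≤ (lam - (k : ℝ) * ((k : ℝ) + 32)) / (2 * (k : ℝ) + 32) := by
  have hY : (0 : ℝ) < 2 * (k : ℝ) + 32 := by positivity
  have h : Real.sqrt (32 ^ 2 + 4 * lam)
      ≤ (32 ^ 2 + 4 * lam + (2 * (k : ℝ) + 32) ^ 2) / (2 * (2 * (k : ℝ) + 32)) := by
    rw [Real.sqrt_le_iff]
    refine ⟨by positivity, ?_⟩
    rw [div_pow, le_div_iff₀ (by positivity)]
    nlinarith [sq_nonneg (32 ^ 2 + 4 * lam - (2 * (k : ℝ) + 32) ^ 2)]
  have e : (lam - (k : ℝ) * ((k : ℝ) + 32)) / (2 * (k : ℝ) + 32)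
      = ((32 ^ 2 + 4 * lam + (2 * (k : ℝ) + 32) ^ 2) / (2 * (2 * (k : ℝ) + 32)) - 32) / 2 - k := by
    field_simp
    ring
  unfold expo mC
  rw [e]
  norm_num at h ⊢
  linarith

theorem level_nonneg {l P : ℕ} (hP : P ≤ l) : 0 ≤ level l P := by
  have hP' : (P : ℝ) ≤ l := by exact_mod_cast hP
  have h0 : (0 : ℝ) ≤ (P : ℝ) := Nat.cast_nonneg P
  unfold level mC tB sB
  refine div_nonneg ?_ (by norm_num)
  push_cast
  nlinarith [mul_nonneg h0 (sub_nonneg.2 hP')]

theorem level_symm {l P : ℕ} (hP : P ≤ l) : level l (l - P) = level l P := by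
  unfold level
  rw [Nat.cast_sub hP]
  ring

/-- The gap left at a threshold. -/
def gapAt (i : ℕ) : ℚ :=
  99683 / 100000 * massAt i - ratioAt i ^ 2 * (massAt i - 1 / 21 * momAt i)

theorem mass_bounds {i : ℕ} (hi : i < 29) : 0 ≤ massAt i ∧ massAt i ≤ 1 ∧
    0 ≤ massAt i - 1 / 21 * momAt i ∧ momAt i ≤ 1 := by
  revert i
  decide +kernel

theorem neg_arith {c s0 s2 I0 I2 r g T κ Q : ℝ} (hc : 0 < c) (hQ : 0 < Q) (hT : 64 ≤ T)
    (hTk : T ≤ r * κ) (hr0 : 0 < r) (hr2 : r ≤ 2) (hI0 : 0 ≤ I0) (hI1 : I0 ≤ 1)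
    (hIe : 0 ≤ I0 - 1 / 21 * I2) (hg : g = 99683 / 100000 * I0 - r ^ 2 * (I0 - 1 / 21 * I2))
    (hgap : 200000 ≤ g * T) (h0 : |c * s0 - Q * T * I0| ≤ 600 * Q)
    (h2 : |c * s2 - Q * T * I2| ≤ 600 * Q) :
    (T ^ 2 + 32 * T - 99683 / 100000 * (κ * (κ + 32))) * s0 - 1 / 21 * T ^ 2 * s2 < 0 := by
  have hk0 : 0 < κ := by
    by_contra hc0
    push Not at hc0
    linarith [mul_nonpos_iff.2 (Or.inl ⟨hr0.le, hc0⟩)]
  have hk2 : T ≤ 2 * κ := hTk.trans (mul_le_mul_of_nonneg_right hr2 hk0.le)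
  have hk32 : 32 ≤ κ := by linarith
  have hkk : 32 * κ ≤ κ ^ 2 := by
    rw [pow_two]; exact mul_le_mul_of_nonneg_right hk32 hk0.le
  have hT2 : T ^ 2 ≤ 4 * κ ^ 2 := by
    calc T ^ 2 ≤ (2 * κ) ^ 2 := pow_le_pow_left₀ (by linarith) hk2 2
      _ = _ := by ring
  have hT0 : 0 ≤ T ^ 2 := sq_nonneg T
  set A : ℝ := T ^ 2 + 32 * T - 99683 / 100000 * (κ * (κ + 32)) with hA
  have hAabs : |A| ≤ 6 * κ ^ 2 := by rw [abs_le, hA]; constructor <;> linarith
  have e1 : A * (c * s0 - Q * T * I0) ≤ 6 * κ ^ 2 * (600 * Q) := by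
    refine (le_abs_self _).trans ?_
    rw [abs_mul]
    exact mul_le_mul hAabs h0 (abs_nonneg _) (by positivity)
  have e2 : -(1 / 21 * T ^ 2 * (c * s2 - Q * T * I2)) ≤ κ ^ 2 * (600 * Q) := by
    refine (neg_le_abs _).trans ?_
    rw [abs_mul, abs_of_nonneg (show (0 : ℝ) ≤ 1 / 21 * T ^ 2 by positivity)]
    exact mul_le_mul (by linarith) h2 (abs_nonneg _) (by positivity)
  have hl2 : T ^ 2 ≤ r ^ 2 * κ ^ 2 := by
    rw [← mul_pow]; exact pow_le_pow_left₀ (by linarith) hTk 2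
  have m1 := mul_le_mul_of_nonneg_right hl2 hIe
  have m2 := mul_le_mul_of_nonneg_right hk2 hI0
  have m3 := mul_le_mul_of_nonneg_left hI1 hk0.le
  have m4 : 0 ≤ κ * I0 := mul_nonneg hk0.le hI0
  have emain : A * I0 - 1 / 21 * T ^ 2 * I2 ≤ -g * κ ^ 2 + 64 * κ := by
    rw [hg, hA]; linarith
  have m5 := mul_le_mul_of_nonneg_left emain (mul_nonneg hQ.le (by linarith : (0 : ℝ) ≤ T))
  have m6 := mul_le_mul_of_nonneg_left hk2 hk0.le
  have m7 := mul_le_mul_of_nonneg_right hgap (sq_nonneg κ)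
  have m8 : (-g * κ ^ 2 + 64 * κ) * T + 5000 * κ ^ 2 < 0 := by
    linarith [pow_pos hk0 2]
  have m9 := mul_neg_of_pos_of_neg hQ m8
  have m10 : 0 ≤ κ ^ 2 * Q := by positivity
  refine neg_of_mul_neg_right ?_ hc.le
  linarith

theorem main_neg {k l i : ℕ} (hi : i < 29) (hl : 64 ≤ l) (hk : (l : ℝ) ≤ (ratioAt i : ℝ) * k)
    (hgap : 200000 ≤ (gapAt i : ℝ) * l) :
    ∑ P ∈ sel l i, (mult mC l P : ℝ) * expo (level l P)
      < (k : ℝ) * ∑ P ∈ sel l i, (mult mC l P : ℝ) := by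
  obtain ⟨hr0, hr2, -, -⟩ := cert_level i hi
  obtain ⟨hm0, hm1, hme, -⟩ := mass_bounds hi
  have hr0' : (0 : ℝ) < (ratioAt i : ℝ) := by exact_mod_cast hr0
  have hr2' : (ratioAt i : ℝ) ≤ 2 := by exact_mod_cast hr2
  have hm0' : (0 : ℝ) ≤ (massAt i : ℝ) := by exact_mod_cast hm0
  have hm1' : (massAt i : ℝ) ≤ 1 := by exact_mod_cast hm1
  have hme' : (0 : ℝ) ≤ (massAt i : ℝ) - 1 / 21 * (momAt i : ℝ) := by
    have : ((0 : ℚ) : ℝ) ≤ ((massAt i - 1 / 21 * momAt i : ℚ) : ℝ) := Rat.cast_le.2 hme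
    push_cast at this
    exact this
  have hl0 : (0 : ℝ) < l := by exact_mod_cast (by omega : 0 < l)
  have hl64 : (64 : ℝ) ≤ l := by exact_mod_cast hl
  have hk2 : (l : ℝ) ≤ 2 * k := hk.trans (mul_le_mul_of_nonneg_right hr2' (Nat.cast_nonneg k))
  have hk0 : (0 : ℝ) < k := by linarith
  have hsB : (0 : ℝ) < sB := by unfold sB; norm_num
  set s0 := ∑ p ∈ range (cutP l i), (mult 16 l p : ℝ) with hs0
  set s2 := ∑ p ∈ range (cutP l i), (mult 16 l p : ℝ) * (1 - 2 * ((p : ℝ) / l)) ^ 2 with hs2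
  set K : ℝ := (k : ℝ) * ((k : ℝ) + 32) with hK
  have hnum : ((l : ℝ) ^ 2 + 32 * l - 99683 / 100000 * K) * s0 - 1 / 21 * (l : ℝ) ^ 2 * s2 < 0 := by
    have hgapR : (gapAt i : ℝ) = 99683 / 100000 * (massAt i : ℝ)
        - (ratioAt i : ℝ) ^ 2 * ((massAt i : ℝ) - 1 / 21 * (momAt i : ℝ)) := by
      unfold gapAt; push_cast; ring
    exact neg_arith (Q := (l : ℝ) ^ 31) normC_pos (pow_pos hl0 31) hl64 hk hr0' hr2' hm0' hm1'
      hme' hgapR hgap (by rw [← pow_succ]; exact mass_near hl hi)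
      (by rw [← pow_succ]; exact mom_near hl)
  have hsum : ∑ p ∈ range (cutP l i), (mult 16 l p : ℝ) * (level l p - K)
      = (((l : ℝ) ^ 2 + 32 * l - 99683 / 100000 * K) * s0 - 1 / 21 * (l : ℝ) ^ 2 * s2) / sB := by
    rw [hs0, hs2, mul_sum, mul_sum, ← sum_sub_distrib, sum_div]
    refine sum_congr rfl fun p _ => ?_
    unfold level mC tB sB
    push_cast
    field_simp
    ring
  rw [mul_sum, ← sub_neg, ← sum_sub_distrib]
  show ∑ P ∈ sel l i, ((mult 16 l P : ℝ) * expo (level l P) - (k : ℝ) * (mult 16 l P : ℝ)) < 0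
  rw [sum_sel l i _ (fun p hp => by rw [level_symm hp, mult_symm hp])]
  have hbound : ∑ p ∈ range (cutP l i),
        ((mult 16 l p : ℝ) * expo (level l p) - (k : ℝ) * (mult 16 l p : ℝ))
      ≤ (∑ p ∈ range (cutP l i), (mult 16 l p : ℝ) * (level l p - K)) / (2 * (k : ℝ) + 32) := by
    rw [sum_div]
    refine sum_le_sum fun p hp => ?_
    have hpl : p ≤ l := by have := two_cutP_le l i; rw [mem_range] at hp; omega
    calc (mult 16 l p : ℝ) * expo (level l p) - (k : ℝ) * (mult 16 l p : ℝ)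
        = (mult 16 l p : ℝ) * (expo (level l p) - k) := by ring
      _ ≤ (mult 16 l p : ℝ) * ((level l p - K) / (2 * (k : ℝ) + 32)) :=
          mul_le_mul_of_nonneg_left (expo_sub_le (level_nonneg hpl)) (mult_nonneg hpl)
      _ = _ := (mul_div_assoc _ _ _).symm
  have hneg : (∑ p ∈ range (cutP l i), (mult 16 l p : ℝ) * (level l p - K)) / (2 * (k : ℝ) + 32)
      < 0 := by
    rw [hsum]
    exact div_neg_of_neg_of_pos (div_neg_of_neg_of_pos hnum hsB) (by positivity)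
  linarith

theorem sum_range_pow_ge (n M : ℕ) :
    (M : ℝ) ^ (n + 1) ≤ (n + 1) * ∑ l ∈ range (M + 1), (l : ℝ) ^ n := by
  induction M with
  | zero => simp; positivity
  | succ M ih =>
    rw [sum_range_succ _ (M + 1), mul_add]
    have h := pow_succ_sub_le (a := ((M : ℝ) + 1)) (b := (M : ℝ)) (Nat.cast_nonneg M) (by linarith) n
    push_cast
    nlinarith
where
  pow_succ_sub_le {a b : ℝ} (hb : 0 ≤ b) (hab : b ≤ a) : ∀ n : ℕ,
      a ^ (n + 1) - b ^ (n + 1) ≤ (n + 1) * a ^ n * (a - b)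
    | 0 => by simp
    | n + 1 => by
      have h := pow_succ_sub_le hb hab n
      have h2 : b ^ (n + 1) ≤ a ^ (n + 1) := pow_le_pow_left₀ hb hab _
      have h3 := mul_le_mul_of_nonneg_left h (hb.trans hab)
      have h4 := mul_le_mul_of_nonneg_right h2 (sub_nonneg.2 hab)
      push_cast
      rw [pow_succ a (n + 1), pow_succ b (n + 1), pow_succ a n] at *
      nlinarith

theorem tail_ge (n : ℕ) {x y : ℝ} {L0 M : ℕ} (hx : 0 ≤ x) (hxy : x ≤ y) (hM : (M : ℝ) ≤ x)
    (hM' : x ≤ (M : ℝ) + 1) :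
    x ^ (n + 1) - (n + 1) * y ^ n - (n + 1) * (L0 : ℝ) ^ (n + 1) ≤
      (n + 1) * ∑ l ∈ (range (M + 1)).filter (fun l => L0 ≤ l), (l : ℝ) ^ n := by
  have h1 := sum_range_pow_ge n M
  have h2 := sum_range_pow_ge.pow_succ_sub_le (a := x) (b := (M : ℝ)) (Nat.cast_nonneg M) hM n
  have h3 : ((n : ℝ) + 1) * x ^ n * (x - M) ≤ (n + 1) * y ^ n := by
    refine (mul_le_of_le_one_right (by positivity) (by linarith)).trans ?_
    exact mul_le_mul_of_nonneg_left (pow_le_pow_left₀ hx hxy n) (by positivity)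
  rw [← sum_filter_add_sum_filter_not (range (M + 1)) (fun l => L0 ≤ l), mul_add] at h1
  have h4 : ∑ l ∈ (range (M + 1)).filter (fun l => ¬L0 ≤ l), (l : ℝ) ^ n
      ≤ (L0 : ℝ) ^ (n + 1) := by
    calc _ ≤ ∑ l ∈ range L0, (l : ℝ) ^ n :=
          sum_le_sum_of_subset_of_nonneg (fun l hl => by
            simp only [mem_filter, mem_range] at hl ⊢; omega) fun _ _ _ => by positivity
      _ ≤ ∑ l ∈ range L0, (L0 : ℝ) ^ n := sum_le_sum fun l hl =>
          pow_le_pow_left₀ (Nat.cast_nonneg l) (by exact_mod_cast (mem_range.1 hl).le) n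
      _ = _ := by rw [sum_const, card_range, nsmul_eq_mul, pow_succ]; ring
  have h5 := mul_le_mul_of_nonneg_left h4 (show (0 : ℝ) ≤ (n : ℝ) + 1 by positivity)
  linarith

theorem harmonicDim_le (k : ℕ) (hk : 33 ≤ k) :
    ((Nat.factorial 33 : ℕ) : ℝ) * (harmonicDim 34 k : ℝ)
      ≤ 2 * ((k : ℝ) ^ 33 + 1089 * 2 ^ 32 * (k : ℝ) ^ 32) := by
  have h1 : (Nat.factorial 33 : ℕ) * harmonicDim 34 k ≤ 2 * (k + 33) ^ 33 := by
    unfold harmonicDim
    rw [if_neg (by omega)]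
    have hc : ∀ j, Nat.factorial 33 * (j + 33).choose 33 ≤ (j + 33) ^ 33 := fun j => by
      rw [← Nat.ascFactorial_eq_factorial_mul_choose]
      exact Nat.ascFactorial_le_pow_add j 33
    have e1 : (34 + k - 1).choose k = (k + 33).choose 33 := by
      rw [show 34 + k - 1 = k + 33 by omega, Nat.choose_symm_add]
    have e2 : (34 + k - 2).choose (k - 1) = ((k - 1) + 33).choose 33 := by
      rw [show 34 + k - 2 = (k - 1) + 33 by omega, Nat.choose_symm_add]
    rw [e1, e2, mul_add, two_mul]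
    exact Nat.add_le_add (hc k)
      ((hc (k - 1)).trans (Nat.pow_le_pow_left (by omega) 33))
  generalize Nat.factorial 33 = F at h1 ⊢
  have h2 : (F : ℝ) * (harmonicDim 34 k : ℝ) ≤ 2 * ((k : ℝ) + 33) ^ 33 := by exact_mod_cast h1
  have h3 := sum_range_pow_ge.pow_succ_sub_le (a := (k : ℝ) + 33) (b := (k : ℝ))
    (Nat.cast_nonneg k) (by linarith) 32
  have h4 : ((k : ℝ) + 33) ^ 32 ≤ 2 ^ 32 * (k : ℝ) ^ 32 := by
    rw [← mul_pow]
    exact pow_le_pow_left₀ (by positivity)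
      (by linarith [show (33 : ℝ) ≤ k by exact_mod_cast hk]) _
  push_cast at h3
  linarith

/-- The bands of the certificate. -/
noncomputable def band (i : ℕ) : ℝ := (massAt i : ℝ) - (massAt (i + 1) : ℝ)

theorem band_nonneg {i : ℕ} (hi : i < 29) : 0 ≤ band i := by
  obtain ⟨-, -, h, -⟩ := cert_level i hi
  exact sub_nonneg.2 (Rat.cast_le.2 h)

theorem band_sum_le {i : ℕ} (hi : i < 29) :
    ∑ j ∈ Ico i 29, band j = (massAt i : ℝ) := by
  have h := sum_Ico_eq_sum_range band i 29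
  rw [h]
  have : ∀ j ∈ range (29 - i), band (i + j)
      = (fun t => (massAt (i + t) : ℝ)) j - (fun t => (massAt (i + t) : ℝ)) (j + 1) :=
    fun j _ => rfl
  rw [sum_congr rfl this, sum_range_sub', show i + (29 - i) = 29 by omega]
  simp [massAt]

open Classical in
theorem selection_ge {k l L0 : ℕ} (hL0 : 64 ≤ L0) :
    (2 * ∑ i ∈ range 29,
        (if L0 ≤ l ∧ (l : ℝ) ≤ (ratioAt i : ℝ) * k then band i * (l : ℝ) ^ 32 else 0))
      - 1200 * (l : ℝ) ^ 31 ≤
    normC * ∑ P ∈ (if h : L0 ≤ l ∧ ∃ i, i < 29 ∧ (l : ℝ) ≤ (ratioAt i : ℝ) * k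
      then sel l (Nat.find h.2) else ∅), (mult 16 l P : ℝ) := by
  split_ifs with h
  · obtain ⟨hf, hfk⟩ := Nat.find_spec h.2
    set i0 := Nat.find h.2 with hi0
    rw [sum_sel l i0 _ (fun p hp => mult_symm hp)]
    have hA := (abs_le.1 (mass_near (l := l) (by omega) hf)).1
    have h2 : ∑ i ∈ range 29,
        (if L0 ≤ l ∧ (l : ℝ) ≤ (ratioAt i : ℝ) * k then band i * (l : ℝ) ^ 32 else 0)
        ≤ (massAt i0 : ℝ) * (l : ℝ) ^ 32 := by
      rw [← band_sum_le hf, sum_mul, ← sum_filter]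
      refine sum_le_sum_of_subset_of_nonneg (fun i hi => ?_) fun i hi _ =>
        mul_nonneg (band_nonneg (mem_Ico.1 hi).2) (by positivity)
      simp only [mem_filter, mem_range] at hi
      exact mem_Ico.2 ⟨Nat.find_min' h.2 ⟨hi.1, hi.2.2⟩, hi.1⟩
    linarith
  · rw [sum_eq_zero fun i hi => if_neg fun hc => h ⟨hc.1, i, mem_range.1 hi, hc.2⟩]
    simp

open Classical in
theorem count : Spec.Count := by
  have hgap0 : ∀ i < 29, (0 : ℝ) < (gapAt i : ℝ) := fun i hi => by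
    have h := (cert_level i hi).2.2.2
    exact Rat.cast_pos.2 (sub_pos.2 h)
  obtain ⟨L0, hL⟩ : ∃ L0 : ℕ, ∀ l ≥ L0, 64 ≤ l ∧ ∀ i ∈ range 29, 200000 ≤ (gapAt i : ℝ) * l := by
    rw [← Filter.eventually_atTop]
    refine (Filter.eventually_ge_atTop 64).and ((Filter.eventually_all_finset _).2 fun i hi => ?_)
    exact (tendsto_natCast_atTop_atTop.const_mul_atTop (hgap0 i (mem_range.1 hi))).eventually_ge_atTop _
  have hL0 : 64 ≤ L0 := (hL L0 le_rfl).1
  set Btot : ℝ := ∑ i ∈ range 29, band i * (ratioAt i : ℝ) ^ 33 with hBtot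
  set F : ℝ := ((Nat.factorial 33 : ℕ) : ℝ) with hFdef
  have hF : 0 < F := by positivity
  have hcert : normC / F < Btot / 33 := by
    have h : (((Nat.factorial 15 : ℕ) : ℚ) ^ 2 * 16 / (Nat.factorial 32 : ℕ) : ℝ) <
        ((∑ i ∈ range 29, (massAt i - massAt (i + 1)) * ratioAt i ^ 33 : ℚ) : ℝ) := by
      exact_mod_cast cert_count
    push_cast at h
    rw [hBtot, hFdef, Nat.factorial_succ 32]
    unfold normC band
    generalize (Nat.factorial 15 : ℕ) = a at h ⊢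
    generalize hb : (Nat.factorial 32 : ℕ) = b at h ⊢
    have hbpos : (0 : ℝ) < b := by rw [← hb]; exact_mod_cast Nat.factorial_pos 32
    rw [div_lt_div_iff₀ (by positivity) (by norm_num)]
    rw [div_lt_iff₀ hbpos] at h
    push_cast
    nlinarith
  set Δ := Btot / 33 - normC / F with hΔdef
  have hΔ : 0 < Δ := sub_pos.2 hcert
  set C : ℝ := 2 * (2 ^ 32 + (L0 : ℝ) ^ 33) + 1200 * 4 ^ 32
    + 2 * (normC / F) * (1089 * 2 ^ 32) with hCdef
  obtain ⟨k, hk⟩ := exists_nat_gt (max (33 : ℝ) (C / Δ))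
  have hk33 : (33 : ℝ) < k := lt_of_le_of_lt (le_max_left _ _) hk
  have hkC : C < Δ * k := by
    have := lt_of_le_of_lt (le_max_right _ _) hk
    rwa [div_lt_iff₀ hΔ, mul_comm] at this
  have hk33' : 33 ≤ k := by exact_mod_cast hk33.le
  set S : ℕ → Finset ℕ := fun l =>
    if h : L0 ≤ l ∧ ∃ i, i < 29 ∧ (l : ℝ) ≤ (ratioAt i : ℝ) * k
      then sel l (Nat.find h.2) else ∅ with hS
  have hrk : ∀ i < 29, (ratioAt i : ℝ) * k ≤ 2 * k := fun i hi =>
    mul_le_mul_of_nonneg_right (by exact_mod_cast (cert_level i hi).2.1) (Nat.cast_nonneg k)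
  refine ⟨k, 2 * k, S, by omega, fun l hl => ?_, fun l hl => ?_, fun l P hP => ?_,
    fun l hne => ?_, ?_⟩
  · rw [hS]
    refine dif_neg ?_
    rintro ⟨-, i, hi, hle⟩
    have h1 : ((2 * k : ℕ) : ℝ) < l := by exact_mod_cast hl
    push_cast at h1
    linarith [hrk i hi]
  · rw [hS]
    exact dif_neg fun h => by omega
  · simp only [hS] at hP
    split_ifs at hP
    · exact ⟨le_of_mem_sel hP, mult_pos (le_of_mem_sel hP)⟩
    · simp at hP
  · simp only [hS] at hne ⊢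
    split_ifs at hne ⊢ with h
    · obtain ⟨hf, hfk⟩ := Nat.find_spec h.2
      exact main_neg hf (hL l h.1).1 hfk ((hL l h.1).2 _ (mem_range.2 hf))
    · simp at hne
  · have key : 2 * (∑ i ∈ range 29, band i * ((ratioAt i : ℝ) ^ 33 * (k : ℝ) ^ 33 / 33))
        - 2 * (2 ^ 32 * (k : ℝ) ^ 32 + (L0 : ℝ) ^ 33) - 1200 * (4 ^ 32 * (k : ℝ) ^ 32)
        ≤ normC * ∑ l ∈ range (2 * k + 1), ∑ P ∈ S l, (mult 16 l P : ℝ) := by
      rw [mul_sum (range (2 * k + 1))]
      refine le_trans ?_ (sum_le_sum fun l _ => selection_ge (k := k) (l := l) hL0)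
      rw [sum_sub_distrib, ← mul_sum, sum_comm, ← mul_sum]
      have herr : ∑ l ∈ range (2 * k + 1), (l : ℝ) ^ 31 ≤ 4 ^ 32 * (k : ℝ) ^ 32 := by
        calc _ ≤ ∑ l ∈ range (2 * k + 1), (4 * (k : ℝ)) ^ 31 := sum_le_sum fun l hl => by
              refine pow_le_pow_left₀ (Nat.cast_nonneg l) ?_ _
              have : l ≤ 4 * k := by rw [mem_range] at hl; omega
              exact_mod_cast this
          _ ≤ (4 * (k : ℝ)) ^ 32 := by
              rw [sum_const, card_range, nsmul_eq_mul, pow_succ' (4 * (k : ℝ)) 31]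
              refine mul_le_mul_of_nonneg_right ?_ (by positivity)
              push_cast
              linarith
          _ = _ := mul_pow _ _ _
      have hband : ∑ i ∈ range 29, band i ≤ 1 := by
        rw [range_eq_Ico, band_sum_le (by norm_num)]
        exact_mod_cast (mass_bounds (i := 0) (by norm_num)).2.1
      have hper : ∀ i ∈ range 29,
          band i * ((ratioAt i : ℝ) ^ 33 * (k : ℝ) ^ 33 / 33)
            - band i * (2 ^ 32 * (k : ℝ) ^ 32 + (L0 : ℝ) ^ 33)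
          ≤ ∑ l ∈ range (2 * k + 1),
            (if L0 ≤ l ∧ (l : ℝ) ≤ (ratioAt i : ℝ) * k then band i * (l : ℝ) ^ 32 else 0) := by
        intro i hi
        rw [mem_range] at hi
        have hr0 : (0 : ℝ) ≤ (ratioAt i : ℝ) * k :=
          mul_nonneg (by exact_mod_cast (cert_level i hi).1.le) (Nat.cast_nonneg k)
        have h1 := tail_ge 32 (L0 := L0) hr0 (hrk i hi) (Nat.floor_le hr0)
          (Nat.lt_floor_add_one _).le
        rw [← sum_filter, ← mul_sum, ← mul_sub]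
        refine mul_le_mul_of_nonneg_left ?_ (band_nonneg hi)
        have h2 : ∑ l ∈ (range (⌊(ratioAt i : ℝ) * k⌋₊ + 1)).filter (fun l => L0 ≤ l), (l : ℝ) ^ 32
            ≤ ∑ l ∈ (range (2 * k + 1)).filter
                (fun l : ℕ => L0 ≤ l ∧ (l : ℝ) ≤ (ratioAt i : ℝ) * k), (l : ℝ) ^ 32 := by
          refine sum_le_sum_of_subset_of_nonneg (fun l hl => ?_) fun _ _ _ => by positivity
          simp only [mem_filter, mem_range] at hl ⊢
          have h3 : (l : ℝ) ≤ (ratioAt i : ℝ) * k :=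
            (Nat.cast_le.2 (Nat.le_of_lt_succ hl.1)).trans (Nat.floor_le hr0)
          have h4 : (l : ℝ) ≤ ((2 * k : ℕ) : ℝ) := by push_cast; linarith [hrk i hi]
          exact ⟨Nat.lt_succ_of_le (by exact_mod_cast h4), hl.2, h3⟩
        rw [← mul_pow, ← mul_pow]
        push_cast at h1
        linarith
      have h := sum_le_sum hper
      rw [sum_sub_distrib, ← sum_mul] at h
      have h2 := mul_le_mul_of_nonneg_right hband
        (show (0 : ℝ) ≤ 2 ^ 32 * (k : ℝ) ^ 32 + (L0 : ℝ) ^ 33 by positivity)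
      linarith
    have hdim : F * (harmonicDim 34 k : ℝ)
        ≤ 2 * ((k : ℝ) ^ 33 + 1089 * 2 ^ 32 * (k : ℝ) ^ 32) := harmonicDim_le k hk33'
    have hfin : normC * (harmonicDim 34 k : ℝ)
        < normC * ∑ l ∈ range (2 * k + 1), ∑ P ∈ S l, (mult 16 l P : ℝ) := by
      refine lt_of_lt_of_le ?_ key
      have hsum : ∑ i ∈ range 29, band i * ((ratioAt i : ℝ) ^ 33 * (k : ℝ) ^ 33 / 33)
          = Btot / 33 * (k : ℝ) ^ 33 := by
        rw [hBtot, sum_div, sum_mul]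
        exact sum_congr rfl fun i _ => by ring
      rw [hsum]
      have h1 := mul_le_mul_of_nonneg_left hdim (show 0 ≤ normC / F from
        div_nonneg normC_pos.le hF.le)
      rw [← mul_assoc, div_mul_cancel₀ _ hF.ne'] at h1
      have hkpow : (1 : ℝ) ≤ (k : ℝ) ^ 32 := one_le_pow₀ (by linarith)
      have h2 := mul_lt_mul_of_pos_right hkC (show (0 : ℝ) < (k : ℝ) ^ 32 by linarith)
      have h3 := mul_le_mul_of_nonneg_left hkpow (show (0 : ℝ) ≤ (L0 : ℝ) ^ 33 by positivity)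
      have h4 : 0 < Δ * (k : ℝ) ^ 33 := mul_pos hΔ (by positivity)
      have h5 : (k : ℝ) * (k : ℝ) ^ 32 = (k : ℝ) ^ 33 := (pow_succ' _ _).symm
      rw [hCdef, mul_assoc Δ, h5, hΔdef] at h2
      rw [hΔdef] at h4
      linarith
    have h := lt_of_mul_lt_mul_left hfin normC_pos.le
    have e : (2 * mC + 2) = 34 := rfl
    rw [e]
    exact_mod_cast h

end Vale.Agent.P225.Full.CountProof
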