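import Vale.Agent.P225.Full.BergerModel

/-!
# Ricci curvature of the model metrics
-/

namespace Vale.Agent.P225.Full

open scoped Matrix Topology
open Matrix Filter

theorem ricci_model (m : ℕ) (P : Profile (2 * m + 2)) (hP : P.Adm) (x : Coord (2 * m + 2))
    (hx : x ≠ 0) (v : Coord (2 * m + 2)) :
    ∑ i, ∑ j, ricciTensor P.metric i j x * v i * v j =
      (P.rrTerm m (logRad x) * radPart x v ^ 2
        + P.fibTerm m (logRad x) * Real.exp (2 * P.p (logRad x)) *
            fibPart (P.J (logRad x)) x v ^ 2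
        + P.horTerm m (logRad x) * Real.exp (2 * P.q (logRad x)) *
            (∑ i, v i ^ 2 - radPart x v ^ 2 - fibPart (P.J (logRad x)) x v ^ 2)) / rad x ^ 2 := by
  have hQ := sq_pos_of_ne hx
  have hp : ContDiff ℝ 2 P.p := contDiff_infty.1 hP.smooth_p 2
  have hq : ContDiff ℝ 2 P.q := contDiff_infty.1 hP.smooth_q 2
  simp only [ricciTensor_congr (metric_eventually_berger hP hx)]
  rw [ric_berger (hP.cs _).isCx (regAt_model hP hx) v]
  obtain ⟨hH, hR, hF⟩ := k_profile m hQ hp hq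
  set J := P.J (logRad x) with hJ
  set kv := kV (2 * m + 2) (pA P.q) (pB P.q) (pC P.p P.q) (Full.sq x) with hkv
  set kx := kX (2 * m + 2) (pA P.q) (pB P.q) (pC P.p P.q) (Full.sq x)
  set ky := kY (2 * m + 2) (pA P.q) (pB P.q) (pC P.p P.q) (Full.sq x)
  simp only [tOf_sq, pA_sq] at hH hR hF
  simp only [sq_eq_rad_sq] at hH hR hF
  have e1 : Real.exp (2 * P.p (logRad x) - 4 * P.q (logRad x))
      = Real.exp (2 * P.p (logRad x)) / Real.exp (2 * P.q (logRad x)) ^ 2 := by
    rw [Real.exp_sub, ← Real.exp_nat_mul]; congr 2; push_cast; ring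
  have e2 : Real.exp (-2 * P.q (logRad x)) = (Real.exp (2 * P.q (logRad x)))⁻¹ := by
    rw [← Real.exp_neg]; congr 1; ring
  have hRR : P.rrTerm m (logRad x) = rad x ^ 2 * (kv + rad x ^ 2 * kx) := by
    rw [hR, Profile.rrTerm]
  have hFF : P.fibTerm m (logRad x) * Real.exp (2 * P.p (logRad x))
      = rad x ^ 2 * (kv + rad x ^ 2 * ky) := by
    rw [hF, Profile.fibTerm, e1]; ring
  have hHH : P.horTerm m (logRad x) * Real.exp (2 * P.q (logRad x)) = rad x ^ 2 * kv := by
    rw [hH, Profile.horTerm, e1, e2]; ring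
  have hr : rad x ≠ 0 := rad_ne_zero hx
  have hX : v ⬝ᵥ x = radPart x v * rad x := by
    rw [radPart, div_mul_cancel₀ _ hr]
    exact Finset.sum_congr rfl fun i _ => mul_comm _ _
  have hY : (J *ᵥ x) ⬝ᵥ v = fibPart J x v * rad x := by
    rw [fibPart, div_mul_cancel₀ _ hr]; rfl
  have hV : v ⬝ᵥ v = ∑ i, v i ^ 2 := Finset.sum_congr rfl fun i _ => (pow_two _).symm
  rw [hX, hY, hV, hRR, hFF, hHH]
  field_simp
  ring

/-- `Spec.Curvature`. -/
theorem curvature : Spec.Curvature := fun m P _ hP =>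
  ⟨metric_smooth hP, metric_posDef hP, fun v i j => ricci_zero hP v i j,
    fun x hx v => ricci_model m P hP x hx v⟩

end Vale.Agent.P225.Full
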