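import Vale.Agent.P225.Full.AsmSpec

/-! # From solutions of the shell equations to a counterexample -/

namespace Vale.Agent.P225.Full

open Matrix

/-- Enough solutions of the shell equations give a counterexample. -/
theorem counterexample_of_shellSols (hCurv : Spec.Curvature) (hHarm : Spec.Harmonic)
    (hComp : Spec.Complete) {m k N : ℕ} (hm : 1 ≤ m) (E : ∀ l, Spec.EigenShell m l)
    (P : Profile (2 * m + 2)) (hP : P.Adm)
    (hrr : ∀ t, 0 ≤ P.rrTerm m t) (hfib : ∀ t, 0 ≤ P.fibTerm m t) (hhor : ∀ t, 0 ≤ P.horTerm m t)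
    (deg : Fin N → ℕ) (base : ∀ c, Fin (E (deg c)).D)
    (hbase : Function.Injective fun c => (⟨deg c, base c⟩ : Σ l, Fin (E l).D))
    (y : ∀ c, ℝ → Fin (E (deg c)).D → ℝ) (hy : ∀ c, IsShellSol P (E (deg c)) (y c))
    (hcore : ∀ c, ∀ t ≤ 0, ∀ a, y c t a = if a = base c then Real.exp ((deg c : ℝ) * t) else 0)
    (hgrow : ∃ C : ℝ, ∀ c, ∀ t, 0 ≤ t → ∑ a, |y c t a| ≤ C * Real.exp ((k : ℝ) * t))
    (hN : harmonicDim (2 * m + 2) k < N) :
    YauCounterexample (2 * m + 2) k :=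
  counterexample_of_coeffs hCurv hHarm hComp hm E P hP hrr hfib hhor deg base hbase y
    (fun c => (hy c).1) (fun c t a => (hy c).2 a t) hcore hgrow hN

end Vale.Agent.P225.Full
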