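import Vale.Agent.P225.Full.Spec

/-! # The slow pulse limit -/

namespace Vale.Agent.P225.Full.PulseLim

open Set Real intervalIntegral

variable {V : Type*} [NormedAddCommGroup V] [NormedSpace ℝ V]

/-- A damped equation `v' + c v = f`. -/
lemma damped_bound {T c₁ η b : ℝ} (hc₁ : 0 < c₁) (hb : 0 ≤ b) (hη : 0 ≤ η) {c : ℝ → ℝ}
    (hc : Continuous c) (hcl : ∀ s ∈ Icc 0 T, c₁ ≤ c s) {v v' : ℝ → V}
    (hv : ∀ s ∈ Icc 0 T, HasDerivAt v (v' s) s) (hv0 : ‖v 0‖ ≤ η)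
    (hf : ∀ s ∈ Icc 0 T, ‖v' s + c s • v s‖ ≤ b) :
    ∀ s ∈ Icc 0 T, ‖v s‖ ≤ η * exp (-(c₁ * s)) + b / c₁ := by
  set C : ℝ → ℝ := fun s => ∫ u in (0 : ℝ)..s, c u with hC
  have hCd : ∀ s, HasDerivAt C (c s) s := fun s =>
    integral_hasDerivAt_right (hc.intervalIntegrable _ _)
      hc.stronglyMeasurable.stronglyMeasurableAtFilter hc.continuousAt
  have hud : ∀ s ∈ Icc 0 T, HasDerivAt (fun s => exp (C s) • v s)
      (exp (C s) • (v' s + c s • v s)) s := by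
    intro s hs
    refine ((hCd s).exp.smul (hv s hs)).congr_deriv ?_
    rw [smul_add, smul_smul]
  have hBd : ∀ s, HasDerivAt (fun s => η + b / c₁ * exp (C s))
      (b / c₁ * (exp (C s) * c s)) s := fun s => ((hCd s).exp.const_mul _).const_add _
  intro s hs
  have key := image_norm_le_of_norm_deriv_right_le_deriv_boundary'
    (f := fun s => exp (C s) • v s) (f' := fun s => exp (C s) • (v' s + c s • v s))
    (B := fun s => η + b / c₁ * exp (C s)) (B' := fun s => b / c₁ * (exp (C s) * c s))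
    (a := 0) (b := T)
    (fun x hx => (hud x hx).continuousAt.continuousWithinAt)
    (fun x hx => (hud x (Ico_subset_Icc_self hx)).hasDerivWithinAt)
    (by
      have : C 0 = 0 := by simp [hC]
      simp only [this, exp_zero, one_smul, mul_one]
      have : 0 ≤ b / c₁ := by positivity
      linarith)
    (fun x _ => (hBd x).continuousAt.continuousWithinAt)
    (fun x _ => (hBd x).hasDerivWithinAt)
    (fun x hx => by
      rw [norm_smul, norm_eq_abs, abs_exp]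
      have h1 := hf x (Ico_subset_Icc_self hx)
      have h2 := hcl x (Ico_subset_Icc_self hx)
      have hbc : b ≤ b / c₁ * c x := by
        rw [div_mul_eq_mul_div, le_div_iff₀ hc₁]
        exact mul_le_mul_of_nonneg_left h2 hb
      calc exp (C x) * ‖v' x + c x • v x‖ ≤ exp (C x) * (b / c₁ * c x) :=
            mul_le_mul_of_nonneg_left (h1.trans hbc) (exp_pos _).le
        _ = _ := by ring)
    hs
  simp only [norm_smul, norm_eq_abs, abs_exp] at key
  have hCs : c₁ * s ≤ C s := by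
    have h := integral_mono_on (a := 0) (b := s) hs.1 (f := fun _ => c₁) (g := c)
      (continuous_const.intervalIntegrable (μ := MeasureTheory.volume) _ _) (hc.intervalIntegrable _ _)
      (fun u hu => hcl u ⟨hu.1, hu.2.trans hs.2⟩)
    simpa [mul_comm] using h
  have h3 : ‖v s‖ ≤ η * exp (-(C s)) + b / c₁ := by
    refine le_of_mul_le_mul_left ?_ (exp_pos (C s))
    calc exp (C s) * ‖v s‖ ≤ η + b / c₁ * exp (C s) := key
      _ = exp (C s) * (η * exp (-(C s)) + b / c₁) := by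
        rw [exp_neg]
        field_simp
  refine h3.trans ?_
  gcongr

/-- The error equation, with a boundary layer at the start. -/
lemma layer_bound {S L A A₂ e₀ c₁ ε : ℝ} (hS : 0 ≤ S) (hL : 0 ≤ L) (hA : 0 ≤ A) (hA₂ : 0 ≤ A₂)
    (hc₁ : 0 < c₁) (hε : 0 < ε) (_he₀ : 0 ≤ e₀) {e e' : ℝ → V}
    (he : ∀ σ ∈ Icc 0 S, HasDerivAt e (e' σ) σ) (h0 : ‖e 0‖ ≤ e₀)
    (hb : ∀ σ ∈ Icc 0 S, ‖e' σ‖ < L * ‖e σ‖ + A + A₂ / ε * exp (-(c₁ * (σ / ε)))) :
    ‖e S‖ ≤ exp (L * S) * (e₀ + A * S + A₂ / c₁) := by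
  set B : ℝ → ℝ := fun σ => exp (L * σ) * (e₀ + A * σ + A₂ / c₁ * (1 - exp (-(c₁ * (σ / ε)))))
    with hB
  set B' : ℝ → ℝ := fun σ => L * B σ + exp (L * σ) * (A + A₂ / ε * exp (-(c₁ * (σ / ε)))) with hB'
  have hBd : ∀ σ, HasDerivAt B (B' σ) σ := by
    intro σ
    have h1 : HasDerivAt (fun σ : ℝ => exp (L * σ)) (exp (L * σ) * L) σ := by
      simpa using ((hasDerivAt_id σ).const_mul L).exp
    have h2 : HasDerivAt (fun σ : ℝ => exp (-(c₁ * (σ / ε))))
        (exp (-(c₁ * (σ / ε))) * -(c₁ * (1 / ε))) σ := by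
      simpa using ((((hasDerivAt_id σ).div_const ε).const_mul c₁).neg).exp
    have h3 := h1.mul ((((hasDerivAt_id σ).const_mul A).const_add e₀).add
      ((h2.const_sub 1).const_mul (A₂ / c₁)))
    refine h3.congr_deriv ?_
    simp only [hB', hB, id_eq, Pi.add_apply]
    field_simp
  have key := image_norm_le_of_norm_deriv_right_lt_deriv_boundary'
    (f := e) (f' := e') (B := B) (B' := B') (a := 0) (b := S)
    (fun x hx => (he x hx).continuousAt.continuousWithinAt)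
    (fun x hx => (he x (Ico_subset_Icc_self hx)).hasDerivWithinAt)
    (by simpa [hB] using h0)
    (fun x _ => (hBd x).continuousAt.continuousWithinAt)
    (fun x _ => (hBd x).hasDerivWithinAt)
    (fun x hx hxe => by
      have h := hb x (Ico_subset_Icc_self hx)
      rw [hxe] at h
      have h1 : (1 : ℝ) ≤ exp (L * x) := one_le_exp (mul_nonneg hL hx.1)
      have h2 : 0 ≤ A + A₂ / ε * exp (-(c₁ * (x / ε))) := by positivity
      have h3 := mul_le_mul_of_nonneg_right h1 h2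
      simp only [hB']
      linarith)
    (right_mem_Icc.2 hS)
  refine key.trans ?_
  simp only [hB]
  have h4 : A₂ / c₁ * (1 - exp (-(c₁ * (S / ε)))) ≤ A₂ / c₁ := by
    have : 0 ≤ A₂ / c₁ := by positivity
    nlinarith [exp_pos (-(c₁ * (S / ε)))]
  exact mul_le_mul_of_nonneg_left (by linarith) (exp_pos _).le

/-- The pointwise estimate of the derivative of the error. -/
lemma err_bound {ε η c₀ c₁ β Λ M q cs : ℝ} {K K₀ : V →L[ℝ] V} {z v p e : V} {L A E₁ : ℝ}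
    (hc₀ : 0 < c₀) (hε : 0 < ε) (hη : 0 < η) (hη1 : η ≤ 1) (hc₁ : 0 < c₁) (hβ : 0 ≤ β)
    (hΛ : 0 < Λ) (hM : 0 ≤ M) (_hq : 0 ≤ q) (hc' : |c₀ - cs| ≤ η) (hK₀ : ‖K₀‖ ≤ β)
    (hK : ‖K - K₀‖ ≤ η) (hz : ‖z‖ ≤ M) (hv : ‖v‖ ≤ η * E₁ + ε * Λ * M / c₁)
    (hv2 : ‖v‖ ≤ η * q * (1 + M)) (hL : L = β / c₀)
    (hA : A = η * (Λ / (c₁ * c₀) + 1 / c₀ + L * q / c₀ + 1) * (1 + M))
    (he : e = z + c₀⁻¹ • v - p) (hE : 0 ≤ E₁) :
    ‖ε⁻¹ • v + (c₀⁻¹ * ε⁻¹) • (ε • K z - cs • v) - c₀⁻¹ • K₀ p‖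
      < L * ‖e‖ + A + η / c₀ / ε * E₁ := by
  have hsplit : ε⁻¹ • v + (c₀⁻¹ * ε⁻¹) • (ε • K z - cs • v) - c₀⁻¹ • K₀ p =
      ((c₀ - cs) / (ε * c₀)) • v + c₀⁻¹ • ((K - K₀) z + K₀ e - c₀⁻¹ • K₀ v) := by
    simp only [he, sub_apply, map_sub, map_add, map_smul]
    match_scalars <;> field_simp <;> ring
  rw [hsplit]
  have t1 : ‖((c₀ - cs) / (ε * c₀)) • v‖ ≤ η / c₀ / ε * E₁ + η * (Λ * M / (c₁ * c₀)) := by
    rw [norm_smul, norm_eq_abs, abs_div, abs_of_pos (mul_pos hε hc₀)]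
    calc |c₀ - cs| / (ε * c₀) * ‖v‖
        ≤ η / (ε * c₀) * (η * E₁ + ε * Λ * M / c₁) :=
          mul_le_mul (by gcongr) hv (norm_nonneg _) (by positivity)
      _ = η * (η / c₀ / ε * E₁) + η * (Λ * M / (c₁ * c₀)) := by field_simp
      _ ≤ _ := by
        have : 0 ≤ η / c₀ / ε * E₁ := by positivity
        nlinarith
  have t2 : ‖c₀⁻¹ • ((K - K₀) z + K₀ e - c₀⁻¹ • K₀ v)‖
      ≤ η * M / c₀ + L * ‖e‖ + L * (η * q * (1 + M)) / c₀ := by
    rw [norm_smul, norm_eq_abs, abs_of_pos (inv_pos.2 hc₀)]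
    have u1 : ‖(K - K₀) z‖ ≤ η * M :=
      ((K - K₀).le_opNorm _).trans (mul_le_mul hK hz (norm_nonneg _) hη.le)
    have u2 : ‖K₀ e‖ ≤ β * ‖e‖ :=
      (K₀.le_opNorm _).trans (mul_le_mul_of_nonneg_right hK₀ (norm_nonneg _))
    have u3 : ‖c₀⁻¹ • K₀ v‖ ≤ c₀⁻¹ * (β * (η * q * (1 + M))) := by
      rw [norm_smul, norm_eq_abs, abs_of_pos (inv_pos.2 hc₀)]
      exact mul_le_mul_of_nonneg_left
        ((K₀.le_opNorm _).trans (mul_le_mul hK₀ hv2 (norm_nonneg _) hβ)) (inv_pos.2 hc₀).le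
    calc c₀⁻¹ * ‖(K - K₀) z + K₀ e - c₀⁻¹ • K₀ v‖
        ≤ c₀⁻¹ * (η * M + β * ‖e‖ + c₀⁻¹ * (β * (η * q * (1 + M)))) :=
          mul_le_mul_of_nonneg_left ((norm_sub_le _ _).trans (add_le_add ((norm_add_le _ _).trans
            (add_le_add u1 u2)) u3)) (inv_pos.2 hc₀).le
      _ = _ := by rw [hL]; ring
  have hA' : η * (Λ * M / (c₁ * c₀)) + η * M / c₀ + L * (η * q * (1 + M)) / c₀ < A := by
    have h1 : 0 < η * (Λ / (c₁ * c₀)) + η * (1 / c₀) + η * (1 + M) := by positivity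
    have h2 : A = η * (Λ * M / (c₁ * c₀)) + η * M / c₀ + L * (η * q * (1 + M)) / c₀
        + (η * (Λ / (c₁ * c₀)) + η * (1 / c₀) + η * (1 + M)) := by
      rw [hA]; ring
    linarith
  have := norm_add_le (((c₀ - cs) / (ε * c₀)) • v) (c₀⁻¹ • ((K - K₀) z + K₀ e - c₀⁻¹ • K₀ v))
  linarith

/-- The size of the bound in the error equation. -/
lemma layer_alg {η a u r M σ S A : ℝ} (hA : A = η * r * (1 + M)) (hη : 0 ≤ η) (hM : 0 ≤ M)
    (ha : 0 ≤ a) (hu : 0 ≤ u) (hr : 0 ≤ r) (hσ : σ ≤ S) :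
    η * a + A * σ + η * u ≤ η * (a + r * S + u) * (1 + M) := by
  subst hA
  have h1 : η * r * (1 + M) * σ ≤ η * r * (1 + M) * S :=
    mul_le_mul_of_nonneg_left hσ (by positivity)
  have h2 : 0 ≤ η * a * M + η * u * M := by positivity
  linarith

end Vale.Agent.P225.Full.PulseLim

namespace Vale.Agent.P225.Full

open Set Real PulseLim

theorem pulseLimit : Spec.PulseLimit := by
  intro V _ _ _ S c₀ bound hS hc₀ δ hδ
  set β := max bound 0 with hβ
  have hβ0 : 0 ≤ β := le_max_right _ _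
  set Λ := β + 1
  set c₁ := c₀ / 2 with hc₁d
  have hc₁ : 0 < c₁ := by positivity
  set L := β / c₀
  have hL : 0 ≤ L := by positivity
  set E := exp (L * S)
  have hE1 : 1 ≤ E := one_le_exp (by positivity)
  set q := 1 + Λ / c₁
  set r := Λ / (c₁ * c₀) + 1 / c₀ + L * q / c₀ + 1
  set H := E * (1 / c₀ + r * S + 1 / (c₀ * c₁)) + q / c₀ + q
  have hH : 0 < H := by positivity
  refine ⟨min (min 1 c₁) (min (1 / (2 * H)) (δ / (2 * H * (E + 1)))), by positivity, ?_⟩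
  intro ε c K K₀ z P hε hεη hc hK hK₀ hcb hKb hz hz0 hdz0 hode hP0 hP
  set η := min (min 1 c₁) (min (1 / (2 * H)) (δ / (2 * H * (E + 1))))
  have hη0 : 0 < η := lt_of_lt_of_le hε hεη
  have hη1 : η ≤ 1 := le_trans (min_le_left _ _) (min_le_left _ _)
  have hηc : η ≤ c₁ := le_trans (min_le_left _ _) (min_le_right _ _)
  have hηH : η * (2 * H) ≤ 1 :=
    (le_div_iff₀ (by positivity)).1 (le_trans (min_le_right _ _) (min_le_left _ _))
  have hηδ : η * (2 * H * (E + 1)) ≤ δ :=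
    (le_div_iff₀ (by positivity)).1 (le_trans (min_le_right _ _) (min_le_right _ _))
  clear_value η
  set T := S / ε with hT
  have hT0 : 0 ≤ T := by positivity
  have hzd : ∀ s, HasDerivAt z (deriv z s) s := fun s =>
    ((hz.differentiable (by norm_num)) s).hasDerivAt
  have hvd : ∀ s, HasDerivAt (deriv z) (deriv (deriv z) s) s := fun s => by
    have h : ContDiff ℝ 1 (deriv z) := hz.iterate_deriv' 1 1
    exact ((h.differentiable (by norm_num)) s).hasDerivAt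
  obtain ⟨sM, hsM, hmax⟩ := (isCompact_Icc (a := (0 : ℝ)) (b := T)).exists_isMaxOn
    (nonempty_Icc.2 hT0) hz.continuous.norm.continuousOn
  set M := ‖z sM‖
  have hM : ∀ s ∈ Icc 0 T, ‖z s‖ ≤ M := fun s hs => hmax hs
  have hM0 : 0 ≤ M := norm_nonneg _
  have hmem : ∀ σ ∈ Icc 0 S, σ / ε ∈ Icc 0 T := fun σ hσ =>
    ⟨by have := hσ.1; positivity, div_le_div_of_nonneg_right hσ.2 hε.le⟩
  have hmem' : ∀ s ∈ Icc 0 T, ε * s ∈ Icc 0 S := fun s hs => by
    refine ⟨mul_nonneg hε.le hs.1, ?_⟩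
    have := hs.2
    rw [hT, le_div_iff₀ hε] at this
    linarith
  have hKle : ∀ σ ∈ Icc 0 S, ‖K₀ σ‖ ≤ β ∧ ‖K σ‖ ≤ Λ := fun σ hσ => by
    obtain ⟨h1, h2⟩ := hKb σ hσ
    refine ⟨h1.trans (le_max_left _ _), ?_⟩
    have := norm_le_insert' (K σ) (K₀ σ)
    have := le_max_left bound 0
    simp only [Λ, hβ]
    linarith
  -- the derivative
  have hv : ∀ s ∈ Icc 0 T,
      ‖deriv z s‖ ≤ η * exp (-(c₁ * s)) + ε * Λ * M / c₁ := by
    refine damped_bound hc₁ (by positivity) hη0.le hc (fun s hs => ?_) (fun s _ => hvd s) hdz0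
      (fun s hs => ?_)
    · have := abs_le.1 (hcb s hs)
      simp only [hc₁d] at hηc ⊢
      linarith
    · rw [hode s hs, norm_smul, norm_eq_abs, abs_of_pos hε, mul_assoc]
      gcongr
      exact ((K _).le_opNorm _).trans (mul_le_mul (hKle _ (hmem' s hs)).2 (hM s hs)
        (norm_nonneg _) (by positivity))
  have hvQ : ∀ s ∈ Icc 0 T, ‖deriv z s‖ ≤ η * q * (1 + M) := fun s hs => by
    refine (hv s hs).trans ?_
    have h1 : exp (-(c₁ * s)) ≤ 1 := exp_le_one_iff.2 (by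
      have := hs.1
      nlinarith)
    have h2 : ε * Λ * M / c₁ ≤ η * Λ * M / c₁ := by gcongr
    have h3 : η * exp (-(c₁ * s)) ≤ η := mul_le_of_le_one_right hη0.le h1
    have h4 : 0 ≤ η * M + η * (Λ / c₁) := by positivity
    calc _ ≤ η + η * Λ * M / c₁ := by linarith
      _ ≤ η + η * Λ * M / c₁ + (η * M + η * (Λ / c₁)) := by linarith
      _ = η * q * (1 + M) := by simp only [q]; ring
  -- the error
  set e : ℝ → V := fun σ => z (σ / ε) + c₀⁻¹ • deriv z (σ / ε) - P σ with he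
  set e' : ℝ → V := fun σ => ε⁻¹ • deriv z (σ / ε) + (c₀⁻¹ * ε⁻¹) • deriv (deriv z) (σ / ε)
    - c₀⁻¹ • K₀ σ (P σ) with he'
  have hed : ∀ σ ∈ Icc 0 S, HasDerivAt e (e' σ) σ := fun σ hσ => by
    have hd : HasDerivAt (fun σ : ℝ => σ / ε) ε⁻¹ σ := by
      simpa using (hasDerivAt_id σ).div_const ε
    have h1 : HasDerivAt (fun σ => z (σ / ε)) (ε⁻¹ • deriv z (σ / ε)) σ :=
      (hzd (σ / ε)).scomp σ hd
    have h2 : HasDerivAt (fun σ => deriv z (σ / ε)) (ε⁻¹ • deriv (deriv z) (σ / ε)) σ :=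
      HasDerivAt.scomp (g₁ := deriv z) σ (hvd (σ / ε)) hd
    refine ((h1.add (h2.const_smul c₀⁻¹)).sub (hP σ hσ)).congr_deriv ?_
    simp only [he', smul_smul]
  have he0 : ‖e 0‖ ≤ η / c₀ := by
    simp only [he, zero_div, hP0, add_sub_cancel_left, norm_smul, norm_eq_abs]
    rw [abs_of_pos (inv_pos.2 hc₀), inv_mul_eq_div]
    gcongr
  have hPb : ∀ σ ∈ Icc 0 S, ‖P σ‖ ≤ E := by
    intro σ hσ
    have := norm_le_gronwallBound_of_norm_deriv_right_le (f := P)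
      (f' := fun σ => c₀⁻¹ • K₀ σ (P σ)) (δ := 1) (K := L) (ε := 0) (a := 0) (b := S)
      (fun x hx => (hP x hx).continuousAt.continuousWithinAt)
      (fun x hx => (hP x (Ico_subset_Icc_self hx)).hasDerivWithinAt)
      (by rw [hP0]; exact hz0)
      (fun x hx => by
        rw [norm_smul, norm_eq_abs, abs_of_pos (inv_pos.2 hc₀), add_zero]
        calc c₀⁻¹ * ‖K₀ x (P x)‖ ≤ c₀⁻¹ * (β * ‖P x‖) := by
              gcongr
              exact ((K₀ x).le_opNorm _).trans (mul_le_mul_of_nonneg_right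
                (hKle x (Ico_subset_Icc_self hx)).1 (norm_nonneg _))
          _ = L * ‖P x‖ := by simp only [L]; ring) σ hσ
    rw [gronwallBound_ε0, sub_zero, one_mul] at this
    exact this.trans (exp_le_exp.2 (mul_le_mul_of_nonneg_left hσ.2 hL))
  set A := η * r * (1 + M) with hAd
  have hbound : ∀ σ ∈ Icc 0 S,
      ‖e' σ‖ < L * ‖e σ‖ + A + η / c₀ / ε * exp (-(c₁ * (σ / ε))) := by
    intro σ hσ
    have hsm := hmem σ hσ
    have hes : ε * (σ / ε) = σ := mul_div_cancel₀ σ hε.ne'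
    have hdd : deriv (deriv z) (σ / ε) =
        ε • K σ (z (σ / ε)) - c (σ / ε) • deriv z (σ / ε) := by
      rw [eq_sub_iff_add_eq, hode _ hsm, hes]
    simp only [he', hdd]
    exact err_bound hc₀ hε hη0 hη1 hc₁ hβ0 (by positivity) hM0 (by positivity)
      (abs_sub_comm (c (σ / ε)) c₀ ▸ hcb _ hsm) (hKle σ hσ).1 (hKb σ hσ).2 (hM _ hsm)
      (hv _ hsm) (hvQ _ hsm) rfl rfl rfl (by positivity)
  have hAnn : 0 ≤ A := by positivity
  have hclose : ∀ σ ∈ Icc 0 S, ‖z (σ / ε) - P σ‖ ≤ η * H * (1 + M) := by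
    intro σ hσ
    have hsub : Icc 0 σ ⊆ Icc 0 S := Icc_subset_Icc_right hσ.2
    have h := layer_bound hσ.1 hL hAnn (by positivity : (0 : ℝ) ≤ η / c₀) hc₁ hε
      (by positivity) (fun x hx => hed x (hsub hx)) he0 (fun x hx => hbound x (hsub hx))
    have hbound' : exp (L * σ) * (η / c₀ + A * σ + η / c₀ / c₁)
        ≤ E * (η * (1 / c₀ + r * S + 1 / (c₀ * c₁)) * (1 + M)) := by
      refine mul_le_mul (exp_le_exp.2 (mul_le_mul_of_nonneg_left hσ.2 hL)) ?_
        (by have := hσ.1; positivity) (by positivity)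
      rw [div_div, ← mul_one_div η c₀, ← mul_one_div η (c₀ * c₁)]
      exact layer_alg hAd hη0.le hM0 (by positivity) (by positivity) (by positivity) hσ.2
    have h3 := hvQ _ (hmem σ hσ)
    have h4 : z (σ / ε) - P σ = e σ - c₀⁻¹ • deriv z (σ / ε) := by
      simp only [he]
      abel
    rw [h4]
    refine (norm_sub_le _ _).trans ?_
    rw [norm_smul, norm_eq_abs, abs_of_pos (inv_pos.2 hc₀)]
    have h5 : c₀⁻¹ * ‖deriv z (σ / ε)‖ ≤ c₀⁻¹ * (η * q * (1 + M)) :=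
      mul_le_mul_of_nonneg_left h3 (inv_pos.2 hc₀).le
    have h6 : 0 ≤ η * q * (1 + M) := by positivity
    calc _ ≤ E * (η * (1 / c₀ + r * S + 1 / (c₀ * c₁)) * (1 + M))
          + c₀⁻¹ * (η * q * (1 + M)) + η * q * (1 + M) := by linarith
      _ = η * H * (1 + M) := by simp only [H]; ring
  have hqH : q ≤ H := by
    have : 0 ≤ E * (1 / c₀ + r * S + 1 / (c₀ * c₁)) + q / c₀ := by positivity
    simp only [H]
    linarith
  clear_value H E
  have hMb : M ≤ 2 * E + 1 := by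
    have h1 := hmem' sM hsM
    have h2 := hclose _ h1
    rw [mul_div_cancel_left₀ sM hε.ne'] at h2
    have h3 := norm_le_insert' (z sM) (P (ε * sM))
    have h4 := hPb _ h1
    nlinarith
  have hfin : η * H * (1 + M) ≤ δ := by
    refine le_trans ?_ hηδ
    have := mul_le_mul_of_nonneg_left (show 1 + M ≤ 2 * (E + 1) by linarith)
      (show 0 ≤ η * H by positivity)
    linarith
  refine ⟨(hclose S ⟨hS.le, le_rfl⟩).trans hfin, (hvQ T ⟨hT0, le_rfl⟩).trans (le_trans ?_ hfin)⟩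
  gcongr

end Vale.Agent.P225.Full
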