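import Vale.Agent.P225.Full.PulseWord
import Vale.Agent.P225.Full.PulseLimit
import Vale.Agent.Common.Brouwer

/-!
# The exact switch

From the slow pulse limit: near the limit, Brouwer's theorem finds pulse amplitudes whose end
value, measured by `Z + diag θ * Z'`, is exactly a positive multiple of the target.
-/

namespace Vale.Agent.P225.Full

open Filter Topology Set NormedSpace Metric Spec

namespace ExactPulseProof

open PulseWord

variable {D : ℕ}

/-- Square arrays with the supremum norm. -/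
abbrev Arr (D : ℕ) : Type := Fin D → Fin D → ℝ

/-- The unit array. -/
def unitArr (D : ℕ) : Arr D := fun a b => if a = b then 1 else 0

/-- Left multiplication of arrays. -/
noncomputable def mulL : Arr D →L[ℝ] Arr D →L[ℝ] Arr D :=
  LinearMap.mkContinuous₂
    ((LinearMap.mk₂ ℝ (fun (K z : Arr D) a b => ∑ i, K a i * z i b)
      (fun _ _ _ => by funext a b; simp [add_mul, Finset.sum_add_distrib])
      (fun _ _ _ => by funext a b; simp [Finset.mul_sum, mul_assoc])
      (fun _ _ _ => by funext a b; simp [mul_add, Finset.sum_add_distrib])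
      (fun _ _ _ => by funext a b; simp [Finset.mul_sum, mul_left_comm])) :
        Arr D →ₗ[ℝ] Arr D →ₗ[ℝ] Arr D)
    (D : ℝ) fun K z => by
      refine (pi_norm_le_iff_of_nonneg (by positivity)).2 fun a =>
        (pi_norm_le_iff_of_nonneg (by positivity)).2 fun b => ?_
      change ‖∑ i, K a i * z i b‖ ≤ _
      refine (norm_sum_le _ _).trans ((Finset.sum_le_card_nsmul _ _ (‖K‖ * ‖z‖) fun i _ => ?_).trans ?_)
      · rw [norm_mul]
        exact mul_le_mul ((norm_le_pi_norm _ i).trans (norm_le_pi_norm _ a))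
          ((norm_le_pi_norm _ b).trans (norm_le_pi_norm _ i)) (norm_nonneg _) (norm_nonneg _)
      · simp [mul_assoc]

lemma mulL_apply (K z : Arr D) (a b : Fin D) : mulL K z a b = ∑ i, K a i * z i b := rfl

lemma norm_mulL_le (K : Arr D) : ‖mulL K‖ ≤ D * ‖K‖ :=
  ((mulL (D := D)).le_opNorm K).trans
    (mul_le_mul_of_nonneg_right (LinearMap.mkContinuous₂_norm_le _ (by positivity) _) (norm_nonneg _))

lemma arr_norm_le {A : Arr D} {r : ℝ} (hr : 0 ≤ r) (h : ∀ a b, |A a b| ≤ r) : ‖A‖ ≤ r :=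
  (pi_norm_le_iff_of_nonneg hr).2 fun a => (pi_norm_le_iff_of_nonneg hr).2 fun b => h a b

lemma abs_arr_le (A : Arr D) (a b : Fin D) : |A a b| ≤ ‖A‖ :=
  (norm_le_pi_norm (A a) b).trans (norm_le_pi_norm A a)

/-- The generator of the second order system `Z'' + c Z' = ε K Z` on pairs `(Z, Z')`. -/
noncomputable def sysGen (ε : ℝ) (c : ℝ → ℝ) (K : ℝ → Arr D) (s : ℝ) :
    (Arr D × Arr D) →L[ℝ] (Arr D × Arr D) :=
  (ContinuousLinearMap.inl ℝ (Arr D) (Arr D)).comp (ContinuousLinearMap.snd ℝ (Arr D) (Arr D)) +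
    (ContinuousLinearMap.inr ℝ (Arr D) (Arr D)).comp
      (((-c s) • ContinuousLinearMap.snd ℝ (Arr D) (Arr D)) +
        (ε • mulL (K (ε * s))).comp (ContinuousLinearMap.fst ℝ (Arr D) (Arr D)))

lemma sysGen_apply (ε : ℝ) (c : ℝ → ℝ) (K : ℝ → Arr D) (s : ℝ) (z : Arr D × Arr D) :
    sysGen ε c K s z = (z.2, -(c s • z.2) + ε • mulL (K (ε * s)) z.1) := by
  simp [sysGen]

lemma continuous_sysGen {X : Type*} [TopologicalSpace X] (ε : ℝ) {c : ℝ → ℝ} (hc : Continuous c)
    {K : X → ℝ → Arr D} (hK : Continuous fun p : X × ℝ => K p.1 p.2) :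
    Continuous fun p : X × ℝ => sysGen ε c (K p.1) p.2 := by
  have hK' : Continuous fun p : X × ℝ => K p.1 (ε * p.2) :=
    hK.comp (continuous_fst.prodMk (continuous_const.mul continuous_snd))
  unfold sysGen
  refine continuous_const.add (continuous_const.clm_comp ?_)
  exact ((hc.comp continuous_snd).neg.smul continuous_const).add
    ((((mulL (D := D)).continuous.comp hK').const_smul ε).clm_comp continuous_const)

/-- One block: the end state as a continuous function of the amplitudes, close to the ideal word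
and shared by every solution with the same data. -/
lemma block (hPL : PulseLimit) {N : ℕ} (B : Fin N → Matrix (Fin D) (Fin D) ℝ) {w : ℝ → ℝ}
    (hw : Continuous w) (hw0 : ∀ s, s ≤ 0 ∨ 1 ≤ s → w s = 0)
    (hw1 : (∫ s in (0 : ℝ)..1, w s) = 1) {c₀ R : ℝ} (hc₀ : 0 < c₀) (hR : 0 ≤ R) :
    ∀ δ > 0, ∃ η > 0, ∀ (ε : ℝ) (c : ℝ → ℝ) (K : (Fin N → ℝ) → ℝ → Arr D) (V0 : Arr D),
      0 < ε → ε ≤ η → Continuous c → Continuous (fun p : (Fin N → ℝ) × ℝ => K p.1 p.2) →
      (∀ s ∈ Icc 0 ((N : ℝ) / ε), |c s - c₀| ≤ η) →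
      (∀ α : Fin N → ℝ, (∀ i, |α i| ≤ R) → ∀ s ∈ Icc 0 (N : ℝ), ∀ a b,
        |K α s a b - c₀ * ∑ i, α i * w (s - i) * B i a b| ≤ η) →
      (∀ a b, |V0 a b| ≤ η) →
      ∃ F : (Fin N → ℝ) → Arr D × Arr D, Continuous F ∧
        (∀ α, (∀ i, |α i| ≤ R) → ∀ a b,
          |(F α).1 a b - expProd (fun i => α i • B i) a b| ≤ δ ∧ |(F α).2 a b| ≤ δ) ∧
        ∀ (α : Fin N → ℝ) (Z : ℝ → Arr D), (∀ a b, ContDiff ℝ 2 fun s => Z s a b) →
          (∀ a b, Z 0 a b = (if a = b then 1 else 0) ∧ deriv (fun s => Z s a b) 0 = V0 a b) →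
          (∀ a b, ∀ s ∈ Icc 0 ((N : ℝ) / ε),
            deriv (deriv fun s => Z s a b) s + c s * deriv (fun s => Z s a b) s
              = ε * ∑ i, K α (ε * s) a i * Z s i b) →
          ∀ a b, Z ((N : ℝ) / ε) a b = (F α).1 a b ∧
            deriv (fun s => Z s a b) ((N : ℝ) / ε) = (F α).2 a b := by
  intro δ hδ
  obtain ⟨W₀, hW₀⟩ := (isCompact_Icc (a := (0 : ℝ)) (b := 1)).exists_bound_of_continuousOn
    hw.continuousOn
  have hW : ∀ x, |w x| ≤ max W₀ 0 := by
    intro x
    by_cases hx : x ≤ 0 ∨ 1 ≤ x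
    · simp [hw0 x hx]
    · push Not at hx
      exact (hW₀ x ⟨hx.1.le, hx.2.le⟩).trans (le_max_left _ _)
  let B' : Fin N → Arr D := fun i a b => B i a b
  set bound := D * (c₀ * ∑ i, R * max W₀ 0 * ‖B' i‖)
  obtain ⟨η, hη, hlim⟩ : ∃ η > 0, 0 < N → ∀ (ε : ℝ) (c : ℝ → ℝ)
      (K K₀ : ℝ → Arr D →L[ℝ] Arr D) (z P : ℝ → Arr D),
      0 < ε → ε ≤ η → Continuous c → Continuous K → Continuous K₀ →
      (∀ s ∈ Icc 0 ((N : ℝ) / ε), |c s - c₀| ≤ η) →
      (∀ σ ∈ Icc 0 (N : ℝ), ‖K₀ σ‖ ≤ bound ∧ ‖K σ - K₀ σ‖ ≤ η) →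
      ContDiff ℝ 2 z → ‖z 0‖ ≤ 1 → ‖deriv z 0‖ ≤ η →
      (∀ s ∈ Icc 0 ((N : ℝ) / ε),
        deriv (deriv z) s + c s • deriv z s = ε • K (ε * s) (z s)) →
      P 0 = z 0 → (∀ σ ∈ Icc 0 (N : ℝ), HasDerivAt P (c₀⁻¹ • K₀ σ (P σ)) σ) →
      ‖z ((N : ℝ) / ε) - P N‖ ≤ δ ∧ ‖deriv z ((N : ℝ) / ε)‖ ≤ δ := by
    rcases Nat.eq_zero_or_pos N with h | h
    · exact ⟨1, one_pos, fun h' => absurd h' (by omega)⟩
    · obtain ⟨η, hη, h'⟩ := hPL (Arr D) (N : ℝ) c₀ bound (by exact_mod_cast h) hc₀ δ hδ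
      exact ⟨η, hη, fun _ => h'⟩
  refine ⟨min η δ / (D + 1), by positivity,
    fun ε c K V0 hε hεη hc hK hcb hKb hV0 => ?_⟩
  have hη₁ : min η δ / ((D : ℝ) + 1) ≤ min η δ :=
    div_le_self (le_min hη.le hδ.le) (by linarith [Nat.cast_nonneg (α := ℝ) D])
  have hη' : min η δ / ((D : ℝ) + 1) ≤ η := hη₁.trans (min_le_left _ _)
  have hDη : (D : ℝ) * (min η δ / (D + 1)) ≤ η := by
    rw [mul_div_assoc', div_le_iff₀ (by positivity)]
    nlinarith [min_le_left η δ, le_min hη.le hδ.le]
  obtain ⟨A, hAeq⟩ : ∃ A : (Fin N → ℝ) → ℝ → (Arr D × Arr D) →L[ℝ] (Arr D × Arr D),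
      ∀ α s z, A α s z = (z.2, -(c s • z.2) + ε • mulL (K α (ε * s)) z.1) ∧
        A α s = sysGen ε c (K α) s :=
    ⟨fun α s => sysGen ε c (K α) s, fun α s z => ⟨sysGen_apply ε c (K α) s z, rfl⟩⟩
  have hA : Continuous fun p : (Fin N → ℝ) × ℝ => A p.1 p.2 := by
    have h := continuous_sysGen ε hc hK
    convert! h using 1
    funext p
    exact (hAeq p.1 p.2 0).2
  let z₀ : (Fin N → ℝ) → Arr D × Arr D := fun _ => (unitArr D, V0)
  have hz0 : Continuous z₀ := continuous_const
  set T := (N : ℝ) / ε with hT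
  refine ⟨fun α => ParamODE.sol A z₀ α T,
    (ParamODE.continuous_sol hA hz0).comp (continuous_id.prodMk continuous_const),
    fun α hα a b => ?_, fun α Z hZ hinit hode a b => ?_⟩
  · rcases Nat.eq_zero_or_pos N with hN | hN
    · subst hN
      have : T = 0 := by simp [T]
      simp only [this, ParamODE.sol_zero, z₀, unitArr, expProd, Matrix.one_apply, sub_self, abs_zero]
      exact ⟨hδ.le, (hV0 a b).trans (hη₁.trans (min_le_right _ _))⟩
    set f := ParamODE.sol A z₀ α
    have hf : ∀ s, HasDerivAt f ((f s).2, -(c s • (f s).2) + ε • mulL (K α (ε * s)) (f s).1) s := by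
      intro s
      simpa only [(hAeq _ _ _).1] using ParamODE.hasDerivAt_sol hA hz0 α s
    have h1 : ∀ s, HasDerivAt (fun s => (f s).1) (f s).2 s := fun s =>
      (ContinuousLinearMap.fst ℝ (Arr D) (Arr D)).hasFDerivAt.comp_hasDerivAt s (hf s)
    have h2 : ∀ s, HasDerivAt (fun s => (f s).2)
        (-(c s • (f s).2) + ε • mulL (K α (ε * s)) (f s).1) s := fun s =>
      (ContinuousLinearMap.snd ℝ (Arr D) (Arr D)).hasFDerivAt.comp_hasDerivAt s (hf s)
    have hfc : Continuous f := continuous_iff_continuousAt.2 fun s => (hf s).continuousAt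
    have hKα : Continuous fun s => K α s := hK.comp (Continuous.prodMk_right α)
    have hd1 : deriv (fun s => (f s).1) = fun s => (f s).2 := funext fun s => (h1 s).deriv
    have hd2 : deriv (fun s => (f s).2) =
        fun s => -(c s • (f s).2) + ε • mulL (K α (ε * s)) (f s).1 := funext fun s => (h2 s).deriv
    have hC2 : ContDiff ℝ 2 fun s => (f s).1 := by
      rw [show (2 : WithTop ℕ∞) = 1 + 1 from rfl, contDiff_succ_iff_deriv, hd1,
        contDiff_one_iff_deriv, hd2]
      refine ⟨fun s => (h1 s).differentiableAt, by simp, fun s => (h2 s).differentiableAt, ?_⟩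
      exact ((hc.smul (continuous_snd.comp hfc)).neg).add
        ((((mulL (D := D)).continuous.comp (hKα.comp (continuous_const.mul continuous_id))).clm_apply
          (continuous_fst.comp hfc)).const_smul ε)
    let P : ℝ → Arr D := fun s a b => (expProd fun i => (α i * bumpInt w (s - i)) • B i) a b
    have h := hlim hN ε c (fun s => mulL (K α s))
      (fun s => mulL (c₀ • ∑ i, (α i * w (s - i)) • B' i)) (fun s => (f s).1) P hε (hεη.trans hη')
      hc ((mulL (D := D)).continuous.comp hKα) ((mulL (D := D)).continuous.comp (by fun_prop))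
      (fun s hs => (hcb s hs).trans hη') (fun σ hσ => ⟨?_, ?_⟩) hC2 ?_ ?_ ?_ ?_ ?_
    · simp only [hd1] at h
      refine ⟨le_trans ?_ h.1, le_trans ?_ h.2⟩
      · refine le_trans ?_ (abs_arr_le ((f T).1 - P N) a b)
        simp only [P, path_end B α hw hw0 hw1]
        exact le_refl _
      · exact abs_arr_le (f T).2 a b
    · refine (norm_mulL_le _).trans (mul_le_mul_of_nonneg_left ?_ (by positivity))
      rw [norm_smul, Real.norm_of_nonneg hc₀.le]
      refine mul_le_mul_of_nonneg_left ((norm_sum_le _ _).trans (Finset.sum_le_sum fun i _ => ?_))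
        hc₀.le
      rw [norm_smul, norm_mul, Real.norm_eq_abs, Real.norm_eq_abs]
      exact mul_le_mul_of_nonneg_right (mul_le_mul (hα i) (hW _) (abs_nonneg _) hR) (norm_nonneg _)
    · rw [← map_sub]
      refine (norm_mulL_le _).trans ((mul_le_mul_of_nonneg_left (arr_norm_le (by positivity)
        fun a b => ?_) (by positivity)).trans hDη)
      simpa [B'] using hKb α hα σ hσ a b
    · simp only [f, ParamODE.sol_zero, z₀]
      exact arr_norm_le zero_le_one fun a b => by unfold unitArr; split_ifs <;> simp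
    · simp only [hd1, f, ParamODE.sol_zero, z₀]
      exact (arr_norm_le (by positivity) hV0).trans hη'
    · intro s _
      simp only [hd1, hd2]
      abel
    · funext a b
      simp only [f, ParamODE.sol_zero, z₀, P, unitArr, path_zero B α hw0, Matrix.one_apply]
    · intro σ _
      refine hasDerivAt_pi.2 fun a => hasDerivAt_pi.2 fun b => ?_
      refine (hasDerivAt_path_entry B α hw hw0 σ a b).congr_deriv ?_
      simp [mulL_apply, P, B', Matrix.mul_apply, Matrix.sum_apply, hc₀.ne', Finset.sum_apply]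
      simp only [Finset.sum_mul, Finset.mul_sum, mul_assoc]
      exact Finset.sum_comm
  · have hZ2 : ContDiff ℝ 2 Z := contDiff_pi.2 fun a => contDiff_pi.2 fun b => hZ a b
    have hZd : ∀ s, HasDerivAt Z (deriv Z s) s := fun s =>
      (hZ2.differentiable (by simp) s).hasDerivAt
    have hZdd : ∀ s, HasDerivAt (deriv Z) (deriv (deriv Z) s) s := fun s => by
      refine (ContDiff.differentiable (𝕜 := ℝ) (n := 1) ?_ one_ne_zero s).hasDerivAt
      have h := hZ2
      rw [show (2 : WithTop ℕ∞) = 1 + 1 from rfl, contDiff_succ_iff_deriv] at h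
      exact h.2.2
    have he : ∀ a b, deriv (fun s => Z s a b) = fun s => deriv Z s a b := fun a b =>
      funext fun s => (hasDerivAt_pi.1 (hasDerivAt_pi.1 (hZd s) a) b).deriv
    have heq : ∀ s ∈ Icc 0 T,
        deriv (deriv Z) s = -(c s • deriv Z s) + ε • mulL (K α (ε * s)) (Z s) := by
      intro s hs
      ext i j
      have h := hode i j s hs
      rw [he i j, (hasDerivAt_pi.1 (hasDerivAt_pi.1 (hZdd s) i) j).deriv] at h
      simp only [Pi.add_apply, Pi.neg_apply, Pi.smul_apply, smul_eq_mul, mulL_apply]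
      linarith
    have hTT : (T : ℝ) ∈ Icc 0 T := ⟨by positivity, le_refl _⟩
    have hAα : Continuous (A α) := hA.comp (Continuous.prodMk_right α)
    have hE : (Z T, deriv Z T) = ParamODE.sol A z₀ α T := by
      refine ParamODE.eqOn_of_deriv hAα (f := fun s => (Z s, deriv Z s))
        (g := fun s => ParamODE.sol A z₀ α s) (fun s hs => ?_)
        (fun s _ => ParamODE.hasDerivAt_sol hA hz0 α s) ?_ hTT
      · rw [(hAeq α s (Z s, deriv Z s)).1, ← heq s hs]
        exact (hZd s).prodMk (hZdd s)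
      · simp only [ParamODE.sol_zero, z₀, Prod.mk.injEq]
        refine ⟨?_, ?_⟩ <;> funext i j
        · simpa [unitArr] using (hinit i j).1
        · rw [← (hinit i j).2, he i j]
    refine ⟨congrFun (congrFun (congrArg Prod.fst hE) a) b, ?_⟩
    rw [he a b]
    exact congrFun (congrFun (congrArg Prod.snd hE) a) b

end ExactPulseProof

open ExactPulseProof PulseWord in
/-- The exact switch follows from the slow pulse limit. -/
theorem exactPulse_of (hPL : PulseLimit) : ExactPulse := by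
  intro ι _ D N B T ρ σ w c₀ θmax hρ hdet hc₀ hw hw0 hw1 hσ hsec
  let Box : Type := ∀ l, Fin (D l) → Fin (D l) → ℝ
  let T' : Box := fun l a b => T l a b
  set S : Set Box := closedBall T' ρ
  have hmem : ∀ X : Box, X ∈ S ↔ ∀ l a b, |X l a b - T l a b| ≤ ρ := by
    intro X
    simp [S, dist_pi_le_iff hρ.le, Real.dist_eq, T']
  have hS : IsCompact S := isCompact_closedBall _ _
  have hσc : ContinuousOn (fun X : Box => σ X) S := continuousOn_pi.2 fun i => by
    refine (hσ i).congr (fun X _ => rfl) |>.mono ?_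
    intro X hX
    exact (hmem X).1 hX
  let G : Box → ∀ l, Matrix (Fin (D l)) (Fin (D l)) ℝ := fun X l => expProd fun i => σ X i • B l i
  -- the positive multiple, in closed form
  let cf : Box → ι → ℝ := fun X l =>
    if D l = 0 then 1 else (∑ a, ∑ b, G X l a b * X l a b) / ∑ a, ∑ b, X l a b ^ 2
  have hcf : ∀ X ∈ S, ∀ l, 0 < cf X l ∧ (∀ a b, G X l a b = cf X l * X l a b) ∧
      (D l ≠ 0 → 0 < ∑ a, ∑ b, X l a b ^ 2) := by
    intro X hX l
    obtain ⟨c, hc, hcX⟩ := hsec X ((hmem X).1 hX) l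
    have hG : ∀ a b, G X l a b = c * X l a b := fun a b => by
      change expProd (fun i => σ X i • B l i) a b = _
      rw [hcX]; rfl
    by_cases hD : D l = 0
    · refine ⟨by simp [cf, hD], fun a => absurd a.2 (by simp [hD]), fun h => absurd hD h⟩
    have hne : 0 < ∑ a, ∑ b, X l a b ^ 2 := by
      obtain ⟨a₀⟩ : Nonempty (Fin (D l)) := Fin.pos_iff_nonempty.1 (Nat.pos_of_ne_zero hD)
      refine (Finset.sum_nonneg fun a _ => Finset.sum_nonneg fun b _ => sq_nonneg _).lt_of_ne' ?_
      intro h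
      have hz : ∀ a b, X l a b = 0 := fun a b => by
        have h' := (Finset.sum_eq_zero_iff_of_nonneg
          (fun a _ => Finset.sum_nonneg fun b _ => sq_nonneg _)).1 h a (Finset.mem_univ _)
        exact pow_eq_zero_iff two_ne_zero |>.1
          ((Finset.sum_eq_zero_iff_of_nonneg fun b _ => sq_nonneg _).1 h' b (Finset.mem_univ _))
      have hu : IsUnit (G X l) := isUnit_expProd _
      have h0 : G X l = 0 := by ext a b; simp [hG, hz]
      have : Nonempty (Fin (D l)) := ⟨a₀⟩
      exact not_isUnit_zero (h0 ▸ hu)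
    have hcc : cf X l = c := by
      simp only [cf, hD, if_false, hG, mul_assoc, ← Finset.mul_sum, ← sq]
      field_simp
    exact ⟨hcc ▸ hc, fun a b => hcc ▸ hG a b, fun _ => hne⟩
  have hcfc : ∀ l, ContinuousOn (fun X => cf X l) S := by
    intro l
    by_cases hD : D l = 0
    · simpa [cf, hD] using continuousOn_const
    simp only [cf, hD, if_false]
    have hGc : ContinuousOn (fun X => G X l) S :=
      (continuous_expProd (fun i => (continuous_apply i).smul continuous_const)).comp_continuousOn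
        hσc
    refine ContinuousOn.div ?_ (Continuous.continuousOn ?_) fun X hX => ((hcf X hX l).2.2 hD).ne'
    · exact continuousOn_finsetSum _ fun a _ => continuousOn_finsetSum _ fun b _ =>
        ((continuous_apply_apply a b).comp_continuousOn hGc).mul (by fun_prop)
    · fun_prop
  obtain ⟨R₁, hR₁⟩ := hS.exists_bound_of_continuousOn hσc
  obtain ⟨R₂, hR₂⟩ := hS.exists_bound_of_continuousOn (continuousOn_pi.2 hcfc)
  obtain ⟨R₃, hR₃⟩ := hS.exists_bound_of_continuousOn
    (continuousOn_pi.2 fun l => (hcfc l).inv₀ fun X hX => (hcf X hX l).1.ne')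
  set R := max (max R₁ R₂) (max R₃ 1)
  have hR : 0 < R := lt_of_lt_of_le one_pos ((le_max_right _ _).trans (le_max_right _ _))
  have hσR : ∀ X ∈ S, ∀ i, |σ X i| ≤ R := fun X hX i => by
    rw [← Real.norm_eq_abs]
    exact ((norm_le_pi_norm _ i).trans (hR₁ X hX)).trans
      ((le_max_left _ _).trans (le_max_left _ _))
  have hcfR : ∀ X ∈ S, ∀ l, cf X l ≤ R ∧ (cf X l)⁻¹ ≤ R := fun X hX l =>
    ⟨((le_abs_self _).trans ((norm_le_pi_norm (cf X) l).trans (hR₂ X hX))).trans
        ((le_max_right _ _).trans (le_max_left _ _)),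
      ((le_abs_self _).trans ((norm_le_pi_norm (fun l => (cf X l)⁻¹) l).trans (hR₃ X hX))).trans
        ((le_max_left _ _).trans (le_max_right _ _))⟩
  refine ⟨R, hR, fun δ hδ => ?_⟩
  set δ₁ := min δ (ρ / (R * (1 + max θmax 0))) with hδ₁
  have hδ₁0 : 0 < δ₁ := lt_min hδ (by positivity)
  choose η hη hblock using fun l => block hPL (B l) hw hw0 hw1 (hc₀ l) hR.le δ₁ hδ₁0
  obtain ⟨η₀, hη₀, hle⟩ : ∃ e > 0, ∀ l, e ≤ η l := by
    rcases isEmpty_or_nonempty ι with h | h
    · exact ⟨1, one_pos, fun l => (h.false l).elim⟩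
    · obtain ⟨l₀, hl₀⟩ := Finite.exists_min η
      exact ⟨η l₀, hη l₀, hl₀⟩
  refine ⟨η₀, hη₀, fun ε c K V0 θ hε hεη hc hK hcb hKb hV0 hθ => ?_⟩
  choose F hFc hFclose hFZ using fun l => hblock l ε (c l) (fun α s a b => K l α s a b)
    (fun a b => V0 l a b) hε (hεη.trans (hle l)) (hc l)
    (continuous_pi fun a => continuous_pi fun b => (continuous_apply_apply a b).comp (hK l))
    (fun s hs => (hcb l s hs).trans (hle l))
    (fun α hα s hs a b => (hKb l α hα s hs a b).trans (hle l))
    (fun a b => (hV0 l a b).trans (hle l))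
  let E : (Fin N → ℝ) → Box := fun α l a b => (F l α).1 a b + θ l a * (F l α).2 a b
  have hEc : Continuous E := continuous_pi fun l => continuous_pi fun a => continuous_pi fun b =>
    ((continuous_apply_apply a b).comp (continuous_fst.comp (hFc l))).add
      (continuous_const.mul ((continuous_apply_apply a b).comp (continuous_snd.comp (hFc l))))
  let f : Box → Box := fun X l a b => X l a b - ((cf X l)⁻¹ * E (σ X) l a b - T l a b)
  have hfc : ContinuousOn f S := continuousOn_pi.2 fun l => continuousOn_pi.2 fun a =>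
    continuousOn_pi.2 fun b => by
      refine ContinuousOn.sub (Continuous.continuousOn (by fun_prop)) (ContinuousOn.sub
        (ContinuousOn.mul ((hcfc l).inv₀ fun X hX => (hcf X hX l).1.ne') ?_) continuousOn_const)
      exact ((continuous_apply b).comp ((continuous_apply a).comp ((continuous_apply l).comp
        hEc))).comp_continuousOn hσc
  obtain ⟨X, hX, hfix⟩ := Common.Brouwer.exists_fixed hS (convex_closedBall _ _)
    ⟨T', mem_closedBall_self hρ.le⟩ hfc (fun X hX => (hmem _).2 fun l a b => by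
      obtain ⟨hpos, hG, -⟩ := hcf X hX l
      have hXG : X l a b = (cf X l)⁻¹ * G X l a b := by
        rw [hG a b, ← mul_assoc, inv_mul_cancel₀ hpos.ne', one_mul]
      have e : f X l a b - T l a b =
          (cf X l)⁻¹ * ((G X l a b - (F l (σ X)).1 a b) - θ l a * (F l (σ X)).2 a b) := by
        simp only [f, E]
        rw [hXG]
        ring
      rw [e, abs_mul, abs_of_pos (inv_pos.2 hpos)]
      obtain ⟨h1, h2⟩ := hFclose l _ (hσR X hX) a b
      have h1' : |G X l a b - (F l (σ X)).1 a b| ≤ δ₁ := by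
        rw [abs_sub_comm]
        exact h1
      have h2' : |θ l a * (F l (σ X)).2 a b| ≤ max θmax 0 * δ₁ := by
        rw [abs_mul, abs_of_nonneg (hθ l a).1]
        exact mul_le_mul ((hθ l a).2.trans (le_max_left _ _)) h2 (abs_nonneg _) (le_max_right _ _)
      calc (cf X l)⁻¹ * |G X l a b - (F l (σ X)).1 a b - θ l a * (F l (σ X)).2 a b|
          ≤ R * (δ₁ + max θmax 0 * δ₁) := mul_le_mul (hcfR X hX l).2
            ((abs_sub _ _).trans (add_le_add h1' h2')) (abs_nonneg _) hR.le
        _ = δ₁ * (R * (1 + max θmax 0)) := by ring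
        _ ≤ ρ := (le_div_iff₀ (by positivity)).1 (min_le_right _ _))
  refine ⟨σ X, hσR X hX, fun Z hZ hinit hode l => ?_⟩
  obtain ⟨hpos, -, -⟩ := hcf X hX l
  refine ⟨cf X l, inv_le_of_inv_le₀ hpos (hcfR X hX l).2, (hcfR X hX l).1, fun a b => ?_⟩
  obtain ⟨hv, hd⟩ := hFZ l (σ X) (fun s a b => Z l s a b) (hZ l) (hinit l) (hode l) a b
  rw [hv, hd]
  refine ⟨?_, (hFclose l _ (hσR X hX) a b).2.trans (min_le_left _ _)⟩
  have h := congrFun (congrFun (congrFun hfix l) a) b
  simp only [f, sub_eq_self, sub_eq_zero] at h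
  rw [show E (σ X) l a b = (F l (σ X)).1 a b + θ l a * (F l (σ X)).2 a b from rfl] at h
  rw [← h, ← mul_assoc, mul_inv_cancel₀ hpos.ne', one_mul]

/-- The exact switch. -/
theorem exactPulse : ExactPulse := exactPulse_of pulseLimit

end Vale.Agent.P225.Full
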