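import Vale.Agent.P225.Full.LaplaceBase

/-! # The Laplacian of the model metrics on modes -/

namespace Vale.Agent.P225.Full.Lap

open MvPolynomial Matrix Filter Topology

variable {n : ℕ} {J : Matrix (Fin n) (Fin n) ℝ} {x : Coord n} {a b c : ℝ}

theorem con_transpose (M : Fin n → Fin n → ℝ) :
    con J x a b c (fun i j => M j i) = con J x a b c M := by
  unfold con
  rw [Finset.sum_comm]
  refine Finset.sum_congr rfl fun i _ => Finset.sum_congr rfl fun j _ => ?_
  by_cases h : i = j
  · subst h; ring
  · simp [h, Ne.symm h]; left; ring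

theorem con_sum {ι : Type*} (s : Finset ι) (M : ι → Fin n → Fin n → ℝ) :
    con J x a b c (fun i j => ∑ m ∈ s, M m i j) = ∑ m ∈ s, con J x a b c (M m) := by
  unfold con
  simp only [Finset.mul_sum]
  rw [Finset.sum_comm (s := s)]
  refine Finset.sum_congr rfl fun i _ => ?_
  rw [Finset.sum_comm]

theorem con_u (hJ : IsCS J) (v : Fin n → ℝ) :
    con J x a b c (fun i j => jv J x i * v j) = (a + c * nsq x) * ∑ i, jv J x i * v i := by
  rw [con_outer, sum_x_jv hJ, sum_jv_sq hJ]
  ring

theorem con_u' (hJ : IsCS J) (v : Fin n → ℝ) :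
    con J x a b c (fun i j => v i * jv J x j) = (a + c * nsq x) * ∑ i, jv J x i * v i := by
  rw [← con_u (b := b) hJ v, ← con_transpose]
  exact con_congr fun i j => mul_comm _ _

theorem con_skew (hJ : IsCS J) : con J x a b c (fun i j => J j i) = 0 := by
  rw [con_split]
  have h1 : ∑ i, J i i = 0 := Finset.sum_eq_zero fun i _ => jv_diag hJ i
  have h2 : ∑ i, ∑ j, x i * x j * J j i = 0 := by
    have : ∀ i, ∑ j, x i * x j * J j i = -(x i * jv J x i) := fun i => by
      rw [← mul_neg, ← jv_col hJ, Finset.mul_sum]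
      exact Finset.sum_congr rfl fun j _ => by ring
    simp only [this, Finset.sum_neg_distrib, sum_x_jv hJ, neg_zero]
  have h3 : ∑ i, ∑ j, jv J x i * jv J x j * J j i = 0 := by
    have : ∀ i, ∑ j, jv J x i * jv J x j * J j i = x i * jv J x i := fun i => by
      rw [mul_comm (x i), ← jv_jv_col hJ x i, Finset.mul_sum]
      exact Finset.sum_congr rfl fun j _ => by ring
    simp only [this, sum_x_jv hJ]
  rw [h1, h2, h3]
  ring

theorem sum_ite_mul (v : Fin n → ℝ) (m : Fin n) :
    ∑ i, v i * (if i = m then 1 else 0) = v m := by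
  simp

theorem sum_ite_mul' (v : Fin n → ℝ) (m : Fin n) :
    ∑ i, v i * (if m = i then 1 else 0) = v m := by
  simp

theorem trace_contr (hJ : IsCS J) (e w : ℝ) (hab : a + b * nsq x = 1)
    (hac : a + c * nsq x = e) (dA dB B dC C : ℝ) (m : Fin n) :
    con J x a b c (fun i j =>
      dA * (x m * w) * (if i = j then 1 else 0) + dB * (x m * w) * (x i * x j)
        + B * ((if i = m then 1 else 0) * x j) + B * (x i * (if j = m then 1 else 0))
        + dC * (x m * w) * (jv J x i * jv J x j)
        + C * (J i m * jv J x j) + C * (jv J x i * J j m))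
      = x m * (dA * w * (n * a + b * nsq x + c * nsq x) + dB * w * nsq x + 2 * B
          + dC * w * e * nsq x + 2 * C * e) := by
  simp only [con_add, con_smul]
  rw [con_delta hJ, con_x' hJ (fun i => if i = m then 1 else 0),
    con_x hJ (fun j => if j = m then 1 else 0), con_x hJ (fun j => x j),
    con_u hJ (fun j => jv J x j), con_u' hJ (fun i => J i m), con_u hJ (fun j => J j m)]
  rw [sum_ite_mul, sum_jv_sq hJ, jv_jv_col hJ, hab, hac]
  have h : ∑ i, x i * x i = nsq x := by simp [nsq, sq]
  rw [h]
  ring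

theorem div_contr (hJ : IsCS J) (e w : ℝ) (hab : a + b * nsq x = 1)
    (hac : a + c * nsq x = e) (dA dB B dC C : ℝ) (m : Fin n) :
    con J x a b c (fun i j =>
      (dA * w) * (x i * (if j = m then 1 else 0)) + dB * (x m * w) * (x i * x j)
        + B * x m * (if i = j then 1 else 0) + B * ((if m = i then 1 else 0) * x j)
        + dC * w * jv J x m * (x i * jv J x j)
        + C * jv J x m * J j i + C * (J m i * jv J x j))
      = x m * (dA * w + dB * w * nsq x + B * (n * a + b * nsq x + c * nsq x + 1) - C * e) := by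
  simp only [con_add, con_smul]
  rw [con_delta hJ, con_x hJ (fun j => if j = m then 1 else 0), con_x hJ (fun j => x j),
    con_x' hJ (fun i => if m = i then 1 else 0), con_x hJ (fun j => jv J x j), con_skew hJ,
    con_u' hJ (fun i => J m i)]
  have h : ∑ i, x i * x i = nsq x := by simp [nsq, sq]
  have h2 : ∑ i, jv J x i * J m i = -x m := by
    rw [← jv_jv hJ x m]
    exact Finset.sum_congr rfl fun i _ => mul_comm _ _
  rw [sum_ite_mul, sum_ite_mul', sum_x_jv hJ, h, h2, hab, hac]
  ring

theorem mul_inv_entries (hJ : IsCS J) {A B C : ℝ} (hA : A * a = 1)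
    (hab : (A + B * nsq x) * b + B * a = 0) (hac : (A + C * nsq x) * c + C * a = 0) :
    (Matrix.of fun i j => A * (if i = j then 1 else 0) + B * (x i * x j)
        + C * (jv J x i * jv J x j))⁻¹
      = Matrix.of fun i j => a * (if i = j then 1 else 0) + b * (x i * x j)
        + c * (jv J x i * jv J x j) := by
  refine Matrix.inv_eq_right_inv ?_
  ext i k
  simp only [Matrix.mul_apply, Matrix.of_apply, Matrix.one_apply]
  have hxx : ∑ j, x j * x j = nsq x := by simp [nsq, sq]
  have e : ∀ j, (A * (if i = j then 1 else 0) + B * (x i * x j) + C * (jv J x i * jv J x j))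
      * (a * (if j = k then 1 else 0) + b * (x j * x k) + c * (jv J x j * jv J x k))
      = (A * a) * ((if i = j then 1 else 0) * (if j = k then 1 else 0))
        + A * b * x k * ((if i = j then 1 else 0) * x j)
        + A * c * jv J x k * ((if i = j then 1 else 0) * jv J x j)
        + B * a * x i * (x j * (if j = k then 1 else 0))
        + B * b * x i * x k * (x j * x j)
        + B * c * x i * jv J x k * (x j * jv J x j)
        + C * a * jv J x i * (jv J x j * (if j = k then 1 else 0))
        + C * b * jv J x i * x k * (x j * jv J x j)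
        + C * c * jv J x i * jv J x k * (jv J x j * jv J x j) := fun j => by ring
  rw [Finset.sum_congr rfl fun j _ => e j]
  simp only [Finset.sum_add_distrib, ← Finset.mul_sum, hxx, sum_x_jv hJ, sum_jv_sq hJ, sum_ite_mul]
  simp only [ite_mul, one_mul, zero_mul, Finset.sum_ite_eq, Finset.mem_univ, if_true]
  rw [hA]
  linear_combination (x i * x k) * hab + (jv J x i * jv J x k) * hac

/-- The metric coefficient of the identity. -/
noncomputable def cA (P : Profile n) (s : ℝ) : ℝ := Real.exp (2 * P.q s)

/-- The metric coefficient of `x xᵀ`. -/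
noncomputable def cB (P : Profile n) (s : ℝ) : ℝ :=
  (1 - Real.exp (2 * P.q s)) * Real.exp (-2 * s)

/-- The metric coefficient of `(J x) (J x)ᵀ`. -/
noncomputable def cC (P : Profile n) (s : ℝ) : ℝ :=
  (Real.exp (2 * P.p s) - Real.exp (2 * P.q s)) * Real.exp (-2 * s)

theorem metric_eventually {P : Profile n} (hP : P.Adm) {x : Coord n} (hx : x ≠ 0) :
    ∀ᶠ y in 𝓝 x, ∀ i j, P.metric y i j = cA P (logRad y) * (if i = j then 1 else 0)
      + cB P (logRad y) * (y i * y j)
      + cC P (logRad y) * (jv (P.J (logRad x)) y i * jv (P.J (logRad x)) y j) := by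
  have hc : ContinuousAt (logRad (n := n)) x := (diffAt_logRad hx).continuousAt
  have hne := eventually_ne hx
  have key : ∀ (y : Coord n), y ≠ 0 →
      (P.J (logRad y) = P.J (logRad x) ∨ P.p (logRad y) = P.q (logRad y)) →
      ∀ i j, P.metric y i j = cA P (logRad y) * (if i = j then 1 else 0)
        + cB P (logRad y) * (y i * y j)
        + cC P (logRad y) * (jv (P.J (logRad x)) y i * jv (P.J (logRad x)) y j) := by
    intro y hy hor i j
    simp only [Profile.metric, if_neg hy, cA, cB, cC, exp_neg_logRad hy, rad_sq, jv_eq]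
    rcases hor with h | h
    · rw [h]; ring
    · rw [h]; ring
  rcases hP.local_J (logRad x) with h | h
  · filter_upwards [hc.eventually h, hne] with y hy hy0
    exact key y hy0 (Or.inl hy)
  · filter_upwards [hc.eventually h, hne] with y hy hy0
    exact key y hy0 (Or.inr hy)

theorem metric_inv {P : Profile n} (hP : P.Adm) {x : Coord n} (hx : x ≠ 0) (i j : Fin n) :
    (P.metric x)⁻¹ i j = Real.exp (-2 * P.q (logRad x)) * (if i = j then 1 else 0)
      + (1 - Real.exp (-2 * P.q (logRad x))) / nsq x * (x i * x j)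
      + (Real.exp (-2 * P.p (logRad x)) - Real.exp (-2 * P.q (logRad x))) / nsq x *
          (jv (P.J (logRad x)) x i * jv (P.J (logRad x)) x j) := by
  have hev := (metric_eventually hP hx).self_of_nhds
  have hS := (nsq_pos hx).ne'
  set t := logRad x with ht
  have hm : P.metric x = Matrix.of fun i j => cA P t * (if i = j then 1 else 0)
      + cB P t * (x i * x j) + cC P t * (jv (P.J t) x i * jv (P.J t) x j) := by
    ext i j
    exact hev i j
  have hq : Real.exp (2 * P.q t) * Real.exp (-2 * P.q t) = 1 := by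
    rw [← Real.exp_add]; simp
  have hp : Real.exp (2 * P.p t) * Real.exp (-2 * P.p t) = 1 := by
    rw [← Real.exp_add]; simp
  rw [hm, mul_inv_entries (hP.cs t) (A := cA P t) (B := cB P t) (C := cC P t)
    (a := Real.exp (-2 * P.q t)) (b := (1 - Real.exp (-2 * P.q t)) / nsq x)
    (c := (Real.exp (-2 * P.p t) - Real.exp (-2 * P.q t)) / nsq x) hq ?_ ?_]
  · rfl
  · rw [cA, cB, ht, exp_neg_logRad hx]
    rw [← ht]
    generalize Real.exp (-2 * P.q t) = ea at hq ⊢
    field_simp
    linear_combination -hq
  · rw [cA, cC, ht, exp_neg_logRad hx]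
    rw [← ht]
    generalize Real.exp (-2 * P.q t) = ea at hq ⊢
    generalize Real.exp (-2 * P.p t) = ee at hp ⊢
    field_simp
    linear_combination hp - hq

theorem hasDeriv_expTwo {f : ℝ → ℝ} (hf : ContDiff ℝ (⊤ : ℕ∞) f) (s : ℝ) :
    HasDerivAt (fun s => Real.exp (2 * f s)) (2 * deriv f s * Real.exp (2 * f s)) s := by
  have h1 : HasDerivAt f (deriv f s) s :=
    ((hf.differentiable (by simp)).differentiableAt).hasDerivAt
  exact (h1.const_mul 2).exp.congr_deriv (by ring)

theorem hasDeriv_expLin (r s : ℝ) :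
    HasDerivAt (fun s => Real.exp (r * s)) (r * Real.exp (r * s)) s := by
  exact ((hasDerivAt_id s).const_mul r).exp.congr_deriv (by simp [mul_comm])

theorem hasDeriv_cA {P : Profile n} (hP : P.Adm) (s : ℝ) :
    HasDerivAt (cA P) (2 * deriv P.q s * Real.exp (2 * P.q s)) s :=
  hasDeriv_expTwo hP.smooth_q s

theorem hasDeriv_cB {P : Profile n} (hP : P.Adm) (s : ℝ) :
    HasDerivAt (cB P) ((-(2 * deriv P.q s * Real.exp (2 * P.q s))
      - 2 * (1 - Real.exp (2 * P.q s))) * Real.exp (-2 * s)) s :=
  (((hasDeriv_expTwo hP.smooth_q s).const_sub 1).mul (hasDeriv_expLin (-2) s)).congr_deriv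
    (by ring)

theorem hasDeriv_cC {P : Profile n} (hP : P.Adm) (s : ℝ) :
    HasDerivAt (cC P) ((2 * deriv P.p s * Real.exp (2 * P.p s)
      - 2 * deriv P.q s * Real.exp (2 * P.q s)
      - 2 * (Real.exp (2 * P.p s) - Real.exp (2 * P.q s))) * Real.exp (-2 * s)) s :=
  (((hasDeriv_expTwo hP.smooth_p s).sub (hasDeriv_expTwo hP.smooth_q s)).mul
    (hasDeriv_expLin (-2) s)).congr_deriv (by simp only [Pi.sub_apply]; ring)

theorem pd_metric {P : Profile n} (hP : P.Adm) {x : Coord n} (hx : x ≠ 0) (m i j : Fin n) :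
    pd m (fun y => P.metric y i j) x =
      deriv (cA P) (logRad x) * (x m / nsq x) * (if i = j then 1 else 0)
      + deriv (cB P) (logRad x) * (x m / nsq x) * (x i * x j)
      + cB P (logRad x) * ((if i = m then 1 else 0) * x j + x i * (if j = m then 1 else 0))
      + deriv (cC P) (logRad x) * (x m / nsq x) *
          (jv (P.J (logRad x)) x i * jv (P.J (logRad x)) x j)
      + cC P (logRad x) * (P.J (logRad x) i m * jv (P.J (logRad x)) x j
          + jv (P.J (logRad x)) x i * P.J (logRad x) j m) := by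
  set J0 := P.J (logRad x)
  rw [pd_congr ((metric_eventually hP hx).mono fun y hy => hy i j) m]
  have hl := diffAt_logRad hx
  have dA : DifferentiableAt ℝ (fun y => cA P (logRad y)) x :=
    (hasDeriv_cA hP _).differentiableAt.comp x hl
  have dB : DifferentiableAt ℝ (fun y => cB P (logRad y)) x :=
    (hasDeriv_cB hP _).differentiableAt.comp x hl
  have dC : DifferentiableAt ℝ (fun y => cC P (logRad y)) x :=
    (hasDeriv_cC hP _).differentiableAt.comp x hl
  have dx : ∀ k, DifferentiableAt ℝ (fun y : Coord n => y k) x := fun k => differentiableAt_apply k x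
  have du : ∀ k, DifferentiableAt ℝ (fun y => jv J0 y k) x := fun k => diffAt_jv J0 x k
  have dk : DifferentiableAt ℝ (fun _ : Coord n => (if i = j then (1 : ℝ) else 0)) x :=
    differentiableAt_const _
  rw [pd_add ((dA.fun_mul dk).fun_add (dB.fun_mul ((dx i).fun_mul (dx j))))
      (dC.fun_mul ((du i).fun_mul (du j))),
    pd_add (dA.fun_mul dk) (dB.fun_mul ((dx i).fun_mul (dx j))),
    pd_mul dA dk, pd_mul dB ((dx i).fun_mul (dx j)), pd_mul dC ((du i).fun_mul (du j)),
    pd_mul (dx i) (dx j), pd_mul (du i) (du j), pd_const, pd_coord, pd_coord, pd_jv, pd_jv,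
    pd_radial hx (hasDeriv_cA hP _).differentiableAt.hasDerivAt,
    pd_radial hx (hasDeriv_cB hP _).differentiableAt.hasDerivAt,
    pd_radial hx (hasDeriv_cC hP _).differentiableAt.hasDerivAt]
  ring

/-- The coefficient of the first order part of the Laplacian. -/
theorem drift_contr {m : ℕ} {P : Profile (2 * m + 2)} (hP : P.Adm) {x : Coord (2 * m + 2)}
    (hx : x ≠ 0) (k : Fin (2 * m + 2)) :
    con (P.J (logRad x)) x (Real.exp (-2 * P.q (logRad x)))
      ((1 - Real.exp (-2 * P.q (logRad x))) / nsq x)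
      ((Real.exp (-2 * P.p (logRad x)) - Real.exp (-2 * P.q (logRad x))) / nsq x)
      (fun i j => christoffel P.metric k i j x)
    = (2 * m * (Real.exp (-2 * P.q (logRad x)) - 1) + (Real.exp (-2 * P.p (logRad x)) - 1)
        - 2 * m * deriv P.q (logRad x) - deriv P.p (logRad x)) * (x k / nsq x) := by
  set t := logRad x with ht
  set J0 := P.J t with hJ0
  set a := Real.exp (-2 * P.q t) with ha
  set b := (1 - a) / nsq x with hb
  set c := (Real.exp (-2 * P.p t) - a) / nsq x with hc
  have hJ : IsCS J0 := hP.cs t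
  have hS := (nsq_pos hx).ne'
  have hab : a + b * nsq x = 1 := by rw [hb]; field_simp; ring
  have hac : a + c * nsq x = Real.exp (-2 * P.p t) := by rw [hc]; field_simp; ring
  have hq : Real.exp (2 * P.q t) * a = 1 := by rw [ha, ← Real.exp_add]; simp
  have hp : Real.exp (2 * P.p t) * Real.exp (-2 * P.p t) = 1 := by rw [← Real.exp_add]; simp
  have hG : ∀ i j, (P.metric x)⁻¹ i j = a * (if i = j then 1 else 0) + b * (x i * x j)
      + c * (jv J0 x i * jv J0 x j) := metric_inv hP hx
  have hT : ∀ q, con J0 x a b c (fun i j => pd q (fun y => P.metric y i j) x)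
      = x q / nsq x * (4 * m * deriv P.q t + 2 * deriv P.p t) := by
    intro q
    rw [con_congr (N := fun i j =>
      deriv (cA P) t * (x q * (nsq x)⁻¹) * (if i = j then 1 else 0)
        + deriv (cB P) t * (x q * (nsq x)⁻¹) * (x i * x j)
        + cB P t * ((if i = q then 1 else 0) * x j) + cB P t * (x i * (if j = q then 1 else 0))
        + deriv (cC P) t * (x q * (nsq x)⁻¹) * (jv J0 x i * jv J0 x j)
        + cC P t * (J0 i q * jv J0 x j) + cC P t * (jv J0 x i * J0 j q))
      fun i j => by rw [pd_metric hP hx, ← ht, ← hJ0]; ring]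
    rw [trace_contr hJ (Real.exp (-2 * P.p t)) _ hab hac, (hasDeriv_cA hP t).deriv,
      (hasDeriv_cB hP t).deriv, (hasDeriv_cC hP t).deriv, cB, cC, exp_neg_logRad hx, hb, hc]
    generalize Real.exp (-2 * P.p t) = ee at hp ⊢
    push_cast
    field_simp
    linear_combination (4 * (m : ℝ) * deriv P.q t * x q) * hq + (2 * deriv P.p t * x q) * hp
  have hD : ∀ q, con J0 x a b c (fun i j => pd i (fun y => P.metric y j q) x)
      = x q / nsq x * (2 * m * (a - 1) + (Real.exp (-2 * P.p t) - 1)) := by
    intro q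
    rw [con_congr (N := fun i j =>
      (deriv (cA P) t * (nsq x)⁻¹) * (x i * (if j = q then 1 else 0))
        + deriv (cB P) t * (x q * (nsq x)⁻¹) * (x i * x j)
        + cB P t * x q * (if i = j then 1 else 0)
        + cB P t * ((if q = i then 1 else 0) * x j)
        + deriv (cC P) t * (nsq x)⁻¹ * jv J0 x q * (x i * jv J0 x j)
        + cC P t * jv J0 x q * J0 j i + cC P t * (J0 q i * jv J0 x j))
      fun i j => by
        rw [pd_metric hP hx, ← ht, ← hJ0]
        simp only [@eq_comm _ j i]
        ring]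
    rw [div_contr hJ (Real.exp (-2 * P.p t)) _ hab hac, (hasDeriv_cA hP t).deriv,
      (hasDeriv_cB hP t).deriv, cB, cC, exp_neg_logRad hx, hb, hc]
    generalize Real.exp (-2 * P.p t) = ee at hp ⊢
    push_cast
    field_simp
    linear_combination (-(2 * (m : ℝ)) * x q) * hq - x q * hp
  have h1 : con J0 x a b c (fun i j => christoffel P.metric k i j x)
      = ∑ q, (P.metric x)⁻¹ k q * (con J0 x a b c (fun i j => pd i (fun y => P.metric y j q) x)
          - con J0 x a b c (fun i j => pd q (fun y => P.metric y i j) x) / 2) := by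
    rw [con_congr (N := fun i j => ∑ q, (P.metric x)⁻¹ k q / 2 *
      (pd i (fun y => P.metric y j q) x + pd j (fun y => P.metric y i q) x
        + (-1) * pd q (fun y => P.metric y i j) x)) fun i j => by
        rw [christoffel, Finset.mul_sum]
        exact Finset.sum_congr rfl fun q _ => by ring]
    rw [con_sum]
    refine Finset.sum_congr rfl fun q _ => ?_
    rw [con_smul, con_add, con_add, con_smul,
      con_transpose (fun i j => pd i (fun y => P.metric y j q) x)]
    ring
  rw [h1]
  simp only [hT, hD, hG]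
  set κ := 2 * (m : ℝ) * (a - 1) + (Real.exp (-2 * P.p t) - 1)
  have hsum : ∑ q, (a * (if k = q then 1 else 0) + b * (x k * x q)
      + c * (jv J0 x k * jv J0 x q)) * x q = x k := by
    simp only [add_mul, Finset.sum_add_distrib, mul_assoc, ite_mul, one_mul, zero_mul,
      ← Finset.mul_sum, Finset.sum_ite_eq, Finset.mem_univ, if_true]
    have hux : ∑ q, jv J0 x q * x q = 0 := by
      rw [← sum_x_jv hJ x]
      exact Finset.sum_congr rfl fun q _ => mul_comm _ _
    have hxx : ∑ q, x q * x q = nsq x := by simp [nsq, sq]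
    rw [hux, hxx]
    linear_combination x k * hab
  conv_rhs => rw [← hsum, Finset.sum_div, Finset.mul_sum]
  exact Finset.sum_congr rfl fun q _ => by ring

theorem evp_xi (J : Matrix (Fin n) (Fin n) ℝ) (Q : Poly n) (x : Coord n) :
    evp (xiPoly J Q) x = ∑ i, jv J x i * evp (pderiv i Q) x := by
  simp [evp, xiPoly, jv, LinearMap.sum_apply, map_sum, Finset.sum_mul, mul_assoc, smul_eval]

theorem euler {l : ℕ} {p : Poly n} (hp : p.IsHomogeneous l) (x : Coord n) :
    ∑ i, x i * evp (pderiv i p) x = l * evp p x := by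
  have h := congrArg (MvPolynomial.eval x) hp.sum_X_mul_pderiv
  simpa [evp, map_sum] using h

theorem euler_two {l : ℕ} {p : Poly n} (hp : p.IsHomogeneous l) (x : Coord n) :
    ∑ i, ∑ j, x i * x j * evp (pderiv i (pderiv j p)) x = (l : ℝ) * ((l : ℝ) - 1) * evp p x := by
  rw [Finset.sum_comm]
  have h : ∀ j, ∑ i, x i * x j * evp (pderiv i (pderiv j p)) x
      = ((l - 1 : ℕ) : ℝ) * (x j * evp (pderiv j p) x) := fun j => by
    rw [← mul_left_comm, ← euler (hp.pderiv (i := j)) x, Finset.mul_sum]
    exact Finset.sum_congr rfl fun i _ => by ring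
  rw [Finset.sum_congr rfl fun j _ => h j, ← Finset.mul_sum, euler hp]
  rcases l with _ | l
  · simp
  · push_cast [Nat.add_sub_cancel]
    ring

theorem xi_two (hJ : IsCS J) {l : ℕ} {p : Poly n} (hp : p.IsHomogeneous l) (x : Coord n) :
    evp (xiPoly J (xiPoly J p)) x
      = -(l : ℝ) * evp p x
        + ∑ i, ∑ j, jv J x i * jv J x j * evp (pderiv i (pderiv j p)) x := by
  rw [evp_xi]
  have h : ∀ i, evp (pderiv i (xiPoly J p)) x
      = ∑ j, (J j i * evp (pderiv j p) x + jv J x j * evp (pderiv i (pderiv j p)) x) := by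
    intro i
    rw [← pd_evp, show evp (xiPoly J p) = fun y => ∑ j, jv J y j * evp (pderiv j p) y from
      funext (evp_xi J p), pd_sum Finset.univ (fun j _ => (diffAt_jv J x j).fun_mul (diffAt_evp _ x))]
    exact Finset.sum_congr rfl fun j _ => by
      rw [pd_mul (diffAt_jv J x j) (diffAt_evp _ x), pd_jv, pd_evp]
  simp only [h, Finset.sum_add_distrib, mul_add, Finset.mul_sum]
  congr 1
  · rw [Finset.sum_comm]
    have h2 : ∀ j, ∑ i, jv J x i * (J j i * evp (pderiv j p) x)
        = -(x j * evp (pderiv j p) x) := fun j => by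
      rw [← neg_mul, ← jv_jv hJ x j, Finset.sum_mul]
      exact Finset.sum_congr rfl fun i _ => by ring
    simp only [h2, Finset.sum_neg_distrib, euler hp, neg_mul]
  · exact Finset.sum_congr rfl fun i _ => Finset.sum_congr rfl fun j _ => by ring

theorem lap_harm {l : ℕ} {p : Poly n} (hp : p ∈ Harm n l) (x : Coord n) :
    ∑ i, evp (pderiv i (pderiv i p)) x = 0 := by
  have h := congrArg (MvPolynomial.eval x) ((plap_apply p).symm.trans (mem_Harm.1 hp).2)
  simpa [evp, map_sum] using h

theorem mode_eq (l : ℕ) (y : ℝ → ℝ) (Q : Poly n) {x : Coord n} (hx : x ≠ 0) :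
    mode l y Q x = y (logRad x) * Real.exp (-(l : ℝ) * logRad x) * evp Q x := by
  rw [mode, show -(l : ℝ) * logRad x = -((l : ℝ) * logRad x) by ring, Real.exp_neg,
    Real.exp_nat_mul, exp_logRad hx]
  field_simp

end Vale.Agent.P225.Full.Lap

namespace Vale.Agent.P225.Full

open MvPolynomial Matrix Filter Topology Lap

theorem laplace_eq_con {m : ℕ} {P : Profile (2 * m + 2)} (hP : P.Adm) {x : Coord (2 * m + 2)}
    (hx : x ≠ 0) (u : Coord (2 * m + 2) → ℝ) :
    laplace P.metric u x =
      con (P.J (logRad x)) x (Real.exp (-2 * P.q (logRad x)))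
        ((1 - Real.exp (-2 * P.q (logRad x))) / nsq x)
        ((Real.exp (-2 * P.p (logRad x)) - Real.exp (-2 * P.q (logRad x))) / nsq x)
        (fun i j => pd i (pd j u) x)
      - (2 * m * (Real.exp (-2 * P.q (logRad x)) - 1) + (Real.exp (-2 * P.p (logRad x)) - 1)
          - 2 * m * deriv P.q (logRad x) - deriv P.p (logRad x)) / nsq x
        * ∑ k, x k * pd k u x := by
  have h1 : laplace P.metric u x = con (P.J (logRad x)) x (Real.exp (-2 * P.q (logRad x)))
      ((1 - Real.exp (-2 * P.q (logRad x))) / nsq x)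
      ((Real.exp (-2 * P.p (logRad x)) - Real.exp (-2 * P.q (logRad x))) / nsq x)
      (fun i j => pd i (pd j u) x + ∑ k, -pd k u x * christoffel P.metric k i j x) := by
    refine Finset.sum_congr rfl fun i _ => Finset.sum_congr rfl fun j _ => ?_
    rw [metric_inv hP hx]
    congr 1
    rw [sub_eq_add_neg, ← Finset.sum_neg_distrib]
    exact congrArg _ (Finset.sum_congr rfl fun k _ => by ring)
  rw [h1, con_add, con_sum]
  simp only [con_smul, drift_contr hP hx]
  rw [Finset.mul_sum, sub_eq_add_neg (con _ _ _ _ _ _), ← Finset.sum_neg_distrib]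
  exact congrArg _ (Finset.sum_congr rfl fun k _ => by ring)

theorem laplaceMode : Spec.LaplaceMode := by
  intro m l P _ hP y hy h hh x hx t
  have hJ := hP.cs (logRad x)
  have hh' := (mem_Harm.1 hh).1
  set F : ℝ → ℝ := fun s => y s * Real.exp (-(l : ℝ) * s) with hF
  set F1 : ℝ → ℝ := fun s => (deriv y s - l * y s) * Real.exp (-(l : ℝ) * s) with hF1
  set F2 : ℝ → ℝ := fun s =>
    (deriv (deriv y) s - 2 * l * deriv y s + l * l * y s) * Real.exp (-(l : ℝ) * s) with hF2
  have hy1 : ∀ s, HasDerivAt y (deriv y s) s := fun s =>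
    ((hy.differentiable (by norm_num)).differentiableAt).hasDerivAt
  have hy2 : ∀ s, HasDerivAt (deriv y) (deriv (deriv y) s) s := fun s =>
    ((((contDiff_succ_iff_deriv (n := 1)).1 hy).2.2.differentiable
      (by norm_num)).differentiableAt).hasDerivAt
  have hdF : ∀ s, HasDerivAt F (F1 s) s := fun s =>
    ((hy1 s).mul (hasDeriv_expLin (-(l : ℝ)) s)).congr_deriv (by rw [hF1]; ring)
  have hdF1 : ∀ s, HasDerivAt F1 (F2 s) s := fun s =>
    (((hy2 s).sub ((hy1 s).const_mul (l : ℝ))).mul (hasDeriv_expLin (-(l : ℝ)) s)).congr_deriv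
      (by rw [hF2]; simp only [Pi.sub_apply]; ring)
  have hdG : ∀ s, HasDerivAt (fun s => F1 s * Real.exp (-2 * s))
      ((F2 s - 2 * F1 s) * Real.exp (-2 * s)) s := fun s =>
    ((hdF1 s).mul (hasDeriv_expLin (-2) s)).congr_deriv (by ring)
  have hfirst : ∀ z : Coord (2 * m + 2), z ≠ 0 → ∀ j, pd j (mode l y h) z
      = F1 (logRad z) * Real.exp (-2 * logRad z) * (z j * evp h z)
        + F (logRad z) * evp (pderiv j h) z := by
    intro z hz j
    have e : mode l y h =ᶠ[𝓝 z] fun w => F (logRad w) * evp h w :=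
      (eventually_ne hz).mono fun w hw => mode_eq l y h hw
    have d0 : DifferentiableAt ℝ (fun w => F (logRad w)) z :=
      (hdF _).differentiableAt.comp z (diffAt_logRad hz)
    rw [pd_congr e j, pd_mul d0 (diffAt_evp h z),
      pd_radial hz (hdF _), pd_evp, exp_neg_logRad hz]
    ring
  have hsecond : ∀ i j, pd i (pd j (mode l y h)) x
      = (F2 t - 2 * F1 t) * (nsq x)⁻¹ * (nsq x)⁻¹ * evp h x * (x i * x j)
        + F1 t * (nsq x)⁻¹ * evp h x * (if i = j then 1 else 0)
        + F1 t * (nsq x)⁻¹ * (evp (pderiv i h) x * x j)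
        + F1 t * (nsq x)⁻¹ * (x i * evp (pderiv j h) x)
        + F t * evp (pderiv i (pderiv j h)) x := by
    intro i j
    have e : pd j (mode l y h) =ᶠ[𝓝 x] fun w =>
        F1 (logRad w) * Real.exp (-2 * logRad w) * (w j * evp h w)
          + F (logRad w) * evp (pderiv j h) w :=
      (eventually_ne hx).mono fun w hw => hfirst w hw j
    have d1 : DifferentiableAt ℝ (fun w => F1 (logRad w) * Real.exp (-2 * logRad w)) x :=
      (hdG _).differentiableAt.comp x (diffAt_logRad hx)
    have d2 : DifferentiableAt ℝ (fun w => F (logRad w)) x :=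
      (hdF _).differentiableAt.comp x (diffAt_logRad hx)
    have d3 := (differentiableAt_apply j x : DifferentiableAt ℝ (fun w : Coord _ => w j) x)
    rw [pd_congr e i, pd_add (d1.fun_mul (d3.fun_mul (diffAt_evp h x)))
        (d2.fun_mul (diffAt_evp _ x)),
      pd_mul d1 (d3.fun_mul (diffAt_evp h x)), pd_mul d2 (diffAt_evp _ x),
      pd_mul d3 (diffAt_evp h x), pd_radial hx (hdG _), pd_radial hx (hdF _), pd_coord, pd_evp,
      pd_evp, exp_neg_logRad hx]
    simp only [@eq_comm _ j i, t]
    ring
  rw [laplace_eq_con hP hx, con_congr hsecond]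
  simp only [con_add, con_smul]
  rw [con_x hJ (fun j => x j), con_delta hJ, con_x' hJ (fun i => evp (pderiv i h) x),
    con_x hJ (fun j => evp (pderiv j h) x), euler hh', con_split, lap_harm hh, euler_two hh']
  have hxx : ∑ i, x i * x i = nsq x := by simp [nsq, sq]
  have hxi := xi_two hJ hh' x
  have huu : ∑ i, ∑ j, jv (P.J (logRad x)) x i * jv (P.J (logRad x)) x j *
      evp (pderiv i (pderiv j h)) x
      = evp (xiPoly (P.J (logRad x)) (xiPoly (P.J (logRad x)) h)) x + l * evp h x := by
    linarith
  have hk : ∑ k, x k * pd k (mode l y h) x = (F1 t + l * F t) * evp h x := by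
    simp only [hfirst x hx, mul_add, Finset.sum_add_distrib, exp_neg_logRad hx]
    have e1 : ∑ k, x k * (F1 t * (nsq x)⁻¹ * (x k * evp h x))
        = F1 t * (nsq x)⁻¹ * evp h x * ∑ k, x k * x k := by
      rw [Finset.mul_sum]; exact Finset.sum_congr rfl fun k _ => by ring
    have e2 : ∑ k, x k * (F t * evp (pderiv k h) x) = F t * (l * evp h x) := by
      rw [← euler hh', Finset.mul_sum]; exact Finset.sum_congr rfl fun k _ => by ring
    rw [e1, e2, hxx]
    field_simp [(nsq_pos hx).ne']
  rw [hxx, huu, hk]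
  have hrl : Real.exp (-(l : ℝ) * t) = (rad x ^ l)⁻¹ := by
    rw [show -(l : ℝ) * t = -((l : ℝ) * t) by ring, Real.exp_neg, Real.exp_nat_mul, exp_logRad hx]
  have hr := (rad_pos hx).ne'
  simp only [hF, hF1, hF2, hrl, pow_add, rad_sq, Profile.drift, sphEig, t]
  push_cast
  field_simp [(nsq_pos hx).ne']
  ring

theorem harmonic : Spec.Harmonic := by
  intro m P hm hP N deg h y hh hy hflat heq
  classical
  let u : Coord (2 * m + 2) → ℝ := fun x =>
    if x = 0 then ∑ a, y a 0 * evp (h a) x else ∑ a, mode (deg a) (y a) (h a) x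
  have hnear : ∀ x, rad x < 1 → u x = ∑ a, y a 0 * evp (h a) x := by
    intro x hx1
    by_cases hx : x = 0
    · simp [u, hx]
    · simp only [u, if_neg hx]
      refine Finset.sum_congr rfl fun a _ => ?_
      have ht : logRad x ≤ 0 := Real.log_nonpos (rad_pos hx).le hx1.le
      rw [mode_eq _ _ _ hx, hflat a _ ht, mul_assoc (y a 0), ← Real.exp_add]
      simp
  have hzero : ∀ᶠ x in 𝓝 (0 : Coord (2 * m + 2)), rad x < 1 := by
    have hc : Continuous (rad (n := 2 * m + 2)) := (contDiff_nsq (k := 0)).continuous.sqrt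
    exact hc.continuousAt.eventually_lt continuousAt_const (by simp [rad])
  have hout : ∀ x : Coord (2 * m + 2), x ≠ 0 →
      u =ᶠ[𝓝 x] fun x => ∑ a, mode (deg a) (y a) (h a) x := fun x hx =>
    (eventually_ne hx).mono fun z hz => if_neg hz
  have hmode : ∀ a, ∀ x : Coord (2 * m + 2), x ≠ 0 →
      ContDiffAt ℝ (⊤ : ℕ∞) (mode (deg a) (y a) (h a)) x := by
    intro a x hx
    show ContDiffAt ℝ (⊤ : ℕ∞) (fun x => y a (logRad x) * evp (h a) x / rad x ^ deg a) x
    exact ((((hy a).contDiffAt).comp x (contDiffAt_logRad hx)).mul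
      (contDiff_evp _).contDiffAt).div ((contDiffAt_rad hx).pow _) (pow_ne_zero _ (rad_pos hx).ne')
  have hsm : ∀ x, ContDiffAt ℝ (⊤ : ℕ∞) u x := by
    intro x
    by_cases hx : x = 0
    · subst hx
      exact ((ContDiff.sum fun a _ => contDiff_const.mul (contDiff_evp (h a))).contDiffAt
        ).congr_of_eventuallyEq (hzero.mono hnear)
    · exact (ContDiffAt.sum fun a _ => hmode a x hx).congr_of_eventuallyEq (hout x hx)
  refine ⟨u, contDiff_iff_contDiffAt.2 hsm, fun x => ?_, fun x hx => if_neg hx⟩
  by_cases hx : x = 0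
  · subst hx
    have hg : ∀ i j, (fun z => P.metric z i j) =ᶠ[𝓝 (0 : Coord (2 * m + 2))]
        fun _ => (if i = j then (1 : ℝ) else 0) := by
      intro i j
      filter_upwards [hzero] with z hz1
      by_cases hz : z = 0
      · simp [Profile.metric, hz]
      · have ht : logRad z ≤ 0 := Real.log_nonpos (rad_pos hz).le hz1.le
        have hf := hP.flat (logRad z) ht
        simp only [Profile.metric, if_neg hz]
        rw [hf.1, hf.2]
        simp
    have hch : ∀ k i j, christoffel P.metric k i j 0 = 0 := by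
      intro k i j
      simp [christoffel, pd_congr (hg _ _), Lap.pd_const]
    have hinv : (P.metric 0)⁻¹ = 1 := by
      have : P.metric 0 = 1 := by
        ext i j
        simp [Profile.metric, Matrix.one_apply]
      rw [this, inv_one]
    have hj : ∀ j, pd j u =ᶠ[𝓝 0] fun z => ∑ a, y a 0 * evp (pderiv j (h a)) z := by
      intro j
      have hev : ∀ᶠ z in 𝓝 (0 : Coord (2 * m + 2)), ∀ᶠ w in 𝓝 z, rad w < 1 :=
        eventually_eventually_nhds.2 hzero
      filter_upwards [hev] with z hz
      rw [pd_congr (hz.mono hnear) j,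
        pd_sum Finset.univ (fun a _ => (diffAt_evp (h a) z).const_mul _)]
      exact Finset.sum_congr rfl fun a _ => by rw [pd_const_mul (diffAt_evp _ z), pd_evp]
    have hjj : ∀ j, pd j (pd j u) 0
        = ∑ a, y a 0 * evp (pderiv j (pderiv j (h a))) 0 := by
      intro j
      rw [pd_congr (hj j) j,
        pd_sum Finset.univ (fun a _ => (diffAt_evp _ (0 : Coord _)).const_mul _)]
      exact Finset.sum_congr rfl fun a _ => by rw [pd_const_mul (diffAt_evp _ _), pd_evp]
    simp only [laplace, hinv, hch, Matrix.one_apply, zero_mul, Finset.sum_const_zero, sub_zero,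
      ite_mul, one_mul, Finset.sum_ite_eq, Finset.mem_univ, if_true, hjj]
    rw [Finset.sum_comm]
    exact Finset.sum_eq_zero fun a _ => by rw [← Finset.mul_sum, lap_harm (hh a), mul_zero]
  · have hd : ∀ a, ∀ z : Coord (2 * m + 2), z ≠ 0 →
        DifferentiableAt ℝ (mode (deg a) (y a) (h a)) z := fun a z hz =>
      (hmode a z hz).differentiableAt (by simp)
    have hd2 : ∀ a j, DifferentiableAt ℝ (pd j (mode (deg a) (y a) (h a))) x := fun a j => by
      have h1 : ContDiffAt ℝ 1 (fderiv ℝ (mode (deg a) (y a) (h a))) x :=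
        ((hmode a x hx).of_le (m := 2) (by exact WithTop.coe_le_coe.2 le_top)).fderiv_right (by norm_num)
      exact (h1.clm_apply contDiffAt_const).differentiableAt (by norm_num)
    have hj : ∀ j, pd j u =ᶠ[𝓝 x] fun z => ∑ a, pd j (mode (deg a) (y a) (h a)) z := by
      intro j
      filter_upwards [eventually_ne hx] with z hz
      rw [pd_congr (hout z hz) j, pd_sum Finset.univ (fun a _ => hd a z hz)]
    have hlin : laplace P.metric u x = ∑ a, laplace P.metric (mode (deg a) (y a) (h a)) x := by
      have e2 : ∀ i j, pd i (pd j u) x = ∑ a, pd i (pd j (mode (deg a) (y a) (h a))) x :=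
        fun i j => by rw [pd_congr (hj j) i, pd_sum Finset.univ (fun a _ => hd2 a j)]
      have e1 : ∀ k, pd k u x = ∑ a, pd k (mode (deg a) (y a) (h a)) x := fun k =>
        (hj k).self_of_nhds
      simp only [laplace_eq_con hP hx, e1, e2, con_sum, Finset.mul_sum,
        Finset.sum_sub_distrib]
      congr 1
      rw [Finset.sum_comm]
    rw [hlin]
    have hterm : ∀ a, laplace P.metric (mode (deg a) (y a) (h a)) x
        = evp (((deriv (deriv (y a)) (logRad x) + P.drift m (logRad x) * deriv (y a) (logRad x)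
              - Real.exp (-2 * P.q (logRad x)) * sphEig (2 * m + 2) (deg a) * y a (logRad x)) • h a
            + ((Real.exp (-2 * P.p (logRad x)) - Real.exp (-2 * P.q (logRad x))) *
              y a (logRad x)) • xiPoly (P.J (logRad x)) (xiPoly (P.J (logRad x)) (h a)))) x
          / rad x ^ (deg a + 2) := by
      intro a
      rw [laplaceMode m (deg a) P hm hP (y a) ((hy a).of_le (by exact WithTop.coe_le_coe.2 le_top)) (h a)
        (hh a) x hx]
      simp [evp, smul_eval]
    rw [Finset.sum_congr rfl fun a _ => hterm a,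
      ← Finset.sum_fiberwise_of_maps_to
        (t := Finset.univ.image deg) (fun a _ => Finset.mem_image_of_mem deg (Finset.mem_univ a))]
    refine Finset.sum_eq_zero fun l _ => ?_
    have h0 := congrArg (fun Q => evp Q x / rad x ^ (l + 2)) (heq l (logRad x))
    simp only [evp, map_sum, map_zero, zero_div, Finset.sum_div] at h0
    refine Eq.trans (Finset.sum_congr rfl fun a ha => ?_) h0
    have hda : deg a = l := (Finset.mem_filter.1 ha).2
    subst hda
    rfl

end Vale.Agent.P225.Full
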