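import Vale.Agent.P225.Full.AsmSpec
import Vale.Agent.P225.Full.ParamODE

/-!
# One round of pulses

The exact switch, applied to the shell equations of a round of pulses: in the coordinates `z = y / U`
and in the time since the round starts, the shell equation is a slow pulse equation.
-/

namespace Vale.Agent.P225.Full.Asm

open Matrix Filter Topology Real Set

theorem continuous_eta : Continuous Prof.eta :=
  continuous_iff_continuousAt.2 fun t => (Prof.hasDerivAt_eta t).continuousAt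

theorem continuous_drift0 {t0 : ℝ} (ht0 : 0 < t0) : Continuous (drift0 t0) := by
  unfold drift0 Prof.sig
  refine continuous_const.sub (continuous_const.mul (continuous_const.mul ?_))
  exact (smoothTransition.continuous).mul
    (((continuous_const.add (continuous_eta.div_const _))).rpow_const
      fun t => Or.inl (Prof.base_pos ht0 t).ne')

theorem tendsto_drift0_atTop {t0 : ℝ} (ht0 : 0 < t0) :
    Tendsto (drift0 t0) atTop (𝓝 (2 * (Spec.mC : ℝ))) := by
  have h1 : Tendsto Prof.eta atTop atTop :=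
    tendsto_atTop_mono' atTop ((eventually_ge_atTop 1).mono fun t ht => Prof.le_eta ht)
      (tendsto_atTop_add_const_right atTop (-1 : ℝ) tendsto_id)
  have h2 : Tendsto (fun t => 1 + Prof.eta t / t0) atTop atTop :=
    tendsto_atTop_add_const_left atTop 1 (h1.atTop_div_const ht0)
  have h3 : Tendsto (fun t => (1 + Prof.eta t / t0) ^ (-(7 / 6) : ℝ)) atTop (𝓝 0) :=
    (tendsto_rpow_neg_atTop (by norm_num : (0 : ℝ) < 7 / 6)).comp h2
  have h4 : Tendsto (fun t => Prof.sig pinfC t0 t) atTop (𝓝 0) := by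
    have h : Tendsto (fun t => -pinfC / (6 * t0) * (1 + Prof.eta t / t0) ^ (-(7 / 6) : ℝ)) atTop
        (𝓝 0) := by simpa using h3.const_mul (-pinfC / (6 * t0))
    refine h.congr' ((eventually_ge_atTop 1).mono fun t ht => ?_)
    simp [Prof.sig, smoothTransition.one_of_one_le ht]
  have := (h4.const_mul (2 * (Spec.mC : ℝ) + 1)).const_sub (2 * (Spec.mC : ℝ))
  rw [mul_zero, sub_zero] at this
  exact this

theorem two_le_c0R (l : ℕ) : 2 ≤ c0R l := by
  have hlam : 0 ≤ lamR l := by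
    simp only [lamR, sphEig, Spec.mC]
    have : (0 : ℝ) ≤ l := Nat.cast_nonneg l
    push_cast
    nlinarith
  have h : 2 * (Spec.mC : ℝ) ≤
      √((2 * (Spec.mC : ℝ)) ^ 2 + 4 * (lamR l * exp (-2 * pinfC))) := by
    refine le_sqrt_of_sq_le ?_
    nlinarith [mul_nonneg hlam (exp_pos (-2 * pinfC)).le]
  have hm : (Spec.mC : ℝ) = 16 := by norm_num [Spec.mC]
  simp only [c0R, gammaR, Spec.expo]
  linarith

theorem c0R_pos (l : ℕ) : 0 < c0R l := zero_lt_two.trans_le (two_le_c0R l)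

theorem kapR_pos (l : ℕ) : 0 < kapR l := div_pos (exp_pos _) (c0R_pos l)

theorem kapR_strictAnti : StrictAnti kapR := by
  intro i j hij
  refine div_lt_div_of_pos_left (exp_pos _) (c0R_pos i) ?_
  have hij' : (i : ℝ) < j := by exact_mod_cast hij
  have hi : (0 : ℝ) ≤ i := Nat.cast_nonneg i
  have hl : lamR i < lamR j := by
    simp only [lamR, sphEig, Spec.mC]
    push_cast
    nlinarith
  have h0 : 0 ≤ lamR i := by
    simp only [lamR, sphEig, Spec.mC]
    push_cast
    nlinarith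
  have h : √((2 * (Spec.mC : ℝ)) ^ 2 + 4 * (lamR i * exp (-2 * pinfC))) <
      √((2 * (Spec.mC : ℝ)) ^ 2 + 4 * (lamR j * exp (-2 * pinfC))) := by
    refine sqrt_lt_sqrt (by positivity) ?_
    have := mul_lt_mul_of_pos_right hl (exp_pos (-2 * pinfC))
    linarith
  simp only [c0R, gammaR, Spec.expo]
  linarith

theorem genMat_genB {l : ℕ} (E : Spec.EigenShell Spec.mC l)
    (J : Matrix (Fin (2 * Spec.mC + 2)) (Fin (2 * Spec.mC + 2)) ℝ) :
    Spec.genMat E (genB Spec.mC l) J =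
      xiMat E J + (lamR l / (2 * (Spec.mC : ℝ) + 1)) • 1 := by
  simp [Spec.genMat, genB, xiMat, lamR, map_add, map_smul]

/-- The coefficient of the pulse equation. -/
noncomputable def pulseCoef {l N : ℕ} (E : Spec.EigenShell Spec.mC l)
    (J : Fin N → Matrix (Fin (2 * Spec.mC + 2)) (Fin (2 * Spec.mC + 2)) ℝ) (w : ℝ → ℝ)
    (t0 a ε : ℝ) (α : Fin N → ℝ) (σ : ℝ) : Matrix (Fin E.D) (Fin E.D) ℝ :=
  fun i j => ε⁻¹ * exp (-2 * Prof.psi pinfC t0 (a + σ / ε)) * ∑ k : Fin N,
    ((exp (ε * (α k * w (σ - (k : ℕ))) / (2 * (Spec.mC : ℝ) + 1)) - 1) * lamR l *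
        (1 : Matrix (Fin E.D) (Fin E.D) ℝ) i j
      + (exp (ε * (α k * w (σ - (k : ℕ))) / (2 * (Spec.mC : ℝ) + 1))
          - exp (-(2 * (Spec.mC : ℝ)) * (ε * (α k * w (σ - (k : ℕ)))) / (2 * (Spec.mC : ℝ) + 1)))
        * xiMat E (J k) i j)

theorem continuous_pulseCoef {l N : ℕ} (E : Spec.EigenShell Spec.mC l)
    (J : Fin N → Matrix (Fin (2 * Spec.mC + 2)) (Fin (2 * Spec.mC + 2)) ℝ) {w : ℝ → ℝ}
    (hw : Continuous w) {t0 : ℝ} (ht0 : 0 < t0) (a ε : ℝ) :
    Continuous fun p : (Fin N → ℝ) × ℝ => pulseCoef E J w t0 a ε p.1 p.2 := by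
  have hψ : Continuous (Prof.psi pinfC t0) :=
    continuous_iff_continuousAt.2 fun t => (Prof.hasDerivAt_psi ht0 t).continuousAt
  refine continuous_pi fun i => continuous_pi fun j => ?_
  unfold pulseCoef
  fun_prop

/-- On a round of pulses the shell coefficient is the round one plus the pulse coefficient. -/
theorem Mshell_eq_pulse {l N : ℕ} (E : Spec.EigenShell Spec.mC l) {P : Profile (2 * Spec.mC + 2)}
    {J : Fin N → Matrix (Fin (2 * Spec.mC + 2)) (Fin (2 * Spec.mC + 2)) ℝ} {w : ℝ → ℝ}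
    (hw : ∀ s, s ≤ 1 / 4 ∨ 3 / 4 ≤ s → w s = 0) {t0 a ε s : ℝ} (hε : 0 < ε) {α : Fin N → ℝ}
    (hp : P.p (a + s) = Prof.psi pinfC t0 (a + s)
      + (Spec.mC : ℝ) / (2 * Spec.mC + 1) * tauPulse ε α w s)
    (hq : P.q (a + s) = Prof.psi pinfC t0 (a + s)
      - tauPulse ε α w s / (2 * (2 * (Spec.mC : ℝ) + 1)))
    (hJ : ∀ k : Fin N, w (ε * s - (k : ℕ)) ≠ 0 → P.J (a + s) = J k) (i j : Fin E.D) :
    Mshell P E (a + s) i j - exp (-2 * Prof.psi pinfC t0 (a + s)) * lamR l *
        (1 : Matrix (Fin E.D) (Fin E.D) ℝ) i j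
      = ε * pulseCoef E J w t0 a ε α (ε * s) i j := by
  set d : ℝ := 2 * (Spec.mC : ℝ) + 1 with hd
  set ψ : ℝ := Prof.psi pinfC t0 (a + s) with hψ
  have hd0 : d ≠ 0 := by rw [hd]; positivity
  -- at most one pulse is on
  obtain ⟨k0, hk0⟩ | hnone := em (∃ k : Fin N, α k * w (ε * s - (k : ℕ)) ≠ 0)
  · have hwk : w (ε * s - (k0 : ℕ)) ≠ 0 := right_ne_zero_of_mul hk0
    have hzero : ∀ k : Fin N, k ≠ k0 → w (ε * s - (k : ℕ)) = 0 := by
      intro k hk
      by_contra h
      have h1 : ¬(ε * s - (k : ℕ) ≤ 1 / 4 ∨ 3 / 4 ≤ ε * s - (k : ℕ)) := fun hh => h (hw _ hh)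
      have h2 : ¬(ε * s - (k0 : ℕ) ≤ 1 / 4 ∨ 3 / 4 ≤ ε * s - (k0 : ℕ)) := fun hh => hwk (hw _ hh)
      push Not at h1 h2
      rcases lt_or_gt_of_ne (Fin.val_injective.ne hk) with h3 | h3
      · have : (k : ℕ) + 1 ≤ (k0 : ℕ) := h3
        have : ((k : ℕ) : ℝ) + 1 ≤ ((k0 : ℕ) : ℝ) := by exact_mod_cast this
        linarith
      · have : (k0 : ℕ) + 1 ≤ (k : ℕ) := h3
        have : ((k0 : ℕ) : ℝ) + 1 ≤ ((k : ℕ) : ℝ) := by exact_mod_cast this
        linarith
    have hτ : tauPulse ε α w s = ε * (α k0 * w (ε * s - (k0 : ℕ))) := by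
      rw [tauPulse, Finset.sum_eq_single k0 (fun k _ hk => by rw [hzero k hk, mul_zero])
        (fun h => absurd (Finset.mem_univ _) h)]
    simp only [pulseCoef, show a + ε * s / ε = a + s by field_simp]
    rw [Finset.sum_eq_single k0 (fun k _ hk => by simp [hzero k hk])
      (fun h => absurd (Finset.mem_univ _) h)]
    simp only [Mshell, xiMat, hJ k0 hwk, hp, hq, hτ, ← hψ, ← hd, Matrix.sub_apply, Matrix.smul_apply,
      smul_eq_mul]
    set τ : ℝ := ε * (α k0 * w (ε * s - (k0 : ℕ)))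
    have e1 : exp (-2 * (ψ - τ / (2 * d))) = exp (-2 * ψ) * exp (τ / d) := by
      rw [← exp_add]; ring_nf
    have e2 : exp (-2 * (ψ + (Spec.mC : ℝ) / d * τ)) =
        exp (-2 * ψ) * exp (-(2 * (Spec.mC : ℝ)) * τ / d) := by
      rw [← exp_add]; ring_nf
    rw [e1, e2, show sphEig (2 * Spec.mC + 2) l = lamR l from rfl]
    field_simp
    ring
  · push Not at hnone
    have hτ : tauPulse ε α w s = 0 := by simp [tauPulse, hnone]
    simp [Mshell, pulseCoef, hp, hq, hτ, hnone, lamR]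

/-- The pulse coefficient is, to first order, the weighted generator. -/
theorem pulseCoef_near {l N : ℕ} (E : Spec.EigenShell Spec.mC l)
    (J : Fin N → Matrix (Fin (2 * Spec.mC + 2)) (Fin (2 * Spec.mC + 2)) ℝ) {w : ℝ → ℝ}
    {W R : ℝ} (hW : ∀ s, |w s| ≤ W) {t0 a ε δ' : ℝ} (hε : 0 < ε) (hεB : ε * (R * W) ≤ 1)
    {α : Fin N → ℝ} (hα : ∀ k, |α k| ≤ R) {σ : ℝ}
    (hψ : |exp (-2 * Prof.psi pinfC t0 (a + σ / ε)) - exp (-2 * pinfC)| ≤ δ') (i j : Fin E.D) :
    |pulseCoef E J w t0 a ε α σ i j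
        - c0R l * ∑ k : Fin N, α k * w (σ - (k : ℕ)) *
            (kapR l • Spec.genMat E (genB Spec.mC l) (J k)) i j|
      ≤ (δ' * (R * W) + (exp (-2 * pinfC) + δ') * (2 * ε * (R * W) ^ 2)) *
          ∑ k : Fin N, (|lamR l| + |xiMat E (J k) i j|) := by
  set d : ℝ := 2 * (Spec.mC : ℝ) + 1 with hd
  set e : ℝ := exp (-2 * Prof.psi pinfC t0 (a + σ / ε))
  set e0 : ℝ := exp (-2 * pinfC) with he0
  have hd1 : 1 ≤ d := by rw [hd]; linarith [Nat.cast_nonneg (α := ℝ) Spec.mC]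
  have hm : (0 : ℝ) ≤ Spec.mC := Nat.cast_nonneg _
  have hck : ∀ x : ℝ, c0R l * (kapR l * x) = e0 * x := fun x => by
    rw [kapR, ← he0]
    field_simp [(c0R_pos l).ne']
  simp only [pulseCoef, genMat_genB, Matrix.smul_apply, Matrix.add_apply, smul_eq_mul, ← hd,
    Finset.mul_sum]
  rw [← Finset.sum_sub_distrib]
  refine (Finset.abs_sum_le_sum_abs _ _).trans (Finset.sum_le_sum fun k _ => ?_)
  set v : ℝ := α k * w (σ - (k : ℕ))
  set x : ℝ := xiMat E (J k) i j
  set o : ℝ := (1 : Matrix (Fin E.D) (Fin E.D) ℝ) i j with ho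
  set lam : ℝ := lamR l
  have ho1 : |o| ≤ 1 := by rw [ho, Matrix.one_apply]; split_ifs <;> simp
  have hv : |v| ≤ R * W := by
    rw [abs_mul]
    exact mul_le_mul (hα k) (hW _) (abs_nonneg _) ((abs_nonneg _).trans (hα k))
  have hu : |ε * v| ≤ 1 := by
    rw [abs_mul, abs_of_pos hε]
    exact (mul_le_mul_of_nonneg_left hv hε.le).trans hεB
  have hu1 : |ε * v / d| ≤ 1 := by
    rw [abs_div, abs_of_pos (by linarith : 0 < d)]
    exact (div_le_one (by linarith)).2 (hu.trans hd1)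
  have hu2 : |-(2 * (Spec.mC : ℝ)) * (ε * v) / d| ≤ 1 := by
    rw [abs_div, abs_mul, abs_of_pos (by linarith : 0 < d), abs_neg, abs_of_nonneg (by linarith),
      div_le_one (by linarith)]
    calc 2 * (Spec.mC : ℝ) * |ε * v| ≤ 2 * (Spec.mC : ℝ) * 1 := by gcongr
      _ ≤ d := by rw [hd]; linarith
  have b1 := abs_exp_sub_one_sub_id_le hu1
  have b2 := abs_exp_sub_one_sub_id_le hu2
  have q0 : (ε * v) ^ 2 ≤ ε ^ 2 * (R * W) ^ 2 := by
    rw [mul_pow]
    exact mul_le_mul_of_nonneg_left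
      (sq_le_sq' (by linarith [neg_abs_le v]) ((le_abs_self v).trans hv)) (sq_nonneg ε)
  have q1 : (ε * v / d) ^ 2 ≤ ε ^ 2 * (R * W) ^ 2 := by
    refine le_trans ?_ q0
    rw [div_pow]
    exact div_le_self (sq_nonneg _) (one_le_pow₀ hd1)
  have q2 : (-(2 * (Spec.mC : ℝ)) * (ε * v) / d) ^ 2 ≤ ε ^ 2 * (R * W) ^ 2 := by
    refine le_trans ?_ q0
    rw [div_pow, div_le_iff₀ (by positivity), mul_pow, mul_comm]
    refine mul_le_mul_of_nonneg_left ?_ (sq_nonneg _)
    rw [hd]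
    nlinarith
  set r1 : ℝ := exp (ε * v / d) - 1 - ε * v / d with hr1
  set r2 : ℝ := exp (-(2 * (Spec.mC : ℝ)) * (ε * v) / d) - 1 -
    -(2 * (Spec.mC : ℝ)) * (ε * v) / d with hr2
  have key : ε⁻¹ * e * ((exp (ε * v / d) - 1) * lam * o +
      (exp (ε * v / d) - exp (-(2 * (Spec.mC : ℝ)) * (ε * v) / d)) * x)
      - c0R l * (v * (kapR l * (x + lam / d * o))) =
      (e - e0) * (v * (x + lam / d * o)) + e * (ε⁻¹ * (r1 * lam * o + (r1 - r2) * x)) := by
    rw [show c0R l * (v * (kapR l * (x + lam / d * o))) =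
      v * (c0R l * (kapR l * (x + lam / d * o))) by ring, hck, hr1, hr2]
    field_simp
    rw [hd]
    ring
  rw [key]
  have hX : |x + lam / d * o| ≤ |lam| + |x| := by
    refine (abs_add_le _ _).trans ?_
    rw [abs_mul, abs_div, abs_of_pos (by linarith : 0 < d)]
    have : |lam| / d * |o| ≤ |lam| * 1 :=
      mul_le_mul (div_le_self (abs_nonneg _) hd1) ho1 (abs_nonneg _) (abs_nonneg _)
    linarith
  have hr : |ε⁻¹ * (r1 * lam * o + (r1 - r2) * x)| ≤ 2 * ε * (R * W) ^ 2 * (|lam| + |x|) := by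
    rw [abs_mul, abs_of_pos (inv_pos.2 hε), inv_mul_le_iff₀ hε]
    refine (abs_add_le _ _).trans ?_
    rw [abs_mul, abs_mul, abs_mul]
    have h1 : |r1| * |lam| * |o| ≤ ε ^ 2 * (R * W) ^ 2 * |lam| * 1 :=
      mul_le_mul (mul_le_mul_of_nonneg_right (b1.trans q1) (abs_nonneg _)) ho1 (abs_nonneg _)
        (by positivity)
    have h2 : |r1 - r2| * |x| ≤ (2 * (ε ^ 2 * (R * W) ^ 2)) * |x| := by
      refine mul_le_mul_of_nonneg_right ((abs_sub _ _).trans ?_) (abs_nonneg _)
      linarith [b1.trans q1, b2.trans q2]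
    have h3 : 0 ≤ ε ^ 2 * (R * W) ^ 2 * |lam| := by positivity
    nlinarith
  have he : |e| ≤ e0 + δ' := by
    have h := abs_sub_le e e0 0
    simp only [sub_zero] at h
    have h0 : |e0| = e0 := abs_of_pos (exp_pos _)
    linarith
  refine (abs_add_le _ _).trans ?_
  rw [abs_mul, abs_mul, abs_mul e]
  have hδ : 0 ≤ δ' := (abs_nonneg _).trans hψ
  have hRW : 0 ≤ R * W := (abs_nonneg v).trans hv
  calc |e - e0| * (|v| * |x + lam / d * o|) + |e| * |ε⁻¹ * (r1 * lam * o + (r1 - r2) * x)|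
      ≤ δ' * (R * W * (|lam| + |x|)) + (e0 + δ') * (2 * ε * (R * W) ^ 2 * (|lam| + |x|)) :=
        add_le_add (mul_le_mul hψ (mul_le_mul hv hX (abs_nonneg _) hRW) (by positivity) hδ)
          (mul_le_mul he hr (abs_nonneg _) (by positivity))
    _ = (δ' * (R * W) + (e0 + δ') * (2 * ε * (R * W) ^ 2)) * (|lam| + |x|) := by ring

/-- The slow pulse equation as a first order system. -/
noncomputable def pulseField {D : ℕ} (c : ℝ → ℝ) (K : ℝ → Matrix (Fin D) (Fin D) ℝ) (s : ℝ) :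
    ((Fin D → ℝ) × (Fin D → ℝ)) →L[ℝ] ((Fin D → ℝ) × (Fin D → ℝ)) :=
  (ContinuousLinearMap.inl ℝ (Fin D → ℝ) (Fin D → ℝ)).comp
      (ContinuousLinearMap.snd ℝ (Fin D → ℝ) (Fin D → ℝ))
    - c s • (ContinuousLinearMap.inr ℝ (Fin D → ℝ) (Fin D → ℝ)).comp
      (ContinuousLinearMap.snd ℝ (Fin D → ℝ) (Fin D → ℝ))
    + ∑ i : Fin D, ∑ j : Fin D, K s i j •
        (ContinuousLinearMap.inr ℝ (Fin D → ℝ) (Fin D → ℝ)).comp
          ((ContinuousLinearMap.single ℝ (fun _ : Fin D => ℝ) i).comp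
            ((ContinuousLinearMap.proj (R := ℝ) (φ := fun _ : Fin D => ℝ) j).comp
              (ContinuousLinearMap.fst ℝ (Fin D → ℝ) (Fin D → ℝ))))

theorem pulseField_apply {D : ℕ} (c : ℝ → ℝ) (K : ℝ → Matrix (Fin D) (Fin D) ℝ) (s : ℝ)
    (p : (Fin D → ℝ) × (Fin D → ℝ)) :
    pulseField c K s p = (p.2, fun i => -(c s * p.2 i) + ∑ j, K s i j * p.1 j) := by
  refine Prod.ext ?_ (funext fun i => ?_)
  · funext i
    simp [pulseField, Prod.fst_sum]
  · simp [pulseField, Prod.snd_sum, Finset.sum_apply, Pi.single_apply, Finset.sum_ite_eq]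

theorem continuous_pulseField {D : ℕ} {c : ℝ → ℝ} {K : ℝ → Matrix (Fin D) (Fin D) ℝ}
    (hc : Continuous c) (hK : Continuous K) : Continuous (pulseField c K) := by
  unfold pulseField
  refine (continuous_const.sub (hc.smul continuous_const)).add ?_
  refine continuous_finsetSum _ fun i _ => continuous_finsetSum _ fun j _ => ?_
  exact ((continuous_apply j).comp ((continuous_apply i).comp hK)).smul continuous_const

/-- Matrix solutions of the slow pulse equation exist. -/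
theorem exists_pulseSol {D : ℕ} {c : ℝ → ℝ} {K : ℝ → Matrix (Fin D) (Fin D) ℝ}
    (hc : Continuous c) (hK : Continuous K) (Z0 Z1 : Matrix (Fin D) (Fin D) ℝ) :
    ∃ Z : ℝ → Matrix (Fin D) (Fin D) ℝ,
      (∀ i b, ContDiff ℝ 2 fun s => Z s i b) ∧
      (∀ i b, Z 0 i b = Z0 i b ∧ deriv (fun s => Z s i b) 0 = Z1 i b) ∧
      ∀ i b s, deriv (deriv fun u => Z u i b) s + c s * deriv (fun u => Z u i b) s
        = ∑ j, K s i j * Z s j b := by
  set A : Fin D → ℝ → ((Fin D → ℝ) × (Fin D → ℝ)) →L[ℝ] ((Fin D → ℝ) × (Fin D → ℝ)) :=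
    fun _ => pulseField c K with hAd
  set z0 : Fin D → (Fin D → ℝ) × (Fin D → ℝ) := fun b => (fun i => Z0 i b, fun i => Z1 i b)
  have hA : Continuous fun q : Fin D × ℝ => A q.1 q.2 :=
    (continuous_pulseField hc hK).comp continuous_snd
  have hz : Continuous z0 := continuous_of_discreteTopology
  have hd := fun (b : Fin D) (s : ℝ) => ParamODE.hasDerivAt_sol hA hz b s
  have h0 : ∀ b, ParamODE.sol A z0 b 0 = z0 b := fun b => ParamODE.sol_zero b
  have hcS : ∀ b, Continuous (ParamODE.sol A z0 b) :=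
    fun b => continuous_iff_continuousAt.2 fun s => (hd b s).continuousAt
  set Z : ℝ → Matrix (Fin D) (Fin D) ℝ := fun s i b => (ParamODE.sol A z0 b s).1 i
  have hZ1 : ∀ i b s, HasDerivAt (fun u => Z u i b) ((ParamODE.sol A z0 b s).2 i) s := by
    intro i b s
    have h := hd b s
    rw [hAd, pulseField_apply] at h
    exact hasDerivAt_pi.1 h.fst i
  have hZ2 : ∀ i b s, HasDerivAt (fun u => (ParamODE.sol A z0 b u).2 i)
      (-(c s * (ParamODE.sol A z0 b s).2 i) + ∑ j, K s i j * Z s j b) s := by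
    intro i b s
    have h := hd b s
    rw [hAd, pulseField_apply] at h
    exact hasDerivAt_pi.1 h.snd i
  have e1 : ∀ i b, deriv (fun u => Z u i b) = fun s => (ParamODE.sol A z0 b s).2 i :=
    fun i b => funext fun s => (hZ1 i b s).deriv
  refine ⟨Z, fun i b => ?_, fun i b => ⟨?_, ?_⟩, fun i b s => ?_⟩
  · rw [show (2 : WithTop ℕ∞) = 1 + 1 from rfl, contDiff_succ_iff_deriv]
    refine ⟨fun s => (hZ1 i b s).differentiableAt, by simp, ?_⟩
    rw [e1, contDiff_one_iff_deriv]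
    refine ⟨fun s => (hZ2 i b s).differentiableAt, ?_⟩
    rw [funext fun s => (hZ2 i b s).deriv]
    refine ((hc.mul ((continuous_apply i).comp (hcS b).snd)).neg).add
      (continuous_finsetSum _ fun j _ => ?_)
    exact ((continuous_apply j).comp ((continuous_apply i).comp hK)).mul
      ((continuous_apply j).comp (hcS b).fst)
  · simp [Z, h0, z0]
  · rw [(hZ1 i b 0).deriv, h0]
  · rw [e1, (hZ2 i b s).deriv]
    ring

/-- A solution with proportional data is proportional to the matrix solution. -/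
theorem pulse_proportional {D : ℕ} {c : ℝ → ℝ} {K : ℝ → Matrix (Fin D) (Fin D) ℝ}
    (hc : Continuous c) (hK : Continuous K) {Z : ℝ → Matrix (Fin D) (Fin D) ℝ}
    (hZ : ∀ i b, ContDiff ℝ 2 fun s => Z s i b) (b : Fin D) {T : ℝ}
    (hZe : ∀ i, ∀ s ∈ Icc 0 T, deriv (deriv fun u => Z u i b) s
      + c s * deriv (fun u => Z u i b) s = ∑ j, K s i j * Z s j b)
    {z z' : ℝ → Fin D → ℝ} (hz : ∀ i s, HasDerivAt (fun u => z u i) (z' s i) s)
    (hz' : ∀ i, ∀ s ∈ Icc 0 T, HasDerivAt (fun u => z' u i)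
      (-(c s * z' s i) + ∑ j, K s i j * z s j) s)
    (A : ℝ) (h0 : ∀ i, z 0 i = A * Z 0 i b ∧ z' 0 i = A * deriv (fun u => Z u i b) 0) :
    ∀ i, ∀ s ∈ Icc 0 T, z s i = A * Z s i b ∧ z' s i = A * deriv (fun u => Z u i b) s := by
  set f : ℝ → (Fin D → ℝ) × (Fin D → ℝ) := fun s => (z s, z' s)
  set g : ℝ → (Fin D → ℝ) × (Fin D → ℝ) :=
    fun s => A • (fun i => Z s i b, fun i => deriv (fun u => Z u i b) s)
  have hd2 : ∀ i, ContDiff ℝ 1 (deriv fun u => Z u i b) := fun i => by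
    have h := hZ i b
    rw [show (2 : WithTop ℕ∞) = 1 + 1 from rfl, contDiff_succ_iff_deriv] at h
    exact h.2.2
  have hf : ∀ s ∈ Icc (0 : ℝ) T, HasDerivAt f (pulseField c K s (f s)) s := by
    intro s hs
    rw [pulseField_apply]
    exact (hasDerivAt_pi.2 fun i => hz i s).prodMk (hasDerivAt_pi.2 fun i => hz' i s hs)
  have hg : ∀ s ∈ Icc (0 : ℝ) T, HasDerivAt g (pulseField c K s (g s)) s := by
    intro s hs
    rw [map_smul, pulseField_apply]
    refine (HasDerivAt.prodMk (hasDerivAt_pi.2 fun i => ?_) (hasDerivAt_pi.2 fun i => ?_)).const_smul A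
    · exact ((hZ i b).differentiable two_ne_zero).differentiableAt.hasDerivAt
    · have h := ((hd2 i).differentiable one_ne_zero).differentiableAt (x := s) |>.hasDerivAt
      refine h.congr_deriv ?_
      linarith [hZe i s hs]
  have hfg := ParamODE.eqOn_of_deriv (continuous_pulseField hc hK) hf hg
    (Prod.ext (funext fun i => by simpa [f, g] using (h0 i).1)
      (funext fun i => by simpa [f, g] using (h0 i).2))
  intro i s hs
  have h := hfg hs
  simp only [f, g, Prod.smul_mk, Prod.mk.injEq] at h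
  exact ⟨by simpa using congrFun h.1 i, by simpa using congrFun h.2 i⟩

/-- One round of pulses is exact on all shells at once. -/
theorem pulseStep_of_gen (hGen : ∀ l, Spec.IsGen (genB Spec.mC l)) (hReach : Spec.Reach)
    (hEx : Spec.ExactPulse) : PulseStep := by
  intro t0 ht0 L E T U w θmax hT hU hwc hw hwint
  obtain ⟨N, J, ρ, σ, hJ, hρ, hσc, hσe⟩ := hReach Spec.mC L (by norm_num [Spec.mC]) kapR kapR_pos
    (kapR_strictAnti.strictAntiOn _) E (fun l => genB Spec.mC l) hGen T hT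
  set Ds : {l : Fin (L + 1) // 2 ≤ (l : ℕ)} → ℕ := fun l => (E l.1).D
  -- extend a family on the shells `2 .. L` by the target on the others
  set ext : (∀ l : {l : Fin (L + 1) // 2 ≤ (l : ℕ)}, Matrix (Fin (Ds l)) (Fin (Ds l)) ℝ) →
      (∀ l : Fin (L + 1), Matrix (Fin (E l).D) (Fin (E l).D) ℝ) :=
    fun X l => if h : 2 ≤ (l : ℕ) then X ⟨l, h⟩ else T l with hext
  have hextm : ∀ X, (∀ l a b, |X l a b - T l.1 a b| ≤ ρ) → ∀ l a b, |ext X l a b - T l a b| ≤ ρ := by
    intro X hX l a b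
    by_cases h : 2 ≤ (l : ℕ)
    · simpa [hext, h] using hX ⟨l, h⟩ a b
    · simp [hext, h, hρ.le]
  have hextc : Continuous ext := by
    refine continuous_pi fun l => ?_
    by_cases h : 2 ≤ (l : ℕ)
    · simp only [hext, dif_pos h]
      exact continuous_apply (⟨l, h⟩ : {l : Fin (L + 1) // 2 ≤ (l : ℕ)})
    · simp only [hext, dif_neg h]
      exact continuous_const
  obtain ⟨R, hR, hRest⟩ := hEx {l : Fin (L + 1) // 2 ≤ (l : ℕ)} Ds N
    (fun l k => kapR (l.1 : ℕ) • Spec.genMat (E l.1) (genB Spec.mC l.1) (J k))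
    (fun l => T l.1) ρ (fun X => σ (ext X)) w (fun l => c0R (l.1 : ℕ)) θmax hρ (fun l => hT l.1)
    (fun l => c0R_pos _) hwc.continuous
    (fun s hs => hw s (hs.imp (fun h => by linarith) fun h => by linarith)) hwint
    (fun k => (hσc k).comp hextc.continuousOn fun X hX => hextm X hX)
    (fun X hX l => by
      obtain ⟨c, hc, hce⟩ := hσe (ext X) (hextm X hX) l.1 l.2
      refine ⟨c, hc, ?_⟩
      have e : ext X l.1 = X l := by simp [hext, l.2]
      rw [e] at hce
      rw [← hce]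
      congr 1
      funext k
      rw [smul_smul, mul_comm])
  refine ⟨N, J, max R 1, hJ, le_max_right _ _, fun δ hδ => ?_⟩
  obtain ⟨η, hη, hpulse⟩ := hRest δ hδ
  -- bounds
  obtain ⟨W0, hW0⟩ := (isCompact_Icc (a := (0 : ℝ)) (b := 1)).exists_bound_of_continuousOn
    hwc.continuous.continuousOn
  have hW : ∀ s, |w s| ≤ max W0 0 := fun s => by
    by_cases hs : s ∈ Icc (0 : ℝ) 1
    · exact le_max_of_le_left (by simpa using hW0 s hs)
    · rw [hw s (by simp only [mem_Icc, not_and_or, not_le] at hs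
                   exact hs.imp (fun h => by linarith) fun h => by linarith), abs_zero]
      exact le_max_right _ _
  set W := max W0 0
  have hW00 : 0 ≤ W := le_max_right _ _
  set Q : ℝ := ∑ l : {l : Fin (L + 1) // 2 ≤ (l : ℕ)}, ∑ i, ∑ j, ∑ k : Fin N,
    (|lamR (l.1 : ℕ)| + |xiMat (E l.1) (J k) i j|) with hQd
  have hQ : 0 ≤ Q := by rw [hQd]; positivity
  have hQle : ∀ (l : {l : Fin (L + 1) // 2 ≤ (l : ℕ)}) i j,
      ∑ k : Fin N, (|lamR (l.1 : ℕ)| + |xiMat (E l.1) (J k) i j|) ≤ Q := by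
    intro l i j
    rw [hQd]
    refine le_trans (le_trans ?_ (Finset.single_le_sum (f := fun i => ∑ j, ∑ k : Fin N,
      (|lamR (l.1 : ℕ)| + |xiMat (E l.1) (J k) i j|)) (fun x _ => by positivity)
      (Finset.mem_univ i))) (Finset.single_le_sum
      (f := fun l : {l : Fin (L + 1) // 2 ≤ (l : ℕ)} => ∑ i, ∑ j, ∑ k : Fin N,
        (|lamR (l.1 : ℕ)| + |xiMat (E l.1) (J k) i j|)) (fun x _ => by positivity)
      (Finset.mem_univ l))
    exact Finset.single_le_sum (f := fun j => ∑ k : Fin N,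
      (|lamR (l.1 : ℕ)| + |xiMat (E l.1) (J k) i j|)) (fun x _ => by positivity)
      (Finset.mem_univ j)
  set e0 : ℝ := exp (-2 * pinfC)
  set B : ℝ := R * W with hB
  have hB0 : 0 ≤ B := by positivity
  set δ' : ℝ := min 1 (η / (2 * (B * Q + 1)))
  have hδ' : 0 < δ' := by positivity
  set η' : ℝ := min η (min (1 / (B + 1)) (η / (2 * (2 * (e0 + 1) * B ^ 2 * Q + 1))))
  have hη' : 0 < η' := by
    have : 0 < e0 := exp_pos _
    positivity
  have hev : ∀ᶠ t in atTop, |exp (-2 * Prof.psi pinfC t0 t) - e0| ≤ δ' ∧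
      ∀ l : {l : Fin (L + 1) // 2 ≤ (l : ℕ)},
        |2 * (deriv (U l.1) t / U l.1 t) + drift0 t0 t - c0R (l.1 : ℕ)| ≤ η := by
    refine Filter.Eventually.and ?_ (eventually_all.2 fun l => ?_)
    · have h : Tendsto (fun t => exp (-2 * Prof.psi pinfC t0 t)) atTop (𝓝 e0) :=
        (continuous_exp.tendsto _).comp ((Prof.tendsto_psi ht0).const_mul (-2))
      exact ((Metric.tendsto_nhds.1 h δ' hδ').mono fun t ht => by
        rw [Real.dist_eq] at ht; exact ht.le)
    · have h := ((hU l.1).2.2.2.2.const_mul 2).add (tendsto_drift0_atTop ht0)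
      exact ((Metric.tendsto_nhds.1 h η hη).mono fun t ht => by
        rw [Real.dist_eq] at ht
        exact (le_of_eq (by rw [c0R])).trans ht.le)
  obtain ⟨Tmin, hTmin⟩ := eventually_atTop.1 hev
  refine ⟨η', hη', Tmin, fun a ε V0 θ ha hε hεη hV hθ => ?_⟩
  have hεη1 : ε ≤ η := hεη.trans (min_le_left _ _)
  have hεB : ε * B ≤ 1 := by
    have h := mul_le_mul_of_nonneg_right (hεη.trans ((min_le_right _ _).trans (min_le_left _ _))) hB0
    refine h.trans ?_
    rw [one_div_mul_eq_div, div_le_one (by positivity)]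
    linarith
  have herr : (δ' * B + (e0 + δ') * (2 * ε * B ^ 2)) * Q ≤ η := by
    have h1 : δ' * (B * Q + 1) ≤ η / 2 := by
      have : δ' ≤ η / (2 * (B * Q + 1)) := min_le_right _ _
      rw [le_div_iff₀ (by positivity)] at this
      linarith
    have h2 : ε * (2 * (e0 + 1) * B ^ 2 * Q + 1) ≤ η / 2 := by
      have : ε ≤ η / (2 * (2 * (e0 + 1) * B ^ 2 * Q + 1)) :=
        hεη.trans ((min_le_right _ _).trans (min_le_right _ _))
      rw [le_div_iff₀ (by positivity)] at this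
      linarith
    have h3 : (e0 + δ') * (2 * ε * B ^ 2) * Q ≤ (e0 + 1) * (2 * ε * B ^ 2) * Q := by
      gcongr
      exact min_le_left _ _
    nlinarith
  set c : {l : Fin (L + 1) // 2 ≤ (l : ℕ)} → ℝ → ℝ :=
    fun l s => 2 * (deriv (U l.1) (a + s) / U l.1 (a + s)) + drift0 t0 (a + s) with hcd
  have hUc : ∀ (l : Fin (L + 1)), Continuous fun t => deriv (U l) t / U l t := fun l =>
    ((hU l).1.continuous_deriv (by simp)).div (hU l).1.continuous fun t => ((hU l).2.1 t).1.ne'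
  have hcc : ∀ l, Continuous (c l) := fun l =>
    (((hUc l.1).const_mul 2).add (continuous_drift0 ht0)).comp (continuous_const_add a)
  set K : ∀ l : {l : Fin (L + 1) // 2 ≤ (l : ℕ)}, (Fin N → ℝ) → ℝ →
      Matrix (Fin (Ds l)) (Fin (Ds l)) ℝ := fun l => pulseCoef (E l.1) J w t0 a ε
  obtain ⟨α, hα, hsol⟩ := hpulse ε c K (fun l => V0 l.1) (fun l i => θ l.1 i i) hε hεη1 hcc
    (fun l => continuous_pulseCoef (E l.1) J hwc.continuous ht0 a ε)
    (fun l s hs => (hTmin (a + s) (by linarith [hs.1])).2 l)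
    (fun l α hα s hs i j => by
      refine ((pulseCoef_near (E l.1) J hW hε hεB hα
        (hTmin (a + s / ε) (by linarith [div_nonneg hs.1 hε.le])).1 i j).trans ?_)
      refine le_trans (mul_le_mul_of_nonneg_left (hQle l i j) (by positivity)) herr)
    (fun l i b => (hV l.1 i b).trans (min_le_left _ _))
    (fun l i => ⟨(hθ l.1 i i).1, (hθ l.1 i i).2.1⟩)
  refine ⟨α, fun i => (hα i).trans (le_max_left _ _), fun P _ hdr hprof l hl y hy b A hdata => ?_⟩
  -- the matrix solutions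
  have hKc : ∀ l, Continuous fun s => ε • K l α (ε * s) := fun l =>
    ((continuous_pulseCoef (E l.1) J hwc.continuous ht0 a ε).comp
      (continuous_const.prodMk (continuous_const.mul continuous_id))).const_smul ε
  choose Z hZs hZ0 hZe using fun l => exists_pulseSol (hcc l) (hKc l) 1 (V0 l.1)
  have hZeq : ∀ l i b s, deriv (deriv fun u => Z l u i b) s + c l s * deriv (fun u => Z l u i b) s
      = ε * ∑ j, K l α (ε * s) i j * Z l s j b := fun l i b s => by
    rw [hZe l i b s, Finset.mul_sum]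
    simp [Matrix.smul_apply, mul_assoc]
  obtain ⟨κ, hκ1, hκ2, hκ⟩ := hsol Z hZs (fun l i b => by simpa [Matrix.one_apply] using hZ0 l i b)
    (fun l i b s _ => hZeq l i b s) ⟨l, hl⟩
  refine ⟨κ, (inv_anti₀ hR (le_max_left _ _)).trans hκ1, hκ2.trans (le_max_left _ _), ?_⟩
  -- the solution in the new coordinates
  obtain ⟨hU1, hU2, -, hU4, -⟩ := hU l
  obtain ⟨hy1, hy2⟩ := hy
  have hUd : ∀ t, HasDerivAt (U l) (deriv (U l) t) t ∧
      HasDerivAt (deriv (U l)) (deriv (deriv (U l)) t) t := fun t =>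
    ⟨((hU1.differentiable (by simp)).differentiableAt).hasDerivAt,
      (((contDiff_infty_iff_deriv.1 hU1).2.differentiable (by simp)).differentiableAt).hasDerivAt⟩
  have hyd : ∀ i t, HasDerivAt (fun u => y u i) (deriv (fun u => y u i) t) t ∧
      HasDerivAt (deriv fun u => y u i) (deriv (deriv fun u => y u i) t) t := fun i t =>
    ⟨(((hy1 i).differentiable (by simp)).differentiableAt).hasDerivAt,
      (((contDiff_infty_iff_deriv.1 (hy1 i)).2.differentiable (by simp)).differentiableAt).hasDerivAt⟩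
  have hz1 : ∀ i t, HasDerivAt (fun u => y u i / U l u)
      ((deriv (fun u => y u i) t * U l t - y t i * deriv (U l) t) / U l t ^ 2) t :=
    fun i t => (hyd i t).1.div (hUd t).1 (hU2 t).1.ne'
  have hz1' : ∀ i, deriv (fun u => y u i / U l u) =
      fun t => (deriv (fun u => y u i) t * U l t - y t i * deriv (U l) t) / U l t ^ 2 :=
    fun i => funext fun t => (hz1 i t).deriv
  set z : ℝ → Fin (E l).D → ℝ := fun s i => y (a + s) i / U l (a + s)
  set z' : ℝ → Fin (E l).D → ℝ := fun s i => deriv (fun u => y u i / U l u) (a + s)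
  have hzd : ∀ i s, HasDerivAt (fun u => z u i) (z' s i) s := fun i s => by
    simp only [z', hz1']
    exact (hz1 i (a + s)).comp_const_add a s
  have hzd' : ∀ i, ∀ s ∈ Icc 0 ((N : ℝ) / ε), HasDerivAt (fun u => z' u i)
      (-(c ⟨l, hl⟩ s * z' s i) + ∑ j, (ε • K ⟨l, hl⟩ α (ε * s)) i j * z s j) s := by
    intro i s hs
    obtain ⟨hp, hq, hJs⟩ := hprof s hs
    simp only [z', hz1']
    have h1 := ((((hyd i (a + s)).2.mul (hUd (a + s)).1).sub
      ((hyd i (a + s)).1.mul (hUd (a + s)).2)).div ((hUd (a + s)).1.pow 2)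
      (pow_ne_zero _ (hU2 (a + s)).1.ne'))
    refine (h1.comp_const_add a s).congr_deriv ?_
    have hsum : ∑ j, (ε • K ⟨l, hl⟩ α (ε * s)) i j * z s j =
        ((∑ j, Mshell P (E l) (a + s) i j * y (a + s) j)
          - exp (-2 * Prof.psi pinfC t0 (a + s)) * lamR l * y (a + s) i) / U l (a + s) := by
      have hk : ∀ j, (ε • K ⟨l, hl⟩ α (ε * s)) i j = Mshell P (E l) (a + s) i j -
          exp (-2 * Prof.psi pinfC t0 (a + s)) * lamR l *
            (1 : Matrix (Fin (E l).D) (Fin (E l).D) ℝ) i j :=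
        fun j => (Mshell_eq_pulse (E l) hw hε hp hq hJs i j).symm
      rw [Finset.sum_congr rfl fun j _ => by rw [hk j]]
      simp only [z, sub_mul, Finset.sum_sub_distrib, sub_div, Finset.sum_div, Matrix.one_apply,
        mul_ite, mul_one, mul_zero, ite_mul, zero_mul, Finset.sum_ite_eq, Finset.mem_univ, if_true,
        mul_div_assoc]
      rfl
    have e1 := hy2 i (a + s)
    rw [hdr (a + s)] at e1
    rw [hsum, ← e1]
    have e2 := hU4 (a + s)
    simp only [hcd, Pi.pow_apply, Pi.sub_apply, Pi.mul_apply, Nat.cast_ofNat]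
    set u := U l (a + s)
    set u1 := deriv (U l) (a + s)
    set v := y (a + s) i
    have hu : u ≠ 0 := (hU2 (a + s)).1.ne'
    rw [show deriv (deriv (U l)) (a + s) =
      exp (-2 * Prof.psi pinfC t0 (a + s)) * lamR l * u - drift0 t0 (a + s) * u1 by
        linear_combination e2]
    field_simp
    ring
  have hprop := pulse_proportional (hcc ⟨l, hl⟩) (hKc ⟨l, hl⟩) (hZs ⟨l, hl⟩) b
    (fun i s _ => hZe ⟨l, hl⟩ i b s) hzd hzd' A (fun i => by
      obtain ⟨h1, h2⟩ := hdata i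
      obtain ⟨h3, h4⟩ := hZ0 ⟨l, hl⟩ i b
      refine ⟨?_, ?_⟩
      · simp only [z, add_zero, h1, h3, Matrix.one_apply]
      · simp only [z', add_zero, h2, h4])
  intro i
  obtain ⟨h1, h2⟩ := hprop i _ ⟨by positivity, le_rfl⟩
  obtain ⟨h3, h4⟩ := hκ i b
  refine ⟨?_, ?_⟩
  · show z _ i + θ l i i * z' _ i = _
    rw [h1, h2]
    linear_combination A * h3
  · show |z' _ i| ≤ _
    rw [h2, abs_mul]
    exact mul_le_mul_of_nonneg_left h4 (abs_nonneg A)

/-- The step of the assembly. -/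
theorem pulseStep (hReach : Spec.Reach) (hEx : Spec.ExactPulse) : PulseStep :=
  pulseStep_of_gen (isGen_genB Spec.mC) hReach hEx

end Vale.Agent.P225.Full.Asm
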