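import Vale.Agent.P225.Full.Spec

/-! # Selection of the charges, the cyclic switch, and averaging along the schedule -/

namespace Vale.Agent.P225.Full

open Finset Filter Topology Equiv

/-- The dwell weights absorb lower order terms. -/
theorem absorb_top (A ν : ℝ) (hν : 0 < ν) (j0 : ℕ) :
    ∃ C : ℝ, ∀ n : ℕ, A * ((n + j0 : ℕ) : ℝ) ^ 4 ≤ ν * (∑ j ∈ range n, ((j + j0 : ℕ) : ℝ) ^ 4) + C := by
  obtain ⟨M, hM⟩ := exists_nat_gt (|A| * 2 * 8 ^ 4 / ν)
  set N0 := max M (max j0 4)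
  refine ⟨|A| * ((N0 + j0 : ℕ) : ℝ) ^ 4, fun n => ?_⟩
  have hA : A * ((n + j0 : ℕ) : ℝ) ^ 4 ≤ |A| * ((n + j0 : ℕ) : ℝ) ^ 4 :=
    mul_le_mul_of_nonneg_right (le_abs_self A) (by positivity)
  refine hA.trans ?_
  rcases le_or_gt n N0 with h | h
  · exact le_add_of_nonneg_of_le (mul_nonneg hν.le (sum_nonneg fun _ _ => by positivity))
      (mul_le_mul_of_nonneg_left (pow_le_pow_left₀ (by positivity) (by exact_mod_cast Nat.add_le_add_right h j0) 4)
        (abs_nonneg A))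
  · refine le_add_of_le_of_nonneg ?_ (by positivity)
    have hsum : ((n - n / 2 : ℕ) : ℝ) * ((n / 2 + j0 : ℕ) : ℝ) ^ 4 ≤
        ∑ j ∈ range n, ((j + j0 : ℕ) : ℝ) ^ 4 := by
      refine le_trans ?_ (sum_le_sum_of_subset_of_nonneg (s := Ico (n / 2) n) (fun j hj => ?_)
        fun j _ _ => by positivity)
      · refine le_trans (le_of_eq ?_) (card_nsmul_le_sum _ _ (((n / 2 + j0 : ℕ) : ℝ) ^ 4) fun j hj => ?_)
        · rw [Nat.card_Ico, nsmul_eq_mul]
        · exact pow_le_pow_left₀ (by positivity) (by exact_mod_cast Nat.add_le_add_right (mem_Ico.1 hj).1 j0) 4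
      · exact mem_range.2 (mem_Ico.1 hj).2
    have h1 : (n : ℝ) / 2 ≤ ((n - n / 2 : ℕ) : ℝ) := by
      rw [div_le_iff₀ two_pos]; exact_mod_cast (show n ≤ (n - n / 2) * 2 by omega)
    have h2 : ((n + j0 : ℕ) : ℝ) / 8 ≤ ((n / 2 + j0 : ℕ) : ℝ) := by
      rw [div_le_iff₀ (by norm_num)]; exact_mod_cast (show n + j0 ≤ (n / 2 + j0) * 8 by omega)
    have h3 : |A| * 2 * 8 ^ 4 ≤ ν * n := by
      have : (M : ℝ) ≤ n := by exact_mod_cast (le_max_left M _).trans h.le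
      rw [div_lt_iff₀ hν] at hM
      nlinarith
    have h4 : |A| * ((n + j0 : ℕ) : ℝ) ^ 4 ≤ ν * ((n : ℝ) / 2 * (((n + j0 : ℕ) : ℝ) / 8) ^ 4) := by
      have := mul_le_mul_of_nonneg_right h3 (pow_nonneg (Nat.cast_nonneg (n + j0) : (0:ℝ) ≤ _) 4)
      ring_nf at this ⊢
      linarith
    refine h4.trans (mul_le_mul_of_nonneg_left (le_trans ?_ hsum) hν.le)
    exact mul_le_mul h1 (pow_le_pow_left₀ (by positivity) h2 4) (by positivity) (Nat.cast_nonneg _)

/-- Rounds, ramps and switches are negligible. -/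
theorem absorb (A ν : ℝ) (hν : 0 < ν) (j0 : ℕ) :
    ∃ C : ℝ, ∀ n : ℕ, A * (∑ j ∈ range n, ((j + j0 : ℕ) : ℝ) ^ 3) + A * n + A * ((n + j0 : ℕ) : ℝ) ^ 4
      ≤ ν * (∑ j ∈ range n, ((j + j0 : ℕ) : ℝ) ^ 4) + C := by
  obtain ⟨C, hC⟩ := absorb_top (3 * |A|) ν hν j0
  refine ⟨C, fun n => le_trans ?_ (hC n)⟩
  set x := ((n + j0 : ℕ) : ℝ)
  have hn : (n : ℝ) ≤ x := Nat.cast_le.2 (Nat.le_add_right n j0)
  have hx : x ≤ x ^ 4 := by
    simp only [x]
    exact_mod_cast Nat.le_self_pow (by norm_num) (n + j0)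
  have h1 : ∑ j ∈ range n, ((j + j0 : ℕ) : ℝ) ^ 3 ≤ x ^ 4 := by
    refine (sum_le_card_nsmul _ _ (x ^ 3) fun j hj => pow_le_pow_left₀ (by positivity)
      (Nat.cast_le.2 (by have := mem_range.1 hj; omega)) 3).trans ?_
    rw [card_range, nsmul_eq_mul, pow_succ' x 3]
    exact mul_le_mul_of_nonneg_right hn (by positivity)
  have h2 : ∀ y : ℝ, 0 ≤ y → y ≤ x ^ 4 → A * y ≤ |A| * x ^ 4 := fun y hy hyx =>
    (mul_le_mul_of_nonneg_right (le_abs_self A) hy).trans (mul_le_mul_of_nonneg_left hyx (abs_nonneg A))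
  have := h2 _ (sum_nonneg fun _ _ => by positivity) h1
  have := h2 _ (Nat.cast_nonneg n) (hn.trans hx)
  have := h2 (x ^ 4) (by positivity) le_rfl
  linarith

/-- A periodic sequence has its mean along the dwell weights. -/
theorem periodic_mean {D : ℕ} (hD : 0 < D) (g : ℕ → ℝ) (hper : ∀ i, g (i + D) = g i) {μ ν : ℝ}
    (hsum : ∑ i ∈ range D, g i ≤ μ * D) (hν : 0 < ν) (j0 : ℕ) :
    ∃ C : ℝ, ∀ n : ℕ, ∑ j ∈ range n, ((j + j0 : ℕ) : ℝ) ^ 4 * g j
      ≤ (μ + ν) * (∑ j ∈ range n, ((j + j0 : ℕ) : ℝ) ^ 4) + C := by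
  set m0 := (∑ i ∈ range D, g i) / D
  have hm0 : m0 ≤ μ := (div_le_iff₀ (Nat.cast_pos.2 hD)).2 hsum
  set G : ℕ → ℝ := fun n => ∑ i ∈ range n, (g i - m0)
  set B : ℝ := ∑ i ∈ range D, |g i - m0|
  have hGD : G D = 0 := by
    simp only [G, sum_sub_distrib, sum_const, card_range, nsmul_eq_mul, m0]
    field_simp
    ring
  have hGper : ∀ n, G (n + D) = G n := fun n => by
    simp only [G]
    induction n with
    | zero => simpa [G] using hGD
    | succ n ih => rw [Nat.succ_add, sum_range_succ, sum_range_succ, ih, hper]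
  have hG : ∀ n, |G n| ≤ B := fun n => by
    induction n using Nat.strong_induction_on with
    | _ n ih =>
      rcases lt_or_ge n D with h | h
      · exact (abs_sum_le_sum_abs _ _).trans
          (sum_le_sum_of_subset_of_nonneg (range_subset_range.2 h.le) fun _ _ _ => abs_nonneg _)
      · obtain ⟨k, rfl⟩ := Nat.exists_eq_add_of_le h
        rw [add_comm D k, hGper]
        exact ih k (by omega)
  set ω : ℕ → ℝ := fun j => ((j + j0 : ℕ) : ℝ) ^ 4
  have hω : ∀ j, ω j ≤ ω (j + 1) := fun j => pow_le_pow_left₀ (by positivity) (Nat.cast_le.2 (by omega)) 4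
  have habel : ∀ n, ∑ j ∈ range n, ω j * (g j - m0) - G n * ω n ≤ B * (ω n - ω 0) := fun n => by
    induction n with
    | zero => simp [G]
    | succ n ih =>
      rw [sum_range_succ]
      have e : G (n + 1) = G n + (g n - m0) := sum_range_succ _ _
      have := mul_le_mul_of_nonneg_right (neg_le_of_abs_le (hG (n + 1))) (sub_nonneg.2 (hω n))
      rw [e] at this ⊢
      linarith
  obtain ⟨C, hC⟩ := absorb_top (2 * B) ν hν j0
  refine ⟨C, fun n => ?_⟩
  have h1 := habel n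
  have h2 := mul_le_mul_of_nonneg_right ((abs_le.1 (hG n)).2) (show 0 ≤ ω n by positivity)
  have hB : 0 ≤ B := sum_nonneg fun _ _ => abs_nonneg _
  have h3 : 0 ≤ B * ω 0 := mul_nonneg hB (by positivity)
  have h4 : ∑ j ∈ range n, ω j * (g j - m0) = ∑ j ∈ range n, ω j * g j - m0 * ∑ j ∈ range n, ω j := by
    simp only [mul_sub, sum_sub_distrib]
    rw [mul_comm m0, sum_mul]
  have h5 := mul_le_mul_of_nonneg_right hm0 (show 0 ≤ ∑ j ∈ range n, ω j from sum_nonneg fun _ _ => by positivity)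
  have h6 : 2 * B * ω n ≤ ν * (∑ j ∈ range n, ω j) + C := hC n
  show ∑ j ∈ range n, ω j * g j ≤ (μ + ν) * (∑ j ∈ range n, ω j) + C
  linarith

/-- Summing along one period of a cycle. -/
theorem sum_cycle {α : Type*} [DecidableEq α] {π : Perm α} {s : Finset α} (h : π.IsCycleOn s) {a : α}
    (ha : a ∈ s) (F : α → ℝ) : ∑ i ∈ range #s, F ((π ^ i) a) = ∑ b ∈ s, F b := by
  refine sum_bij (fun i _ => (π ^ i) a) (fun i _ => ?_) (fun i hi i' hi' e => ?_) (fun b hb => ?_)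
    fun i _ => rfl
  · exact h.1.mapsTo.perm_pow i ha
  · exact Nat.ModEq.eq_of_lt_of_lt ((h.pow_apply_eq_pow_apply ha).1 e) (mem_range.1 hi) (mem_range.1 hi')
  · obtain ⟨i, hi, e⟩ := h.exists_pow_eq ha hb
    exact ⟨i, mem_range.2 hi, e⟩

/-- A signed permutation matrix of determinant one. -/
theorem exists_signed_perm {D : ℕ} (π : Perm (Fin D)) :
    ∃ T : Matrix (Fin D) (Fin D) ℝ, T.det = 1 ∧
      ∀ c, (∀ a, a ≠ π c → T a c = 0) ∧ |T (π c) c| = 1 := by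
  have key : ∀ s : Fin D → ℝ, (∀ c, |s c| = 1) → (Perm.sign π : ℝ) * ∏ c, s c = 1 →
      ∃ T : Matrix (Fin D) (Fin D) ℝ, T.det = 1 ∧
        ∀ c, (∀ a, a ≠ π c → T a c = 0) ∧ |T (π c) c| = 1 := fun s hs hd => by
    refine ⟨(π⁻¹).permMatrix ℝ * Matrix.diagonal s, ?_, fun c => ⟨fun a ha => ?_, ?_⟩⟩
    · rw [Matrix.det_mul, Matrix.det_permutation, Matrix.det_diagonal, Perm.sign_inv]
      exact hd
    · rw [Matrix.mul_diagonal]
      simp [Equiv.Perm.permMatrix, PEquiv.toMatrix_apply, Equiv.toPEquiv_apply, Equiv.symm_apply_eq, ha]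
    · rw [Matrix.mul_diagonal]
      simp [Equiv.Perm.permMatrix, PEquiv.toMatrix_apply, Equiv.toPEquiv_apply, hs c]
  rcases Int.units_eq_one_or (Perm.sign π) with h | h
  · exact key (fun _ => 1) (fun _ => abs_one) (by simp [h])
  · have hne : Nonempty (Fin D) := by
      by_contra hne
      rw [not_nonempty_iff] at hne
      rw [Subsingleton.elim π 1, Perm.sign_one] at h
      exact absurd h (by decide)
    obtain ⟨c0⟩ := hne
    refine key (fun c => if c = c0 then -1 else 1) (fun c => ?_) ?_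
    · split_ifs <;> simp
    · rw [prod_ite_eq' univ c0 fun _ => (-1 : ℝ), if_pos (mem_univ _), h]
      simp

/-- **Setup.** A selection of more than `h_k(R^n)` states, their cyclic switch, and its mean. -/
theorem exists_setup (hCount : Spec.Count) (E : ∀ l : ℕ, Spec.EigenShell Spec.mC l) :
    ∃ (k L : ℕ) (Sel : ∀ l, Finset (Fin (E l).D)) (π : ∀ l, Perm (Fin (E l).D))
      (T : ∀ l, Matrix (Fin (E l).D) (Fin (E l).D) ℝ) (ν : ℝ),
      1 ≤ k ∧ 0 < ν ∧ (∀ l, (l < 2 ∨ L < l) → Sel l = ∅) ∧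
      harmonicDim (2 * Spec.mC + 2) k < ∑ l ∈ range (L + 1), #(Sel l) ∧
      (∀ l, ∀ c ∈ Sel l, π l c ∈ Sel l) ∧ (∀ l, (T l).det = 1) ∧
      (∀ l, ∀ c ∈ Sel l, (∀ a, a ≠ π l c → T l a c = 0) ∧ |T l (π l c) c| = 1) ∧
      ∀ j0 : ℕ, ∃ C : ℝ, ∀ l, ∀ c ∈ Sel l, ∀ n : ℕ,
        (∑ j ∈ range n, ((j + j0 : ℕ) : ℝ) ^ 4 *
            Spec.expo (Spec.level l ((E l).charge ((π l ^ (j + 1)) c)))
          ≤ ((k : ℝ) - 2 * ν) * (∑ j ∈ range n, ((j + j0 : ℕ) : ℝ) ^ 4) + C) ∧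
        ∑ j ∈ range n, ((j + j0 : ℕ) : ℝ) ^ 4 *
            Spec.expo (Spec.level l ((E l).charge ((π l ^ j) c)))
          ≤ ((k : ℝ) - 2 * ν) * (∑ j ∈ range n, ((j + j0 : ℕ) : ℝ) ^ 4) + C := by
  classical
  obtain ⟨k, L, S, hk, hL, h2, hS, hmean, hcount⟩ := hCount
  have hX : ∀ l P, ∃ X : Finset (Fin (E l).D), (∀ a ∈ X, (E l).charge a = P) ∧
      (P ∈ S l → (#X : ℤ) = Spec.mult Spec.mC l P) := fun l P => by
    by_cases hP : P ∈ S l
    · have hle := (E l).card_charge P (hS l P hP).1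
      have h0 := (hS l P hP).2
      obtain ⟨X, hX, hc⟩ := exists_subset_card_eq
        (s := univ.filter fun a => (E l).charge a = P) (n := (Spec.mult Spec.mC l P).toNat) (by omega)
      exact ⟨X, fun a ha => (mem_filter.1 (hX ha)).2, fun _ => by omega⟩
    · exact ⟨∅, by simp, fun h => absurd h hP⟩
  choose X hXc hXn using hX
  set Sel : ∀ l, Finset (Fin (E l).D) := fun l => (S l).biUnion (X l)
  have hdisj : ∀ l, ((S l : Finset ℕ) : Set ℕ).PairwiseDisjoint (X l) := fun l P _ Q _ hPQ => by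
    show Disjoint (X l P) (X l Q)
    exact disjoint_left.2 fun a ha hb => hPQ ((hXc l P a ha).symm.trans (hXc l Q a hb))
  have hcard : ∀ l, (#(Sel l) : ℤ) = ∑ P ∈ S l, Spec.mult Spec.mC l P := fun l => by
    rw [card_biUnion (hdisj l), Nat.cast_sum]
    exact sum_congr rfl fun P hP => hXn l P hP
  set e : ∀ l, Fin (E l).D → ℝ := fun l a => Spec.expo (Spec.level l ((E l).charge a))
  have hsum : ∀ l, ∑ a ∈ Sel l, e l a =
      ∑ P ∈ S l, (Spec.mult Spec.mC l P : ℝ) * Spec.expo (Spec.level l P) := fun l => by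
    rw [sum_biUnion (hdisj l)]
    refine sum_congr rfl fun P hP => ?_
    rw [sum_congr rfl fun a ha => (by simp only [e, hXc l P a ha] : e l a = Spec.expo (Spec.level l P)),
      sum_const, nsmul_eq_mul, ← hXn l P hP, Int.cast_natCast]
  choose π hπ hπs using fun l => exists_cycleOn (Sel l)
  choose T hTd hT using fun l => exists_signed_perm (π l)
  -- the gap
  have hgap : ∀ᶠ ν : ℝ in 𝓝[>] 0, ∀ l ∈ range (L + 1), (S l).Nonempty →
      ∑ a ∈ Sel l, e l a ≤ ((k : ℝ) - 3 * ν) * #(Sel l) := by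
    rw [Filter.eventually_all_finset]
    intro l _
    by_cases hne : (S l).Nonempty
    · have hc : ((#(Sel l) : ℕ) : ℝ) = ∑ P ∈ S l, (Spec.mult Spec.mC l P : ℝ) := by
        exact_mod_cast congrArg (fun z : ℤ => (z : ℝ)) (hcard l)
      have hlt : ∑ a ∈ Sel l, e l a < ((k : ℝ) - 3 * 0) * #(Sel l) := by
        rw [hsum, hc, mul_zero, sub_zero]; exact hmean l hne
      have hcont : ContinuousAt (fun ν : ℝ => ((k : ℝ) - 3 * ν) * #(Sel l)) 0 := by fun_prop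
      exact ((hcont.eventually_const_lt hlt).filter_mono nhdsWithin_le_nhds).mono fun ν h _ => h.le
    · exact Eventually.of_forall fun ν h => absurd h hne
  obtain ⟨ν, hν, hν0⟩ := (hgap.and self_mem_nhdsWithin).exists
  refine ⟨k, L, Sel, π, T, ν, hk, hν0, fun l hl => ?_, ?_, fun l c hc => (hπ l).1.mapsTo hc,
    hTd, fun l c _ => hT l c, fun j0 => ?_⟩
  · rcases hl with hl | hl
    · simp [Sel, h2 l hl]
    · simp [Sel, hL l hl]
  · have h : (∑ l ∈ range (L + 1), #(Sel l) : ℕ) = ∑ l ∈ range (L + 1), ∑ P ∈ S l, Spec.mult Spec.mC l P := by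
      rw [Nat.cast_sum]; exact sum_congr rfl fun l _ => hcard l
    omega
  have hex : ∀ p : Σ l, Fin (E l).D, ∃ C : ℝ, p.2 ∈ Sel p.1 → ∀ n : ℕ,
      ∑ j ∈ range n, ((j + j0 : ℕ) : ℝ) ^ 4 * e p.1 ((π p.1 ^ j) p.2)
        ≤ ((k : ℝ) - 2 * ν) * (∑ j ∈ range n, ((j + j0 : ℕ) : ℝ) ^ 4) + C := fun ⟨l, c⟩ => by
    by_cases hc : c ∈ Sel l
    · obtain ⟨P, hP, -⟩ := mem_biUnion.1 hc
      have hl : l ∈ range (L + 1) := mem_range.2 (by
        by_contra hlt
        simp [hL l (by omega)] at hP)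
      obtain ⟨C, hC⟩ := periodic_mean (card_pos.2 ⟨c, hc⟩) (fun j => e l ((π l ^ j) c))
        (fun i => by rw [pow_add, Perm.mul_apply, (hπ l).pow_card_apply hc])
        (μ := (k : ℝ) - 3 * ν) (ν := ν)
        (by rw [sum_cycle (hπ l) hc]; exact hν l hl ⟨P, hP⟩) hν0 j0
      exact ⟨C, fun _ n => (hC n).trans (le_of_eq (by ring))⟩
    · exact ⟨0, fun h => absurd h hc⟩
  choose C hC using hex
  refine ⟨∑ l ∈ range (L + 1), ∑ c : Fin (E l).D, |C ⟨l, c⟩|, fun l c hc n => ?_⟩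
  have hl : l ∈ range (L + 1) := mem_range.2 (by
    by_contra hlt
    obtain ⟨P, hP, -⟩ := mem_biUnion.1 hc
    simp [hL l (by omega)] at hP)
  have hle : ∀ b : Fin (E l).D, C ⟨l, b⟩ ≤ ∑ l ∈ range (L + 1), ∑ c : Fin (E l).D, |C ⟨l, c⟩| := fun b =>
    (le_abs_self _).trans ((single_le_sum (f := fun c => |C ⟨l, c⟩|) (fun _ _ => abs_nonneg _) (mem_univ b)).trans
      (single_le_sum (f := fun l => ∑ c : Fin (E l).D, |C ⟨l, c⟩|) (fun _ _ => sum_nonneg fun _ _ => abs_nonneg _) hl))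
  have hc' : π l c ∈ Sel l := (hπ l).1.mapsTo hc
  refine ⟨?_, (hC ⟨l, c⟩ hc n).trans (add_le_add le_rfl (hle c))⟩
  refine le_trans (le_of_eq (sum_congr rfl fun j _ => ?_))
    ((hC ⟨l, π l c⟩ hc' n).trans (add_le_add le_rfl (hle _)))
  simp only [e]
  rw [show (π l ^ (j + 1)) c = (π l ^ j) (π l c) from by rw [pow_succ, Perm.mul_apply]]

end Vale.Agent.P225.Full
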