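import Vale.Agent.P225.Full.ShellCount

/-! # Bases of the shells diagonalising the squared rotation -/

noncomputable section

namespace Vale.Agent.P225.Full

namespace Shell

open MvPolynomial Finset Module Matrix

variable {n m : ℕ}

lemma xiPoly_apply' (J : Matrix (Fin n) (Fin n) ℝ) (p : Poly n) :
    xiPoly J p = ∑ i, ∑ j, J i j • (X j * pderiv i p) := by
  simp [xiPoly, LinearMap.sum_apply]

lemma xiPoly_mul' (J : Matrix (Fin n) (Fin n) ℝ) (p q : Poly n) :
    xiPoly J (p * q) = xiPoly J p * q + p * xiPoly J q := by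
  simp only [xiPoly_apply', pderiv_mul, sum_mul, mul_sum, ← sum_add_distrib, smul_eq_C_mul]
  exact sum_congr rfl fun i _ => sum_congr rfl fun j _ => by ring

lemma pderiv_comm' (a i : Fin n) (p : Poly n) : pderiv i (pderiv a p) = pderiv a (pderiv i p) := by
  induction p using MvPolynomial.induction_on with
  | C c => simp
  | add p q hp hq => simp [hp, hq]
  | mul_X p k hp =>
    simp only [pderiv_mul, map_add, hp, pderiv_X, Pi.single_apply, apply_ite (pderiv i),
      apply_ite (pderiv a), pderiv_one, map_zero]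
    split_ifs <;> ring

lemma sum_antisymm {J : Matrix (Fin n) (Fin n) ℝ} (hJ : ∀ a b, J a b = -J b a)
    (f : Fin n → Fin n → Poly n) (hf : ∀ a b, f a b = f b a) : ∑ a, ∑ b, J a b • f a b = 0 := by
  have h : ∑ a, ∑ b, J a b • f a b = -∑ a, ∑ b, J a b • f a b := by
    conv_lhs => rw [sum_comm]
    simp only [← sum_neg_distrib]
    exact sum_congr rfl fun a _ => sum_congr rfl fun b _ => by rw [hJ b a, hf b a, neg_smul]
  have h2 : (2 : ℝ) • ∑ a, ∑ b, J a b • f a b = 0 := by
    rw [two_smul]; exact eq_neg_iff_add_eq_zero.1 h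
  simpa using h2

lemma pderiv_xiPoly (J : Matrix (Fin n) (Fin n) ℝ) (b : Fin n) (p : Poly n) :
    pderiv b (xiPoly J p) = xiPoly J (pderiv b p) + ∑ a, J a b • pderiv a p := by
  simp only [xiPoly_apply', map_sum, Derivation.map_smul, ← sum_add_distrib]
  refine sum_congr rfl fun i _ => ?_
  have h : ∀ j, J i j • pderiv b (X j * pderiv i p)
      = J i j • (X j * pderiv i (pderiv b p)) + if j = b then J i b • pderiv i p else 0 := by
    intro j
    rw [pderiv_mul, pderiv_comm' i b p, pderiv_X, Pi.single_apply]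
    split_ifs with hj
    · subst hj; rw [one_mul, smul_add, add_comm]
    · rw [zero_mul, zero_add, add_zero]
  simp only [h, sum_add_distrib, sum_ite_eq', mem_univ, if_true]

lemma plap_xiPoly {J : Matrix (Fin n) (Fin n) ℝ} (hJ : ∀ a b, J a b = -J b a) (p : Poly n) :
    plap n (xiPoly J p) = xiPoly J (plap n p) := by
  simp only [plap_apply, pderiv_xiPoly, map_add, map_sum, Derivation.map_smul, sum_add_distrib]
  have h : ∑ b, ∑ a, J a b • pderiv b (pderiv a p) = 0 := by
    rw [sum_comm]
    exact sum_antisymm hJ _ fun a b => pderiv_comm' a b p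
  have h' : ∑ b, ∑ a, J a b • pderiv a (pderiv b p) = 0 := by
    rw [← h]; exact sum_congr rfl fun b _ => sum_congr rfl fun a _ => by rw [pderiv_comm']
  rw [h, h']
  abel

lemma xiPoly_psq {J : Matrix (Fin n) (Fin n) ℝ} (hJ : ∀ a b, J a b = -J b a) :
    xiPoly J (psq n) = 0 := by
  rw [xiPoly_apply']
  simp only [pderiv_psq]
  exact sum_antisymm hJ _ fun a b => by ring

lemma stdJ_antisymm (n : ℕ) (a b : Fin n) : stdJ n a b = -stdJ n b a := by
  unfold stdJ
  split_ifs <;> first | (norm_num; done) | omega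

/-- The square of the standard rotation. -/
def rot2 (m : ℕ) : Poly (2 * m + 2) →ₗ[ℝ] Poly (2 * m + 2) :=
  (xiPoly (stdJ (2 * m + 2))).comp (xiPoly (stdJ (2 * m + 2)))

lemma plap_rot2 (p : Poly (2 * m + 2)) : plap _ (rot2 m p) = rot2 m (plap _ p) := by
  simp only [rot2, LinearMap.comp_apply, plap_xiPoly (stdJ_antisymm _)]

lemma rot2_psq_mul (p : Poly (2 * m + 2)) : rot2 m (psq _ * p) = psq _ * rot2 m p := by
  simp only [rot2, LinearMap.comp_apply, xiPoly_mul', xiPoly_psq (stdJ_antisymm _), zero_mul,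
    zero_add]

lemma mem_eigR' {l : ℕ} {k : ℤ} {p : Poly (2 * m + 2)} :
    p ∈ eigR m l k ↔ p.IsHomogeneous l ∧ rot2 m p = (-((k : ℝ) ^ 2)) • p := mem_eigR

/-- Harmonic eigenvectors. -/
def eigH (m l : ℕ) (k : ℤ) : Submodule ℝ (Poly (2 * m + 2)) :=
  eigR m l k ⊓ LinearMap.ker (plap (2 * m + 2))

instance finiteDimensional_eigH (l : ℕ) (k : ℤ) : FiniteDimensional ℝ (eigH m l k) :=
  Submodule.finiteDimensional_of_le inf_le_left

lemma finrank_eigH_small {l : ℕ} (hl : l < 2) (k : ℤ) :
    finrank ℝ (eigH m l k) = (monos m l k).card := by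
  rw [← finrank_eigR]
  have h : eigH m l k = eigR m l k :=
    le_antisymm inf_le_left fun p hp => ⟨hp, plap_eq_zero_of_lt hl (mem_eigR.1 hp).1⟩
  rw [h]

lemma finrank_eigH_add (m l : ℕ) (k : ℤ) :
    finrank ℝ (eigH m (l + 2) k) + (monos m l k).card = (monos m (l + 2) k).card := by
  rw [← finrank_eigR, ← finrank_eigR]
  let L : eigR m (l + 2) k →ₗ[ℝ] eigR m l k :=
    LinearMap.codRestrict _ ((plap (2 * m + 2)).comp (Submodule.subtype _)) fun p => by
      obtain ⟨h1, h2⟩ := mem_eigR'.1 p.2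
      refine mem_eigR'.2 ⟨plap_isHomogeneous h1, ?_⟩
      simp only [LinearMap.comp_apply, Submodule.subtype_apply, ← plap_rot2, h2, map_smul]
  let Q : eigR m l k →ₗ[ℝ] eigR m (l + 2) k :=
    LinearMap.codRestrict _ ((LinearMap.mulLeft ℝ (psq (2 * m + 2))).comp (Submodule.subtype _))
      fun p => by
        obtain ⟨h1, h2⟩ := mem_eigR'.1 p.2
        refine mem_eigR'.2 ⟨?_, ?_⟩
        · have h := (psq_isHomogeneous (n := 2 * m + 2)).mul h1
          have e : (2 : ℕ) + l = l + 2 := add_comm 2 l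
          exact e ▸ h
        · simp only [LinearMap.comp_apply, Submodule.subtype_apply, LinearMap.mulLeft_apply,
            rot2_psq_mul, h2, mul_smul_comm]
  have hsurj : Function.Surjective (L.comp Q) := by
    refine LinearMap.surjective_of_injective ?_
    rw [← LinearMap.ker_eq_bot, LinearMap.ker_eq_bot']
    intro p hp
    have h : plap _ (psq (2 * m + 2) * (p : Poly (2 * m + 2))) = 0 := congrArg Subtype.val hp
    rw [plap_psq_mul (mem_eigR.1 p.2).1] at h
    exact Subtype.ext (smul_add_psq_mul_eq_zero l _ (by positivity) _ (mem_eigR.1 p.2).1 h)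
  have hL : Function.Surjective L := fun y => by
    obtain ⟨q, hq⟩ := hsurj y; exact ⟨Q q, hq⟩
  have h := LinearMap.finrank_range_add_finrank_ker L
  rw [LinearMap.range_eq_top.2 hL, finrank_top] at h
  have hk : finrank ℝ (LinearMap.ker L) = finrank ℝ (eigH m (l + 2) k) := by
    have he : LinearMap.ker L = Submodule.comap (eigR m (l + 2) k).subtype (eigH m (l + 2) k) := by
      ext p
      exact ⟨fun h => ⟨p.2, congrArg Subtype.val h⟩, fun h => Subtype.ext h.2⟩
    rw [he]
    exact LinearEquiv.finrank_eq (Submodule.comapSubtypeEquivOfLe inf_le_left)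
  omega

lemma bideg_mono (m l P : ℕ) :
    bideg m l P ≤ bideg m (l + 2) (P + 1) := by
  refine Nat.mul_le_mul (Nat.choose_le_choose _ (by omega)) (Nat.choose_le_choose _ (by omega))

lemma mult_small {m l P : ℕ} (hl : l < 2) (hP : P ≤ l) : Spec.mult m l P = bideg m l P := by
  rw [Spec.mult, if_pos (by omega), sub_zero]; simp [bideg]

lemma mult_split (m l P : ℕ) : Spec.mult m (l + 2) (P + 1)
    = (bideg m (l + 2) (P + 1) : ℤ) - if P ≤ l then (bideg m l P : ℤ) else 0 := by
  rw [Spec.mult]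
  by_cases h : P ≤ l
  · rw [if_neg (by omega), if_pos h]
    simp only [bideg, show m + (P + 1) - 1 = m + P by omega,
      show m + (l + 2 - (P + 1)) - 1 = m + (l - P) by omega]
    push_cast; rfl
  · rw [if_pos (by omega), if_neg h]
    simp [bideg]

lemma mult_zero (m l : ℕ) : Spec.mult m l 0 = bideg m l 0 := by
  rw [Spec.mult, if_pos (Or.inl rfl)]; simp [bideg]

lemma mult_nonneg {m l P : ℕ} (hP : P ≤ l) : 0 ≤ Spec.mult m l P := by
  by_cases hl : l < 2
  · rw [mult_small hl hP]; positivity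
  obtain ⟨l, rfl⟩ : ∃ j, l = j + 2 := ⟨l - 2, by omega⟩
  rcases P with _ | P
  · rw [mult_zero]; positivity
  rw [mult_split]
  split_ifs
  · have := bideg_mono m l P; omega
  · simp

/-- Sums of multiplicities against a weight, in terms of monomials. -/
lemma sum_mult_add (m l : ℕ) (w : ℤ → ℤ) :
    ∑ P ∈ range (l + 3), w (2 * (P : ℤ) - (l + 2 : ℕ)) * Spec.mult m (l + 2) P
      = ∑ P ∈ range (l + 3), w (2 * (P : ℤ) - (l + 2 : ℕ)) * bideg m (l + 2) P
        - ∑ P ∈ range (l + 1), w (2 * (P : ℤ) - l) * bideg m l P := by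
  rw [sum_range_succ' _ (l + 2), sum_range_succ' _ (l + 2)]
  simp only [mult_split, mult_zero, mul_sub, sum_sub_distrib]
  have h : ∑ P ∈ range (l + 2), w (2 * ((P + 1 : ℕ) : ℤ) - (l + 2 : ℕ)) * (if P ≤ l then (bideg m l P : ℤ) else 0)
      = ∑ P ∈ range (l + 1), w (2 * (P : ℤ) - l) * bideg m l P := by
    rw [sum_range_succ, if_neg (by omega), mul_zero, add_zero]
    refine sum_congr rfl fun P hP => ?_
    rw [if_pos (by have := mem_range.1 hP; omega)]
    congr 2
    push_cast; ring
  rw [h]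
  ring

theorem finrank_eigH (m l : ℕ) (k : ℤ) : (finrank ℝ (eigH m l k) : ℤ)
    = ∑ P ∈ range (l + 1), (if (2 * (P : ℤ) - l) ^ 2 = k ^ 2 then 1 else 0) * Spec.mult m l P := by
  have hc : ∀ j, ((monos m j k).card : ℤ)
      = ∑ P ∈ range (j + 1), (if (2 * (P : ℤ) - j) ^ 2 = k ^ 2 then 1 else 0) * (bideg m j P : ℤ) := by
    intro j
    rw [card_monos, Nat.cast_sum]
    refine sum_congr rfl fun P _ => ?_
    split_ifs <;> simp
  by_cases hl : l < 2
  · rw [finrank_eigH_small hl, hc]
    exact sum_congr rfl fun P hP => by rw [mult_small hl (by have := mem_range.1 hP; omega)]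
  obtain ⟨l, rfl⟩ : ∃ j, l = j + 2 := ⟨l - 2, by omega⟩
  have h := finrank_eigH_add m l k
  rw [sum_mult_add m l (fun z => if z ^ 2 = k ^ 2 then 1 else 0), ← hc, ← hc]
  omega

theorem finrank_Harm_eq (m l : ℕ) :
    (finrank ℝ (Harm (2 * m + 2) l) : ℤ) = ∑ P ∈ range (l + 1), Spec.mult m l P := by
  by_cases hl : l < 2
  · rw [Harm_eq_Hom hl, ← sum_bideg, Nat.cast_sum]
    exact sum_congr rfl fun P hP => (mult_small hl (by have := mem_range.1 hP; omega)).symm
  obtain ⟨l, rfl⟩ : ∃ j, l = j + 2 := ⟨l - 2, by omega⟩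
  have h := finrank_Harm_add (n := 2 * m + 2) (by omega) l
  rw [← sum_bideg, ← sum_bideg] at h
  have h2 := sum_mult_add m l fun _ => 1
  simp only [one_mul] at h2
  rw [show l + 2 + 1 = l + 3 from rfl] at h ⊢
  rw [h2, ← Nat.cast_sum, ← Nat.cast_sum]
  omega

/-- The absolute charge. -/
def absChg (l : ℕ) (P : Fin (l + 1)) : Fin (l + 1) := ⟨(2 * (P.val : ℤ) - l).natAbs, by omega⟩

theorem nonempty_eigenShell (m l : ℕ) : Nonempty (Spec.EigenShell m l) := by
  classical
  set V := Harm (2 * m + 2) l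
  set mu : Fin (l + 1) → ℕ := fun P => (Spec.mult m l P.val).toNat
  have hmu : ∀ P : Fin (l + 1), (mu P : ℤ) = Spec.mult m l P.val := fun P =>
    Int.toNat_of_nonneg (mult_nonneg (by omega))
  let ι := Σ P : Fin (l + 1), Fin (mu P)
  set g : ι → Fin (l + 1) := fun x => absChg l x.1
  have hsub : ∀ k : ℤ, eigH m l k ≤ V := fun k p hp => mem_Harm.2 ⟨(mem_eigR.1 hp.1).1, hp.2⟩
  have hcard : ∀ k : Fin (l + 1),
      Fintype.card {x : ι // g x = k} = finrank ℝ (eigH m l (k.val : ℤ)) := by
    intro k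
    zify
    rw [finrank_eigH, sum_range, Fintype.card_subtype, card_filter, Fintype.sum_sigma, Nat.cast_sum]
    refine sum_congr rfl fun P _ => ?_
    simp only [g, sum_const, card_univ, Fintype.card_fin, smul_eq_mul, Nat.cast_mul, hmu]
    have : absChg l P = k ↔ (2 * ((P : ℕ) : ℤ) - l) ^ 2 = ((k : ℕ) : ℤ) ^ 2 := by
      rw [← Int.natAbs_eq_iff_sq_eq, Int.natAbs_natCast, absChg, Fin.ext_iff]
    simp only [this]
    split_ifs <;> simp [hmu]
  let b : ∀ k : Fin (l + 1), Basis {x : ι // g x = k} ℝ (eigH m l (k.val : ℤ)) := fun k =>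
    (Module.finBasis ℝ _).reindex
      (Fintype.equivOfCardEq (by rw [Fintype.card_fin, hcard]))
  let v : ι → V := fun x => ⟨(b (g x) ⟨x, rfl⟩ : Poly (2 * m + 2)), hsub _ (b (g x) ⟨x, rfl⟩).2⟩
  have hv : ∀ (k : Fin (l + 1)) (x : {x : ι // g x = k}),
      (v x.1 : Poly (2 * m + 2)) = (b k x : Poly (2 * m + 2)) := by
    rintro k ⟨x, rfl⟩; rfl
  have hli : LinearIndependent ℝ v := by
    rw [Fintype.linearIndependent_iff]
    intro c hc x0
    let u : ∀ k : Fin (l + 1), eigH m l (k.val : ℤ) := fun k =>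
      ∑ x : {x : ι // g x = k}, c x.1 • b k x
    have hsum : ∑ k, (u k : Poly (2 * m + 2)) = 0 := by
      have h := congrArg (fun p : V => (p : Poly (2 * m + 2))) hc
      simp only [Submodule.coe_sum, Submodule.coe_smul, Submodule.coe_zero] at h
      rw [← h, ← Fintype.sum_fiberwise g fun x => c x • (v x : Poly (2 * m + 2))]
      refine sum_congr rfl fun k _ => ?_
      simp only [u, Submodule.coe_sum, Submodule.coe_smul, hv]
    have hzero : ∀ k, (u k : Poly (2 * m + 2)) = 0 := by
      by_contra hne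
      push Not at hne
      obtain ⟨k0, hk0⟩ := hne
      let K := {k : Fin (l + 1) // (u k : Poly (2 * m + 2)) ≠ 0}
      have hind : LinearIndependent ℝ fun k : K => (u k.1 : Poly (2 * m + 2)) := by
        refine Module.End.eigenvectors_linearIndependent' (rot2 m)
          (fun k : K => -((k.1.val : ℝ) ^ 2)) (fun a b h => ?_) _ fun k =>
          Module.End.hasEigenvector_iff.2 ⟨Module.End.mem_eigenspace_iff.2 ?_, k.2⟩
        · have : ((a.1.val : ℝ)) ^ 2 = (b.1.val : ℝ) ^ 2 := neg_inj.1 h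
          rw [pow_left_inj₀ (by positivity) (by positivity) two_ne_zero] at this
          exact Subtype.ext (Fin.ext (by exact_mod_cast this))
        · have := (mem_eigR'.1 (u k.1).2.1).2
          simpa using this
      have h1 : ∑ k : K, (1 : ℝ) • (u k.1 : Poly (2 * m + 2)) = 0 := by
        simp only [one_smul]
        refine Eq.trans ?_ ((sum_filter_ne_zero (s := (univ : Finset (Fin (l + 1))))
          (f := fun k => (u k : Poly (2 * m + 2)))).trans hsum)
        exact (sum_subtype (univ.filter fun k : Fin (l + 1) => (u k : Poly (2 * m + 2)) ≠ 0)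
          (fun k => by simp) fun k => (u k : Poly (2 * m + 2))).symm
      exact one_ne_zero (Fintype.linearIndependent_iff.1 hind (fun _ => 1) h1 ⟨k0, hk0⟩)
    have hu : u (g x0) = 0 := Subtype.ext (hzero (g x0))
    exact Fintype.linearIndependent_iff.1 (b (g x0)).linearIndependent
      (fun x => c x.1) hu ⟨x0, rfl⟩
  have hdim : Fintype.card ι = finrank ℝ V := by
    zify
    rw [finrank_Harm_eq, sum_range, Fintype.card_sigma, Nat.cast_sum]
    exact sum_congr rfl fun P _ => by rw [Fintype.card_fin, hmu]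
  let e : Fin (Fintype.card ι) ≃ ι := (Fintype.equivFin ι).symm
  let B : Basis ι ℝ V := Basis.mk hli (hli.span_eq_top_of_card_eq_finrank' hdim).ge
  refine ⟨⟨Fintype.card ι, B.reindex e.symm, fun a => (e a).1.val, fun a => ?_, fun P hP => ?_,
    fun a => ?_⟩⟩
  · have := (e a).1.isLt; omega
  · refine Eq.ge ?_
    rw [← hmu ⟨P, by omega⟩, Nat.cast_inj, ← Fintype.card_subtype]
    rw [Fintype.card_congr (e.subtypeEquiv (p := fun a => (e a).1.val = P)
      (q := fun x : ι => x.1.val = P) fun a => Iff.rfl), Fintype.card_subtype, card_filter,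
      Fintype.sum_sigma, Fintype.sum_eq_single ⟨P, by omega⟩]
    · simp
    · intro Q hQ
      refine sum_eq_zero fun _ _ => if_neg fun h => hQ (Fin.ext h)
  · have hx : (B.reindex e.symm a : V) = v (e a) := by simp [B]
    rw [hx]
    have h := (mem_eigR'.1 (b (g (e a)) ⟨e a, rfl⟩).2.1).2
    refine h.trans (congrArg (· • _) ?_)
    simp only [g, absChg]
    rw [neg_inj, ← Int.cast_pow, Int.natCast_natAbs, sq_abs]
    push_cast; ring

end Shell

/-- Every shell has a basis diagonalising the squared standard rotation. -/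
theorem shells : Spec.Shells := fun m l _ => Shell.nonempty_eigenShell m l

end Vale.Agent.P225.Full
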