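import Vale.Agent.P225.Full.AsmSpec
import Vale.Agent.P225.Full.RatioLin

/-! # The pivot solution between the pulses -/

namespace Vale.Agent.P225.Full

open Set Real

/-- growth over a segment, with a coarse bound on the logarithmic derivative carried along -/
theorem tail_growth {a b cm Γ γ' : ℝ} {c M y : ℝ → ℝ} (hab : a ≤ b) (hcm : 0 < cm) (hγ : 0 ≤ γ')
    (hγΓ : γ' ≤ Γ) (hy : ContDiff ℝ 2 y) (hc : Continuous c)
    (heq : ∀ t ∈ Icc a b, deriv (deriv y) t + c t * deriv y t = M t * y t)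
    (hb : ∀ t ∈ Icc a b, cm ≤ c t ∧ 0 ≤ M t ∧ M t ≤ γ' * (γ' + cm))
    (hya : 0 < y a) (hy'a : 0 ≤ deriv y a) (hs : deriv y a / y a ≤ Γ) :
    0 < y b ∧ 0 ≤ deriv y b ∧ deriv y b / y b ≤ Γ ∧
      y b ≤ y a * exp (γ' * (b - a) + (Γ - γ') / cm) := by
  have h := IsScalarSol.of_contDiff hy heq
  obtain ⟨hyb, hy'b⟩ := h.pos hc (fun t ht => (hb t ht).2.1) hya hy'a b (right_mem_Icc.2 hab)
  obtain ⟨g1, g2⟩ := h.growth hc hab hb le_rfl (by linarith) hya hy'a
  set V := max (deriv y a / y a - γ') 0 with hV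
  have hV0 : 0 ≤ V := le_max_right _ _
  have hVΓ : V ≤ Γ - γ' := max_le (by linarith) (by linarith)
  refine ⟨hyb, hy'b, ?_, g2.trans (mul_le_mul_of_nonneg_left (exp_le_exp.2 ?_) hya.le)⟩
  · have he : exp (-(2 * γ' + cm) * (b - a)) ≤ 1 := exp_le_one_iff.2
      (mul_nonpos_of_nonpos_of_nonneg (by linarith) (sub_nonneg.2 hab))
    linarith [mul_le_of_le_one_right hV0 he]
  · linarith [div_le_div₀ (hV0.trans hVΓ) hVΓ hcm (show cm ≤ 2 * γ' + cm by linarith)]

theorem tailMain : Asm.TailMain := by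
  intro a d0 d1 g e cm Γ γd γ c0 η c M y had hd hdg hge hcm hγd hγdΓ hγ hγΓ hη hηc hy hc hM heq hb
    hdw hgap hya hy'a hs
  have hΓ : 0 ≤ Γ := hγ.trans hγΓ
  have hsa : deriv y a / y a ≤ Γ := (div_le_iff₀ hya).2 hs
  have sub : ∀ u v t : ℝ, a ≤ u → v ≤ e → t ∈ Icc u v → t ∈ Icc a e := fun u v t h1 h2 ht =>
    ⟨h1.trans ht.1, ht.2.trans h2⟩
  have hd0e : d0 ≤ e := hd.trans (hdg.trans hge)
  obtain ⟨p0, q0, r0, b0⟩ := tail_growth had hcm hΓ le_rfl hy hc
    (fun t ht => heq t (sub a d0 t le_rfl hd0e ht)) (fun t ht => hb t (sub a d0 t le_rfl hd0e ht))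
    hya hy'a hsa
  obtain ⟨p1, q1, r1, b1⟩ := tail_growth hd hcm hγd hγdΓ hy hc
    (fun t ht => heq t (sub d0 d1 t had (hdg.trans hge) ht))
    (fun t ht => ⟨(hb t (sub d0 d1 t had (hdg.trans hge) ht)).1,
      (hb t (sub d0 d1 t had (hdg.trans hge) ht)).2.1, hdw t ht⟩) p0 q0 r0
  obtain ⟨pg, qg, rg, -⟩ := tail_growth hdg hcm hΓ le_rfl hy hc
    (fun t ht => heq t (sub d1 g t (had.trans hd) hge ht))
    (fun t ht => hb t (sub d1 g t (had.trans hd) hge ht)) p1 q1 r1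
  obtain ⟨pe, -, -, be⟩ := tail_growth (hdg.trans hge) hcm hΓ le_rfl hy hc
    (fun t ht => heq t (sub d1 e t (had.trans hd) le_rfl ht))
    (fun t ht => hb t (sub d1 e t (had.trans hd) le_rfl ht)) p1 q1 r1
  refine ⟨pe, ?_, ?_⟩
  · have h2 := (be.trans (mul_le_mul_of_nonneg_right b1 (exp_pos _).le)).trans
      (mul_le_mul_of_nonneg_right (mul_le_mul_of_nonneg_right b0 (exp_pos _).le) (exp_pos _).le)
    refine h2.trans ?_
    rw [mul_assoc, ← exp_add, mul_assoc, ← exp_add]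
    refine mul_le_mul_of_nonneg_left (exp_le_exp.2 ?_) hya.le
    rw [sub_self, zero_div, mul_div_assoc]
    have h3 : 0 ≤ Γ / cm := div_nonneg hΓ hcm.le
    have h4 : (Γ - γd) / cm ≤ Γ / cm := div_le_div_of_nonneg_right (by linarith) hcm.le
    linarith
  · have hag : a ≤ g := had.trans (hd.trans hdg)
    refine (ratioNear g e c0 γ η c M y hge hγ hη hηc hy hc hM
      (fun t ht => heq t (sub g e t hag le_rfl ht))
      (fun t ht => ⟨(hgap t ht).1, (hb t (sub g e t hag le_rfl ht)).2.1, (hgap t ht).2⟩)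
      pg qg).trans ?_
    have : |deriv y g / y g - γ| ≤ 2 * Γ := by
      have h0 : 0 ≤ deriv y g / y g := div_nonneg qg pg.le
      rw [abs_le]
      constructor <;> linarith
    linarith [mul_le_mul_of_nonneg_right this (exp_pos (-(c0 - η) * (e - g))).le]

end Vale.Agent.P225.Full
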