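import Vale.Agent.P225.Full.AsmGood
import Vale.Agent.P225.Full.Count
import Vale.Agent.P225.Full.Curv
import Vale.Agent.P225.Full.Laplace
import Vale.Agent.P225.Full.Complete
import Vale.Agent.P225.Full.EndgameSol
import Vale.Agent.P225.Full.Setup
import Vale.Agent.P225.Full.Shells
import Vale.Agent.P225.Full.Tail
import Vale.Agent.P225.Full.PulseStep
import Vale.Agent.P225.Full.ExactPulse

/-! # Assembly of the counterexample -/

namespace Vale.Agent.P225.Full.Asm

open Real Filter Topology Matrix Schedule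

variable {t0 : ℝ} {L : ℕ} {E : ∀ l, Spec.EigenShell Spec.mC l} {U : ℕ → ℝ → ℝ} {C : Clock}
  {Ji : Fin C.N → Jmat} {Sel : ∀ l, Finset (Fin (E l).D)} {prm : ∀ l, Equiv.Perm (Fin (E l).D)}
  {T : ∀ l, Matrix (Fin (E l).D) (Fin (E l).D) ℝ} {ν Γ cm η η' δ R : ℝ}

lemma Inv.congr (hLin : Spec.LinODE) (G : Good t0 L E U C Ji Sel prm T ν Γ cm η η' δ R)
    {α α' : ℕ → Fin C.N → ℝ} {j : ℕ} (hα : ∀ i < j, α i = α' i)
    (h : Inv t0 E U C Ji Sel prm η α j) : Inv t0 E U C Ji Sel prm η α' j := by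
  intro l c hc y hy
  obtain ⟨z, hz⟩ := exists_isCore hLin G.ht0 G.hJi (G.hU l) α c (E := E l)
  obtain ⟨A, hA, hA'⟩ := h l c hc z hz
  have hcg := hz.congr hLin G.ht0 G.hJi hy hα
  refine ⟨A, hA, fun i => ⟨by rw [← (hcg i).1]; exact (hA' i).1, ?_⟩⟩
  have hne := ((G.hU l).2.1 (C.T j)).1.ne'
  rw [deriv_div_pos (hy.1.1 i) (G.hU l).1 hne, ← (hcg i).1, ← (hcg i).2,
    ← deriv_div_pos (hz.1.1 i) (G.hU l).1 hne]
  exact (hA' i).2

lemma inv_zero (G : Good t0 L E U C Ji Sel prm T ν Γ cm η η' δ R) (α : ℕ → Fin C.N → ℝ) :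
    Inv t0 E U C Ji Sel prm η α 0 := by
  intro l c _ y hy
  refine ⟨1, one_ne_zero, fun i => ?_⟩
  have hpos := fun t => ((G.hU l).2.1 t).1.ne'
  rw [C.T_zero, pow_zero, Equiv.Perm.coe_one, id_eq, one_mul]
  refine ⟨by rw [hy.2 _ le_rfl i, mul_div_cancel_left₀ _ (hpos _)], ?_⟩
  have hd : Differentiable ℝ fun t => y t i / U l t :=
    ((hy.1.1 i).div (G.hU l).1 hpos).differentiable (by simp)
  rw [deriv_eq_of_eq_before hd
    (differentiable_const (if i = c then (1 : ℝ) else 0)) fun s hs => by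
      rw [hy.2 s hs i, mul_div_cancel_left₀ _ (hpos _)]]
  simp only [deriv_const, abs_zero, abs_one, mul_one]
  exact G.hη.le

/-- The amplitudes, chosen round by round. -/
theorem exists_alpha (hLin : Spec.LinODE) (hTail : TailMain)
    (G : Good t0 L E U C Ji Sel prm T ν Γ cm η η' δ R) :
    ∃ α : ℕ → Fin C.N → ℝ, (∀ j i, |α j i| ≤ R) ∧ (∀ j, Inv t0 E U C Ji Sel prm η α j) ∧
      ∀ j l, ∀ c ∈ Sel l, ∀ y, IsCore C t0 α Ji (U l) c y →
        |y (C.T (j + 1)) ((prm l ^ (j + 1)) c)| ≤ |y (C.T j) ((prm l ^ j) c)| * (2 * R) *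
          exp (dwellExp ν l ((E l).charge ((prm l ^ (j + 1)) c)) * C.M j ^ 4 +
            Γ * ((C.N + 4) * C.L j) + 3 * Γ / cm) := by
  have hex : ∀ (α₀ : ℕ → Fin C.N → ℝ) (j : ℕ), ∃ a : Fin C.N → ℝ, (∀ i, |a i| ≤ R) ∧
      (Inv t0 E U C Ji Sel prm η α₀ j →
        ∀ α : ℕ → Fin C.N → ℝ, (∀ i < j, α i = α₀ i) → α j = a →
          Inv t0 E U C Ji Sel prm η α (j + 1) ∧
          ∀ l, ∀ c ∈ Sel l, ∀ y, IsCore C t0 α Ji (U l) c y →
            |y (C.T (j + 1)) ((prm l ^ (j + 1)) c)| ≤ |y (C.T j) ((prm l ^ j) c)| * (2 * R) *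
              exp (dwellExp ν l ((E l).charge ((prm l ^ (j + 1)) c)) * C.M j ^ 4 +
                Γ * ((C.N + 4) * C.L j) + 3 * Γ / cm)) := by
    intro α₀ j
    by_cases h : Inv t0 E U C Ji Sel prm η α₀ j
    · obtain ⟨a, ha, H⟩ := step hTail hLin G α₀ j h
      exact ⟨a, ha, fun _ => H⟩
    · exact ⟨0, fun i => by simpa using zero_le_one.trans G.hR, fun h' => absurd h' h⟩
  choose nxt hbd hspec using hex
  let seq : ℕ → ℕ → Fin C.N → ℝ :=
    fun n => Nat.rec (fun _ => 0) (fun m s => Function.update s m (nxt s m)) n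
  let α : ℕ → Fin C.N → ℝ := fun j => seq (j + 1) j
  have hαj : ∀ j, α j = nxt (seq j) j := fun j =>
    Function.update_self j (nxt (seq j) j) (seq j)
  have hagree : ∀ n, ∀ i < n, seq n i = α i := by
    intro n
    induction n with
    | zero => intro i hi; omega
    | succ n ih =>
      intro i hi
      rcases Nat.lt_succ_iff_lt_or_eq.1 hi with h | rfl
      · exact (Function.update_of_ne h.ne _ (seq n)).trans (ih i h)
      · rfl
  have hinv : ∀ n, Inv t0 E U C Ji Sel prm η α n := by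
    intro n
    induction n with
    | zero => exact inv_zero G α
    | succ n ih =>
      exact (hspec (seq n) n (ih.congr hLin G fun i hi => (hagree n i hi).symm) α
        (fun i hi => (hagree n i hi).symm) (hαj n)).1
  exact ⟨α, fun j i => by rw [hαj]; exact hbd _ _ i, hinv, fun j =>
    (hspec (seq j) j ((hinv j).congr hLin G fun i hi => (hagree j i hi).symm) α
      (fun i hi => (hagree j i hi).symm) (hαj j)).2⟩

/-- The selected solutions grow slower than `exp (k t)`. -/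
theorem growth (hLin : Spec.LinODE) (G : Good t0 L E U C Ji Sel prm T ν Γ cm η η' δ R)
    {α : ℕ → Fin C.N → ℝ} (hinv : ∀ j, Inv t0 E U C Ji Sel prm η α j)
    (hstep : ∀ j l, ∀ c ∈ Sel l, ∀ y, IsCore C t0 α Ji (U l) c y →
      |y (C.T (j + 1)) ((prm l ^ (j + 1)) c)| ≤ |y (C.T j) ((prm l ^ j) c)| * (2 * R) *
        exp (dwellExp ν l ((E l).charge ((prm l ^ (j + 1)) c)) * C.M j ^ 4 +
          Γ * ((C.N + 4) * C.L j) + 3 * Γ / cm))
    (hτ : ∀ t, |C.tau tauC α t| ≤ 1) {k : ℕ} {Cm : ℝ}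
    (hmean : ∀ l, ∀ c ∈ Sel l, ∀ n : ℕ, ∑ j ∈ Finset.range n, ((j + C.j0 : ℕ) : ℝ) ^ 4 *
        Spec.expo (Spec.level l ((E l).charge ((prm l ^ (j + 1)) c)))
      ≤ ((k : ℝ) - 2 * ν) * (∑ j ∈ Finset.range n, ((j + C.j0 : ℕ) : ℝ) ^ 4) + Cm)
    {l : ℕ} {c : Fin (E l).D} (hc : c ∈ Sel l) {y : ℝ → Fin (E l).D → ℝ}
    (hy : IsCore C t0 α Ji (U l) c y) :
    ∃ K : ℝ, ∀ t, 0 ≤ t → ∑ i, |y t i| ≤ K * exp ((k : ℝ) * t) := by
  obtain ⟨hl2, hlL⟩ := G.hSel l c hc
  obtain ⟨B, hB1, hB⟩ := sched_bound E G.ht0 Ji L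
  obtain ⟨BU, hBU⟩ := (isCompact_Icc (a := (0 : ℝ)) (b := C.T0)).exists_bound_of_continuousOn
    (G.hU l).1.continuous.continuousOn
  have hP := sched_adm G.ht0 G.hJi α
  have hlin := (hLin (E l).D _ _ hP.drift_smooth (Mshell_smooth _ (E l) hP)).2.1
  have hcm0 : 0 < cm := by linarith [G.hcm]
  have hU0 := ((G.hU l).2.1 C.T0).1
  set a1 : ℝ := Γ * (C.N + 4) with ha1
  set a2 : ℝ := 3 * Γ / cm + 2 * R with ha2
  have ha10 : 0 ≤ a1 := mul_nonneg G.hΓ0 (by positivity)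
  have ha20 : 0 ≤ a2 := add_nonneg (div_nonneg (by linarith [G.hΓ0]) hcm0.le) (by linarith [G.hR])
  set f : ℕ → ℝ := fun j => dwellExp ν l ((E l).charge ((prm l ^ (j + 1)) c)) * C.M j ^ 4 +
    a1 * C.M j ^ 3 + a2 with hf
  have hW : ∀ n, |y (C.T n) ((prm l ^ n) c)| ≤ U l C.T0 * exp (∑ j ∈ Finset.range n, f j) := by
    intro n
    induction n with
    | zero =>
      rw [Finset.sum_range_zero, exp_zero, mul_one, pow_zero, Equiv.Perm.coe_one, id_eq, C.T_zero,
        hy.2 _ le_rfl, if_pos rfl, mul_one, abs_of_pos hU0]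
    | succ n ih =>
      have hR2 : 2 * R ≤ exp (2 * R) := by linarith [add_one_le_exp (2 * R)]
      calc |y (C.T (n + 1)) ((prm l ^ (n + 1)) c)|
          ≤ |y (C.T n) ((prm l ^ n) c)| * (2 * R) * exp (dwellExp ν l
              ((E l).charge ((prm l ^ (n + 1)) c)) * C.M n ^ 4 + Γ * ((C.N + 4) * C.L n) + 3 * Γ / cm) :=
            hstep n l c hc y hy
        _ ≤ U l C.T0 * exp (∑ j ∈ Finset.range n, f j) * exp (2 * R) * exp (dwellExp ν l
              ((E l).charge ((prm l ^ (n + 1)) c)) * C.M n ^ 4 + Γ * ((C.N + 4) * C.L n) + 3 * Γ / cm) :=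
            mul_le_mul_of_nonneg_right (mul_le_mul ih hR2 (by linarith [G.hR]) (by positivity))
              (exp_pos _).le
        _ = U l C.T0 * exp (∑ j ∈ Finset.range (n + 1), f j) := by
            rw [mul_assoc (U l C.T0), mul_assoc (U l C.T0), ← exp_add, ← exp_add, Finset.sum_range_succ]
            congr 2
            rw [hf, ha1, ha2, Clock.L]
            ring
  set a3 : ℝ := 2 * (((E l).D : ℝ) + 1) * B * (C.N + 5) with ha3
  have ha30 : 0 ≤ a3 := by positivity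
  set K1 : ℝ := ((E l).D : ℝ) * (((E l).D : ℝ) * (Γ + η + 1)) * U l C.T0 with hK1
  have hK10 : 0 ≤ K1 := by
    have := G.hΓ0; have := G.hη
    positivity
  obtain ⟨C3, hC3⟩ := absorb (a1 + a2 + a3) ν G.hν C.j0
  refine ⟨K1 * exp (Cm + C3) + (E l).D * |BU|, fun t ht => ?_⟩
  have hk : (0 : ℝ) ≤ k := Nat.cast_nonneg k
  rcases le_or_gt t C.T0 with h0 | h0
  · have h1 : ∀ i, |y t i| ≤ |BU| := fun i => by
      rw [hy.2 t h0 i]
      split_ifs with hi
      · rw [mul_one, ← Real.norm_eq_abs]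
        exact (hBU t ⟨ht, h0⟩).trans (le_abs_self _)
      · simp
    refine (Finset.sum_le_card_nsmul _ _ _ fun i _ => h1 i).trans ?_
    rw [Finset.card_univ, Fintype.card_fin, nsmul_eq_mul]
    refine le_trans ?_ (le_mul_of_one_le_right (by positivity) (one_le_exp (by positivity)))
    exact le_add_of_nonneg_left (by positivity)
  obtain ⟨j, hj1, hj2⟩ := C.exists_round h0.le
  obtain ⟨A, hA, hA'⟩ := hinv j l c hc y hy
  set b := (prm l ^ j) c with hb
  set W := |y (C.T j) b| with hWdef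
  have hUT := ((G.hU l).2.1 (C.T j)).1
  have hyA : W = |A| * U l (C.T j) := by
    have h := (hA' b).1
    rw [if_pos rfl, mul_one, div_eq_iff hUT.ne'] at h
    rw [hWdef, h, abs_mul, abs_of_pos hUT]
  have hinit : ∀ i, |y (C.T j) i| + |deriv (fun s => y s i) (C.T j)| ≤ (Γ + η + 1) * W := by
    intro i
    obtain ⟨h1, h2⟩ := hA' i
    rw [deriv_div_pos (hy.1.1 i) (G.hU l).1 hUT.ne', h1] at h2
    have hz : |A * if i = b then (1 : ℝ) else 0| ≤ |A| := by split_ifs <;> simp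
    have hy1 : |y (C.T j) i| ≤ W := by
      rw [div_eq_iff hUT.ne'] at h1
      rw [h1, abs_mul, abs_of_pos hUT, hyA]
      exact mul_le_mul_of_nonneg_right hz hUT.le
    have hr : |deriv (U l) (C.T j) / U l (C.T j)| ≤ Γ := by
      have h := abs_le.1 (((G.late _ (C.T0_le j)).2.2 l hlL).1)
      have := (gammaR_spec l).1
      rw [abs_of_nonneg (div_nonneg ((G.hU l).2.1 _).2 hUT.le)]
      linarith [G.hΓg l hlL, G.hη'1]
    have hd : |deriv (fun s => y s i) (C.T j) / U l (C.T j)| ≤ (η + Γ) * |A| := by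
      have h3 := abs_sub_abs_le_abs_sub (deriv (fun s => y s i) (C.T j) / U l (C.T j))
        ((A * if i = b then (1 : ℝ) else 0) * (deriv (U l) (C.T j) / U l (C.T j)))
      rw [abs_mul (A * if i = b then (1 : ℝ) else 0)] at h3
      have h4 := mul_le_mul hz hr (abs_nonneg _) (abs_nonneg A)
      linarith
    rw [abs_div, abs_of_pos hUT, div_le_iff₀ hUT, mul_assoc, ← hyA] at hd
    linarith
  have hlen : t - C.T j ≤ (C.N + 5) * C.M j ^ 4 := by
    have h1 : C.L j ≤ C.M j ^ 4 := pow_le_pow_right₀ (C.one_le_M j) (by norm_num)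
    have h2 := mul_le_mul_of_nonneg_left h1 (show (0 : ℝ) ≤ C.N + 4 by positivity)
    linarith [C.T_succ j]
  have hcrude : ∀ i, |y t i| ≤ ((E l).D : ℝ) * ((Γ + η + 1) * W) * exp (a3 * C.M j ^ 4) := by
    intro i
    have h := hlin (C.T j) t B y hj1 hB1 (fun i => (hy.1.1 i).of_le (WithTop.coe_le_coe.2 le_top))
      (fun s _ => ⟨(hB α s (hτ s)).1, (hB α s (hτ s)).2 l hlL⟩) (fun a s _ => hy.1.2 a s) i
    refine (le_add_of_nonneg_right (abs_nonneg _)).trans (h.trans ?_)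
    refine mul_le_mul ?_ (exp_le_exp.2 ?_) (exp_pos _).le ?_
    · refine (Finset.sum_le_card_nsmul _ _ _ fun i _ => hinit i).trans ?_
      rw [Finset.card_univ, Fintype.card_fin, nsmul_eq_mul]
    · rw [ha3, mul_assoc (2 * (((E l).D : ℝ) + 1) * B)]
      exact mul_le_mul_of_nonneg_left hlen (by positivity)
    · have := G.hΓ0; have := G.hη
      positivity
  have hexp : (∑ i ∈ Finset.range j, f i) + a3 * C.M j ^ 4 ≤ k * t + (Cm + C3) := by
    have h1 := hmean l c hc j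
    have h2 := hC3 j
    have h3 := C.sum_dwell_le j
    simp only [hf, dwellExp, Clock.M] at h1 h2 h3 ⊢
    simp only [add_mul, Finset.sum_add_distrib, ← Finset.mul_sum, Finset.sum_const, Finset.card_range,
      nsmul_eq_mul]
    have e : ∑ i ∈ Finset.range j,
        Spec.expo (Spec.level l ((E l).charge ((prm l ^ (i + 1)) c))) * ((i + C.j0 : ℕ) : ℝ) ^ 4 =
        ∑ i ∈ Finset.range j,
        ((i + C.j0 : ℕ) : ℝ) ^ 4 * Spec.expo (Spec.level l ((E l).charge ((prm l ^ (i + 1)) c))) :=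
      Finset.sum_congr rfl fun i _ => mul_comm _ _
    rw [e]
    set S := ∑ i ∈ Finset.range j, ((i + C.j0 : ℕ) : ℝ) ^ 4
    set S3 := ∑ i ∈ Finset.range j, ((i + C.j0 : ℕ) : ℝ) ^ 3
    have hS3 : 0 ≤ S3 := Finset.sum_nonneg fun _ _ => by positivity
    have hM : (0 : ℝ) ≤ ((j + C.j0 : ℕ) : ℝ) ^ 4 := by positivity
    have hjn : (0 : ℝ) ≤ j := Nat.cast_nonneg j
    have hT0 := C.hT0
    have h4 := mul_le_mul_of_nonneg_left (show S ≤ t by linarith) hk
    nlinarith [mul_nonneg (add_nonneg ha20 ha30) hS3, mul_nonneg (add_nonneg ha10 ha30) hjn,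
      mul_nonneg (add_nonneg ha10 ha20) hM]
  refine (Finset.sum_le_card_nsmul _ _ _ fun i _ => hcrude i).trans ?_
  rw [Finset.card_univ, Fintype.card_fin, nsmul_eq_mul]
  refine le_trans ?_ (mul_le_mul_of_nonneg_right
    (le_add_of_nonneg_right (mul_nonneg (Nat.cast_nonneg (E l).D) (abs_nonneg BU))) (exp_pos _).le)
  calc ((E l).D : ℝ) * (((E l).D : ℝ) * ((Γ + η + 1) * W) * exp (a3 * C.M j ^ 4))
      = ((E l).D : ℝ) * (((E l).D : ℝ) * (Γ + η + 1)) * exp (a3 * C.M j ^ 4) * W := by ring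
    _ ≤ ((E l).D : ℝ) * (((E l).D : ℝ) * (Γ + η + 1)) * exp (a3 * C.M j ^ 4) *
          (U l C.T0 * exp (∑ i ∈ Finset.range j, f i)) := by
        refine mul_le_mul_of_nonneg_left (hW j) ?_
        have := G.hΓ0; have := G.hη
        positivity
    _ = K1 * exp ((∑ i ∈ Finset.range j, f i) + a3 * C.M j ^ 4) := by rw [exp_add, hK1]; ring
    _ ≤ K1 * exp (k * t + (Cm + C3)) := mul_le_mul_of_nonneg_left (exp_le_exp.2 hexp) hK10
    _ = K1 * exp (Cm + C3) * exp (k * t) := by rw [exp_add]; ring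

/-- Yau's comparison fails in dimension 34, given simultaneous local sections. -/
theorem yau_of_reach (hReach : Spec.Reach) : ∃ k : ℕ, 1 ≤ k ∧ YauCounterexample 34 k := by
  classical
  let E : ∀ l, Spec.EigenShell Spec.mC l := fun l => (shells Spec.mC l (by norm_num [Spec.mC])).some
  obtain ⟨k, L, Sel, prm, T, ν, hk, hν, hSel, hcard, hprm, hdet, hT, hmean⟩ :=
    exists_setup CountProof.count E
  obtain ⟨t0, U, C, Ji, Γ, cm, η, η', δ, R, G, hgood⟩ :=
    exists_good (pulseStep hReach exactPulse) E L Sel prm T ν hν hSel hprm hdet hT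
  obtain ⟨α, hαR, hinv, hstep⟩ := exists_alpha linODE tailMain G
  obtain ⟨hric, hτ⟩ := hgood α hαR
  obtain ⟨Cm, hCm⟩ := hmean C.j0
  let ι : Type := Σ l : Fin (L + 1), Sel l
  let e : Fin (Fintype.card ι) ≃ ι := (Fintype.equivFin ι).symm
  choose y hy using fun p : Fin (Fintype.card ι) =>
    exists_isCore linODE G.ht0 G.hJi (G.hU (e p).1) α ((e p).2 : Fin (E (e p).1).D) (E := E (e p).1)
  choose K hK using fun p : Fin (Fintype.card ι) =>
    growth linODE G hinv hstep hτ (fun l c hc n => (hCm l c hc n).1) (e p).2.2 (hy p)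
  refine ⟨k, hk, counterexample_of_shellSols curvature harmonic complete (m := Spec.mC)
    (by norm_num [Spec.mC]) E (schedProfile C t0 α Ji) (sched_adm G.ht0 G.hJi α)
    (fun t => (hric t).1) (fun t => (hric t).2.1) (fun t => (hric t).2.2)
    (fun p => ((e p).1 : ℕ)) (fun p => (e p).2) ?_ y (fun p => (hy p).1) ?_ ?_ ?_⟩
  · intro p q hpq
    have key : Function.Injective
        (fun x : ι => (⟨(x.1 : ℕ), (x.2 : Fin (E x.1).D)⟩ : Σ l, Fin (E l).D)) := by
      rintro ⟨l, c, hc⟩ ⟨l', c', hc'⟩ h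
      simp only [Sigma.mk.inj_iff] at h
      obtain rfl : l = l' := Fin.ext h.1
      obtain rfl : c = c' := eq_of_heq h.2
      rfl
    exact e.injective (key hpq)
  · intro p t ht a
    rw [(hy p).2 t (ht.trans C.hT0) a, (G.hU _).2.2.1 t ht, mul_ite, mul_one, mul_zero]
  · refine ⟨∑ p, |K p|, fun p t ht => (hK p t ht).trans (mul_le_mul_of_nonneg_right ?_ (exp_pos _).le)⟩
    exact (le_abs_self _).trans
      (Finset.single_le_sum (f := fun p => |K p|) (fun _ _ => abs_nonneg _) (Finset.mem_univ p))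
  · have hcount : Fintype.card ι = ∑ l ∈ Finset.range (L + 1), (Sel l).card := by
      rw [Fintype.card_sigma, ← Fin.sum_univ_eq_sum_range]
      exact Finset.sum_congr rfl fun l _ => Fintype.card_coe _
    rw [hcount]
    exact hcard

end Vale.Agent.P225.Full.Asm
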