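import Vale.Agent.P225.Full.Defs

/-!
# Metrics `A I + B x xᵀ + C (J x)(J x)ᵀ`

`A B C` are functions of `q = |x|^2` and `J` is an orthogonal complex structure.
-/

namespace Vale.Agent.P225.Full

open scoped Matrix
open Matrix

variable {n : ℕ}

/-- The squared norm. -/
def sq (x : Coord n) : ℝ := x ⬝ᵥ x

/-- An orthogonal complex structure. -/
structure IsCx (J : Matrix (Fin n) (Fin n) ℝ) : Prop where
  skew : Jᵀ = -J
  sq_eq : J * J = -1

/-- The metric matrix. -/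
def berger (J : Matrix (Fin n) (Fin n) ℝ) (A B C : ℝ → ℝ) (x : Coord n) :
    Matrix (Fin n) (Fin n) ℝ :=
  A (sq x) • 1 + B (sq x) • vecMulVec x x + C (sq x) • vecMulVec (J *ᵥ x) (J *ᵥ x)

/-- Radial eigenvalue. -/
def radP (A B : ℝ → ℝ) (q : ℝ) : ℝ := A q + q * B q

/-- Coefficient of `x xᵀ` in the inverse. -/
noncomputable def invX (A B : ℝ → ℝ) (q : ℝ) : ℝ := -B q / (A q * radP A B q)

/-- Christoffel coefficient of `(xu)v + (xv)u`. -/
noncomputable def g1 (A : ℝ → ℝ) (q : ℝ) : ℝ := deriv A q / A q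

/-- Christoffel coefficient of `(uv)x`. -/
noncomputable def g2 (A B : ℝ → ℝ) (q : ℝ) : ℝ := (B q - deriv A q) / radP A B q

/-- Christoffel coefficient of `(xu)(xv)x`. -/
noncomputable def g3 (A B : ℝ → ℝ) (q : ℝ) : ℝ :=
  deriv B q / radP A B q + 2 * deriv A q * invX A B q

/-- Christoffel coefficient of `((xu)(ηv) + (xv)(ηu))η`. -/
noncomputable def g4 (A C : ℝ → ℝ) (q : ℝ) : ℝ :=
  deriv C q / radP A C q + (deriv A q + C q) * invX A C q

/-- Christoffel coefficient of `(ηu)(ηv)x`. -/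
noncomputable def g5 (A B C : ℝ → ℝ) (q : ℝ) : ℝ :=
  -deriv C q / radP A B q - 2 * C q * invX A B q

/-- Christoffel coefficient of `(ηv)Ju + (ηu)Jv`. -/
noncomputable def g6 (A C : ℝ → ℝ) (q : ℝ) : ℝ := C q / A q

/-- The trace `Γ^k_{kv} = gT (x·v)`. -/
noncomputable def gT (n : ℕ) (A B C : ℝ → ℝ) (q : ℝ) : ℝ :=
  ((n : ℝ) + 1) * g1 A q + g2 A B q + q * g3 A B q + q * g4 A C q + g6 A C q

/-- Ricci coefficient of `|v|^2`. -/
noncomputable def kV (n : ℕ) (A B C : ℝ → ℝ) (q : ℝ) : ℝ :=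
  2 * g1 A q + 2 * q * deriv (g2 A B) q + n * g2 A B q - 2 * g6 A C q - gT n A B C q
    + gT n A B C q * q * g2 A B q - 2 * g1 A q * g2 A B q * q

/-- Ricci coefficient of `(x·v)^2`. -/
noncomputable def kX (n : ℕ) (A B C : ℝ → ℝ) (q : ℝ) : ℝ :=
  4 * deriv (g1 A) q + 2 * q * deriv (g3 A B) q + ((n : ℝ) + 2) * g3 A B q - 2 * g4 A C q
    - 2 * deriv (gT n A B C) q + gT n A B C q * (2 * g1 A q + q * g3 A B q)
    - (n * g1 A q ^ 2
      + 2 * g1 A q * (g1 A q + g2 A B q + q * g3 A B q + q * g4 A C q + g6 A C q)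
      + g1 A q ^ 2 + (g2 A B q + q * g3 A B q) ^ 2 + q ^ 2 * g4 A C q ^ 2 + g6 A C q ^ 2
      + 2 * g1 A q * g3 A B q * q + 2 * g4 A C q * g6 A C q * q)

/-- Ricci coefficient of `(Jx·v)^2`. -/
noncomputable def kY (n : ℕ) (A B C : ℝ → ℝ) (q : ℝ) : ℝ :=
  2 * g4 A C q + 2 * q * deriv (g5 A B C) q + ((n : ℝ) + 2) * g5 A B C q
    - 4 * deriv (g6 A C) q + gT n A B C q * (q * g5 A B C q - 2 * g6 A C q)
    - (-(n * g6 A C q ^ 2)
      + 2 * g6 A C q * (-g1 A q + g2 A B q + q * g5 A B C q - q * g4 A C q - g6 A C q)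
      + 2 * q * g1 A q * g5 A B C q - 2 * g1 A q * g6 A C q
      + 2 * q * g4 A C q * (g2 A B q + q * g5 A B C q) - 2 * g4 A C q * g6 A C q * q)

/-- First order coefficient of the Laplacian. -/
noncomputable def lapX (n : ℕ) (A B C : ℝ → ℝ) (q : ℝ) : ℝ :=
  (2 * g1 A q + n * g2 A B q + q * g3 A B q + q * g5 A B C q - 2 * g6 A C q) / A q
    + invX A B q * q * (2 * g1 A q + g2 A B q + q * g3 A B q)
    + invX A C q * q * (g2 A B q + q * g5 A B C q - 2 * g6 A C q)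

end Vale.Agent.P225.Full
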