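import Vale.Agent.P225.Full.BergerDefs

/-!
# Inverse and Christoffel symbols of the Berger type metric
-/

namespace Vale.Agent.P225.Full

open scoped Matrix Topology
open Matrix Finset

variable {n : ℕ} {J : Matrix (Fin n) (Fin n) ℝ} {A B C : ℝ → ℝ} {x : Coord n}

theorem IsCx.transpose_mulVec_dot (hJ : IsCx J) (u v : Coord n) :
    (J *ᵥ u) ⬝ᵥ v = -(u ⬝ᵥ (J *ᵥ v)) := by
  rw [dotProduct_mulVec u J v, ← mulVec_transpose, hJ.skew, neg_mulVec, neg_dotProduct, neg_neg]

theorem IsCx.mulVec_mulVec_self (hJ : IsCx J) (u : Coord n) : J *ᵥ (J *ᵥ u) = -u := by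
  rw [mulVec_mulVec, hJ.sq_eq, neg_mulVec, one_mulVec]

theorem IsCx.dot_self_mulVec (hJ : IsCx J) (u : Coord n) : u ⬝ᵥ (J *ᵥ u) = 0 := by
  have h := hJ.transpose_mulVec_dot u u
  rw [dotProduct_comm] at h; linarith

theorem IsCx.mulVec_self_dot (hJ : IsCx J) (u : Coord n) : (J *ᵥ u) ⬝ᵥ u = 0 := by
  rw [dotProduct_comm]; exact hJ.dot_self_mulVec u

theorem IsCx.mulVec_dot_mulVec (hJ : IsCx J) (u v : Coord n) :
    (J *ᵥ u) ⬝ᵥ (J *ᵥ v) = u ⬝ᵥ v := by
  rw [hJ.transpose_mulVec_dot, hJ.mulVec_mulVec_self, dotProduct_neg, neg_neg]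

theorem IsCx.apply_neg (hJ : IsCx J) (i j : Fin n) : J j i = -J i j := by
  have := congrFun (congrFun hJ.skew i) j
  simpa using this

/-- Inverse matrix. -/
noncomputable def bergerInv (J : Matrix (Fin n) (Fin n) ℝ) (A B C : ℝ → ℝ) (x : Coord n) :
    Matrix (Fin n) (Fin n) ℝ :=
  (A (sq x))⁻¹ • 1 + invX A B (sq x) • vecMulVec x x
    + invX A C (sq x) • vecMulVec (J *ᵥ x) (J *ᵥ x)

/-- Positivity of the three eigenvalues at `q`. -/
structure PosAt (A B C : ℝ → ℝ) (q : ℝ) : Prop where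
  hA : 0 < A q
  hP : 0 < radP A B q
  hQ : 0 < radP A C q

theorem berger_mul_inv (hJ : IsCx J) (hp : PosAt A B C (sq x)) :
    berger J A B C x * bergerInv J A B C x = 1 := by
  obtain ⟨hA, hP, hQ⟩ := hp
  have h1 : x ⬝ᵥ x = sq x := rfl
  have h2 : (J *ᵥ x) ⬝ᵥ (J *ᵥ x) = sq x := hJ.mulVec_dot_mulVec x x
  simp only [berger, bergerInv, add_mul, mul_add, smul_mul_smul_comm, Matrix.one_mul, Matrix.mul_one,
    vecMulVec_mul_vecMulVec, h1, h2, hJ.dot_self_mulVec, hJ.mulVec_self_dot, zero_smul,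
    vecMulVec_smul, vecMulVec_zero, smul_zero, smul_smul, add_zero]
  have eA : A (sq x) * (A (sq x))⁻¹ = 1 := mul_inv_cancel₀ hA.ne'
  have eB : A (sq x) * invX A B (sq x) + B (sq x) * (A (sq x))⁻¹
      + B (sq x) * invX A B (sq x) * sq x = 0 := by
    simp only [invX]; field_simp; simp only [radP]; ring
  have eC : A (sq x) * invX A C (sq x) + C (sq x) * (A (sq x))⁻¹
      + C (sq x) * invX A C (sq x) * sq x = 0 := by
    simp only [invX]; field_simp; simp only [radP]; ring
  ext i j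
  simp only [Matrix.add_apply, Matrix.smul_apply, smul_eq_mul, eA]
  linear_combination eB * vecMulVec x x i j + eC * vecMulVec (J *ᵥ x) (J *ᵥ x) i j

theorem berger_inv (hJ : IsCx J) (hp : PosAt A B C (sq x)) :
    (berger J A B C x)⁻¹ = bergerInv J A B C x :=
  Matrix.inv_eq_right_inv (berger_mul_inv hJ hp)

/-! ## Partial derivatives -/

theorem pdq_dot (w : Coord n) (i : Fin n) : pd i (fun y => w ⬝ᵥ y) x = w i := by
  have h : HasFDerivAt (fun y : Coord n => w ⬝ᵥ y)
      (∑ j, w j • ContinuousLinearMap.proj (R := ℝ) (φ := fun _ : Fin n => ℝ) j) x := by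
    simp only [dotProduct]
    exact HasFDerivAt.fun_sum fun j _ => (hasFDerivAt_apply j x).const_mul (w j)
  simp [pd, h.fderiv, Pi.single_apply]

theorem differentiableAt_dot (w : Coord n) : DifferentiableAt ℝ (fun y : Coord n => w ⬝ᵥ y) x := by
  simp only [dotProduct]; fun_prop

theorem differentiableAt_coord (i : Fin n) : DifferentiableAt ℝ (fun y : Coord n => y i) x :=
  differentiableAt_apply i x

theorem differentiableAt_sq : DifferentiableAt ℝ (sq : Coord n → ℝ) x := by
  unfold sq dotProduct; fun_prop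

theorem differentiableAt_mulVec (M : Matrix (Fin n) (Fin n) ℝ) (i : Fin n) :
    DifferentiableAt ℝ (fun y : Coord n => (M *ᵥ y) i) x := differentiableAt_dot (M i)

theorem pdq_coord (i j : Fin n) : pd i (fun y : Coord n => y j) x = if j = i then 1 else 0 := by
  simp [pd, (hasFDerivAt_apply (𝕜 := ℝ) j x).fderiv, Pi.single_apply]

theorem pdq_mulVec (M : Matrix (Fin n) (Fin n) ℝ) (i j : Fin n) :
    pd i (fun y : Coord n => (M *ᵥ y) j) x = M j i := pdq_dot (M j) i

theorem pdq_sq (i : Fin n) : pd i (sq : Coord n → ℝ) x = 2 * x i := by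
  have h : HasFDerivAt (sq : Coord n → ℝ) (∑ j, (x j • ContinuousLinearMap.proj (R := ℝ)
      (φ := fun _ : Fin n => ℝ) j + x j • ContinuousLinearMap.proj (R := ℝ)
      (φ := fun _ : Fin n => ℝ) j)) x := by
    unfold sq dotProduct
    exact HasFDerivAt.fun_sum fun j _ => (hasFDerivAt_apply j x).mul (hasFDerivAt_apply j x)
  simp [pd, h.fderiv, Pi.single_apply, sum_add_distrib]
  ring

theorem pdq_comp_sq {φ : ℝ → ℝ} (hφ : DifferentiableAt ℝ φ (sq x)) (i : Fin n) :
    pd i (fun y => φ (sq y)) x = 2 * deriv φ (sq x) * x i := by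
  have h := hφ.hasDerivAt.comp_hasFDerivAt x (differentiableAt_sq (x := x)).hasFDerivAt
  change fderiv ℝ (φ ∘ sq) x _ = _
  rw [h.fderiv]
  simp only [_root_.smul_apply, smul_eq_mul]
  rw [show fderiv ℝ sq x (Pi.single i 1) = pd i sq x from rfl, pdq_sq]
  ring

theorem pdq_add {f h : Coord n → ℝ} (hf : DifferentiableAt ℝ f x) (hh : DifferentiableAt ℝ h x)
    (i : Fin n) : pd i (fun y => f y + h y) x = pd i f x + pd i h x := by
  simp [pd, fderiv_fun_add hf hh]

theorem pdq_mul {f h : Coord n → ℝ} (hf : DifferentiableAt ℝ f x) (hh : DifferentiableAt ℝ h x)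
    (i : Fin n) : pd i (fun y => f y * h y) x = pd i f x * h x + f x * pd i h x := by
  simp [pd, fderiv_fun_mul hf hh]; ring

theorem pdq_const (c : ℝ) (i : Fin n) : pd i (fun _ : Coord n => c) x = 0 := by simp [pd]

theorem pdq_congr {f h : Coord n → ℝ} (e : f =ᶠ[𝓝 x] h) (i : Fin n) : pd i f x = pd i h x := by
  simp [pd, e.fderiv_eq]

/-! ## Christoffel symbols -/

/-- The closed form of `Γ^k_{ij}`. -/
noncomputable def bergerGam (J : Matrix (Fin n) (Fin n) ℝ) (A B C : ℝ → ℝ) (k i j : Fin n)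
    (x : Coord n) : ℝ :=
  g1 A (sq x) * (x i * (1 : Matrix (Fin n) (Fin n) ℝ) k j + x j * (1 : Matrix (Fin n) (Fin n) ℝ) k i)
    + g2 A B (sq x) * ((1 : Matrix (Fin n) (Fin n) ℝ) i j * x k)
    + g3 A B (sq x) * (x i * x j * x k)
    + g4 A C (sq x) * ((x i * (J *ᵥ x) j + x j * (J *ᵥ x) i) * (J *ᵥ x) k)
    + g5 A B C (sq x) * ((J *ᵥ x) i * (J *ᵥ x) j * x k)
    + g6 A C (sq x) * ((J *ᵥ x) j * J k i + (J *ᵥ x) i * J k j)

theorem pdq_berger (hA : DifferentiableAt ℝ A (sq x)) (hB : DifferentiableAt ℝ B (sq x))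
    (hC : DifferentiableAt ℝ C (sq x)) (m i j : Fin n) :
    pd m (fun y => berger J A B C y i j) x =
      2 * deriv A (sq x) * x m * (1 : Matrix (Fin n) (Fin n) ℝ) i j
      + 2 * deriv B (sq x) * x m * x i * x j
      + B (sq x) * ((1 : Matrix (Fin n) (Fin n) ℝ) i m * x j + x i * (1 : Matrix (Fin n) (Fin n) ℝ) j m)
      + 2 * deriv C (sq x) * x m * (J *ᵥ x) i * (J *ᵥ x) j
      + C (sq x) * (J i m * (J *ᵥ x) j + (J *ᵥ x) i * J j m) := by
  have d1 : DifferentiableAt ℝ (fun y => A (sq y)) x := hA.comp x differentiableAt_sq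
  have d2 : DifferentiableAt ℝ (fun y => B (sq y)) x := hB.comp x differentiableAt_sq
  have d3 : DifferentiableAt ℝ (fun y => C (sq y)) x := hC.comp x differentiableAt_sq
  have e1 := differentiableAt_coord (x := x) i
  have e2 := differentiableAt_coord (x := x) j
  have e3 := differentiableAt_mulVec (x := x) J i
  have e4 := differentiableAt_mulVec (x := x) J j
  have hfun : (fun y => berger J A B C y i j) = fun y => A (sq y) * (1 : Matrix (Fin n) (Fin n) ℝ) i j
      + B (sq y) * (y i * y j) + C (sq y) * ((J *ᵥ y) i * (J *ᵥ y) j) := by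
    funext y; simp [berger, vecMulVec_apply]
  have e12 := e1.fun_mul e2
  have e34 := e3.fun_mul e4
  have a1 := d1.fun_mul (differentiableAt_const ((1 : Matrix (Fin n) (Fin n) ℝ) i j))
  have a2 := d2.fun_mul e12
  have a3 := d3.fun_mul e34
  rw [hfun, pdq_add (a1.fun_add a2) a3, pdq_add a1 a2,
    pdq_mul d1 (differentiableAt_const _), pdq_mul d2 e12, pdq_mul d3 e34, pdq_mul e1 e2,
    pdq_mul e3 e4, pdq_comp_sq hA, pdq_comp_sq hB, pdq_comp_sq hC, pdq_const, pdq_coord, pdq_coord,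
    pdq_mulVec, pdq_mulVec]
  simp only [Matrix.one_apply]
  ring

theorem chr_berger (hJ : IsCx J) (hp : PosAt A B C (sq x)) (hA : DifferentiableAt ℝ A (sq x))
    (hB : DifferentiableAt ℝ B (sq x)) (hC : DifferentiableAt ℝ C (sq x)) (k i j : Fin n) :
    christoffel (berger J A B C) k i j x = bergerGam J A B C k i j x := by
  set η := J *ᵥ x with hη
  set ei : Coord n := fun l => (1 : Matrix (Fin n) (Fin n) ℝ) i l
  set ej : Coord n := fun l => (1 : Matrix (Fin n) (Fin n) ℝ) j l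
  set Ji : Coord n := fun l => J l i
  set Jj : Coord n := fun l => J l j
  have hc : (fun l => pd i (fun y => berger J A B C y j l) x
      + pd j (fun y => berger J A B C y i l) x - pd l (fun y => berger J A B C y i j) x)
      = (2 * deriv A (sq x) * x i) • ej + (2 * deriv A (sq x) * x j) • ei
        + (2 * (deriv B (sq x) * x i * x j + (B (sq x) - deriv A (sq x)) * (1 : Matrix (Fin n) (Fin n) ℝ) i j
          - deriv C (sq x) * η i * η j)) • x
        + (2 * deriv C (sq x) * (x i * η j + x j * η i)) • η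
        + (2 * C (sq x) * η j) • Ji + (2 * C (sq x) * η i) • Jj := by
    funext l
    simp only [pdq_berger hA hB hC, Pi.add_apply, Pi.smul_apply, smul_eq_mul, ei, ej, Ji, Jj, hη]
    rw [hJ.apply_neg l i, hJ.apply_neg l j, hJ.apply_neg i j]
    simp only [Matrix.one_apply, eq_comm (a := j) (b := i), eq_comm (a := l) (b := i),
      eq_comm (a := l) (b := j)]
    split_ifs <;> ring
  have hchr : christoffel (berger J A B C) k i j x = 1 / 2 * ((bergerInv J A B C x) *ᵥ (fun l =>
      pd i (fun y => berger J A B C y j l) x + pd j (fun y => berger J A B C y i l) x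
        - pd l (fun y => berger J A B C y i j) x)) k := by
    rw [christoffel, berger_inv hJ hp]; rfl
  have v1 : ∀ m : Fin n, x ⬝ᵥ (fun l => (1 : Matrix (Fin n) (Fin n) ℝ) m l) = x m := by
    intro m; simp [dotProduct, Matrix.one_apply]
  have v2 : ∀ m : Fin n, η ⬝ᵥ (fun l => (1 : Matrix (Fin n) (Fin n) ℝ) m l) = η m := by
    intro m; simp [dotProduct, Matrix.one_apply]
  have v3 : ∀ m : Fin n, x ⬝ᵥ (fun l => J l m) = -η m := by
    intro m
    simp only [dotProduct, hη, mulVec, ← sum_neg_distrib]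
    exact sum_congr rfl fun l _ => by rw [hJ.apply_neg m l]; ring
  have v4 : ∀ m : Fin n, η ⬝ᵥ (fun l => J l m) = x m := by
    intro m
    have := congrFun (hJ.mulVec_mulVec_self x) m
    simp only [mulVec, dotProduct] at this
    simp only [dotProduct, hη]
    simp only [Pi.neg_apply] at this
    rw [show x m = -(-x m) by ring, ← this, ← sum_neg_distrib]
    exact sum_congr rfl fun l _ => by rw [hJ.apply_neg m l]; simp [mulVec, dotProduct]; ring
  have q1 : x ⬝ᵥ x = sq x := rfl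
  have q2 : η ⬝ᵥ η = sq x := hJ.mulVec_dot_mulVec x x
  have q3 : x ⬝ᵥ η = 0 := hJ.dot_self_mulVec x
  have q4 : η ⬝ᵥ x = 0 := hJ.mulVec_self_dot x
  rw [hchr, hc]
  simp only [bergerInv, ← hη, add_mulVec, smul_mulVec, one_mulVec, vecMulVec_mulVec, dotProduct_add,
    dotProduct_smul, Pi.add_apply, Pi.smul_apply, smul_eq_mul, op_smul_eq_smul, ei, ej, Ji, Jj, v1, v2, v3, v4,
    q1, q2, q3, q4, bergerGam, g1, g2, g3, g4, g5, g6]
  obtain ⟨hA0, hP, hQ⟩ := hp
  simp only [invX, Matrix.one_apply, eq_comm (a := j) (b := k), eq_comm (a := i) (b := k)]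
  field_simp
  simp only [radP]
  ring

end Vale.Agent.P225.Full
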