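import Vale.Agent.P225.Full.BergerProfile
import Vale.Agent.P225.Full.CurvBase

/-!
# The model metric as a metric `A I + B x xᵀ + C (J x)(J x)ᵀ`
-/

namespace Vale.Agent.P225.Full

open scoped Matrix Topology
open Matrix Filter

variable {n : ℕ}

theorem IsCS.isCx {J : Matrix (Fin n) (Fin n) ℝ} (h : IsCS J) : IsCx J := ⟨h.1, h.2⟩

theorem sq_eq_rad_sq (x : Coord n) : Full.sq x = rad x ^ 2 := dot_self_eq_rad_sq x

theorem sq_pos_of_ne {x : Coord n} (hx : x ≠ 0) : 0 < Full.sq x := by
  rw [sq_eq_rad_sq]; exact pow_pos (rad_pos hx) 2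

theorem tOf_sq (x : Coord n) : tOf (Full.sq x) = logRad x := by
  rw [tOf, sq_eq_rad_sq, Real.log_pow, logRad]; push_cast; ring

theorem pA_sq (q : ℝ → ℝ) (x : Coord n) : pA q (Full.sq x) = Real.exp (2 * q (logRad x)) := by
  rw [pA, tOf_sq]

theorem bergerMat_eq_berger (J : Matrix (Fin n) (Fin n) ℝ) (p q : ℝ → ℝ) (x : Coord n) :
    bergerMat J x (Real.exp (2 * q (logRad x))) (Real.exp (2 * p (logRad x)))
      = berger J (pA q) (pB q) (pC p q) x := by
  ext i j
  simp only [bergerMat, berger, Matrix.add_apply, Matrix.smul_apply, vecMulVec_apply, smul_eq_mul,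
    Matrix.one_apply, pB, pC, pA_sq]
  rw [sq_eq_rad_sq]
  ring

/-- Near `x ≠ 0` the model metric is a metric of the coordinate form with a constant structure. -/
theorem metric_eventually_berger {P : Profile n} (hP : P.Adm) {x : Coord n} (hx : x ≠ 0) :
    P.metric =ᶠ[𝓝 x] berger (P.J (logRad x)) (pA P.q) (pB P.q) (pC P.p P.q) :=
  (metric_eventuallyEq hP hx).mono fun y hy => hy.trans (bergerMat_eq_berger _ _ _ y)

theorem regAt_model {P : Profile n} (hP : P.Adm) {x : Coord n} (hx : x ≠ 0) :
    RegAt (pA P.q) (pB P.q) (pC P.p P.q) (Full.sq x) :=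
  regAt_profile (sq_pos_of_ne hx) (contDiff_infty.1 hP.smooth_p 2)
    (contDiff_infty.1 hP.smooth_q 2)

theorem christoffel_congr {g h : MetricField n} {x : Coord n} (e : g =ᶠ[𝓝 x] h) (k i j : Fin n) :
    christoffel g k i j x = christoffel h k i j x := by
  have e' : ∀ a b c, pd a (fun y => g y b c) x = pd a (fun y => h y b c) x := fun a b c =>
    pd_congr (e.mono fun y hy => congrFun (congrFun hy b) c) a
  simp only [christoffel, e.self_of_nhds, e']

theorem christoffel_eventuallyEq {g h : MetricField n} {x : Coord n} (e : g =ᶠ[𝓝 x] h)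
    (k i j : Fin n) : christoffel g k i j =ᶠ[𝓝 x] christoffel h k i j :=
  e.eventuallyEq_nhds.mono fun _ hy => christoffel_congr hy k i j

theorem ricciTensor_congr {g h : MetricField n} {x : Coord n} (e : g =ᶠ[𝓝 x] h) (i j : Fin n) :
    ricciTensor g i j x = ricciTensor h i j x := by
  have e' : ∀ a k b c, pd a (christoffel g k b c) x = pd a (christoffel h k b c) x := fun a k b c =>
    pd_congr (christoffel_eventuallyEq e k b c) a
  simp only [ricciTensor, christoffel_congr e, e']

theorem laplace_congr {g h : MetricField n} {x : Coord n} (e : g =ᶠ[𝓝 x] h) (u : Coord n → ℝ) :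
    laplace g u x = laplace h u x := by
  simp only [laplace, e.self_of_nhds, christoffel_congr e]

end Vale.Agent.P225.Full
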