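import Vale.Agent.P225.Full.BergerRic

/-!
# The coefficients for exponential profiles

With `t = log Q / 2`, `A = exp (2 φ t)`, `B = (1 - A) / Q` and `C = (exp (2 ψ t) - A) / Q`.
-/

namespace Vale.Agent.P225.Full

open scoped Topology
open Real Filter

/-- `log r` as a function of `r^2`. -/
noncomputable def tOf (Q : ℝ) : ℝ := Real.log Q / 2

/-- The profile `A`. -/
noncomputable def pA (q : ℝ → ℝ) (Q : ℝ) : ℝ := Real.exp (2 * q (tOf Q))

/-- The profile `B`. -/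
noncomputable def pB (q : ℝ → ℝ) (Q : ℝ) : ℝ := (1 - pA q Q) / Q

/-- The profile `C`. -/
noncomputable def pC (p q : ℝ → ℝ) (Q : ℝ) : ℝ := (pA p Q - pA q Q) / Q

variable {p q : ℝ → ℝ} {Q : ℝ}

theorem hasDerivAt_tOf (hQ : 0 < Q) : HasDerivAt tOf (1 / (2 * Q)) Q :=
  ((Real.hasDerivAt_log hQ.ne').div_const 2).congr_deriv (by ring)

theorem hasDerivAt_comp_tOf {F : ℝ → ℝ} {F' : ℝ} (hQ : 0 < Q) (hF : HasDerivAt F F' (tOf Q)) :
    HasDerivAt (fun S => F (tOf S)) (F' / (2 * Q)) Q :=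
  (hF.comp Q (hasDerivAt_tOf hQ)).congr_deriv (by ring)

theorem hasDerivAt_pA (hQ : 0 < Q) (hq : Differentiable ℝ q) :
    HasDerivAt (pA q) (deriv q (tOf Q) * pA q Q / Q) Q :=
  ((hasDerivAt_comp_tOf hQ (hq (tOf Q)).hasDerivAt).const_mul 2).exp.congr_deriv (by
    simp only [pA]; field_simp)

theorem deriv_pA (hQ : 0 < Q) (hq : Differentiable ℝ q) :
    deriv (pA q) Q = deriv q (tOf Q) * pA q Q / Q := (hasDerivAt_pA hQ hq).deriv

theorem hasDerivAt_pB (hQ : 0 < Q) (hq : Differentiable ℝ q) :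
    HasDerivAt (pB q) ((-(deriv q (tOf Q) * pA q Q) - (1 - pA q Q)) / Q ^ 2) Q :=
  (((hasDerivAt_pA hQ hq).const_sub 1).div (hasDerivAt_id Q) hQ.ne').congr_deriv (by
    simp only [id]; field_simp)

theorem hasDerivAt_pC (hQ : 0 < Q) (hp : Differentiable ℝ p) (hq : Differentiable ℝ q) :
    HasDerivAt (pC p q)
      ((deriv p (tOf Q) * pA p Q - deriv q (tOf Q) * pA q Q - (pA p Q - pA q Q)) / Q ^ 2) Q :=
  (((hasDerivAt_pA hQ hp).sub (hasDerivAt_pA hQ hq)).div (hasDerivAt_id Q) hQ.ne').congr_deriv (by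
    simp only [id, Pi.sub_apply]; field_simp)

theorem contDiffAt_pA (hQ : 0 < Q) (hq : ContDiff ℝ 2 q) : ContDiffAt ℝ 2 (pA q) Q :=
  ((contDiffAt_const.mul (hq.contDiffAt.comp Q
    ((Real.contDiffAt_log.2 hQ.ne').div_const 2))).exp)

theorem radP_pA_pB (hQ : 0 < Q) : radP (pA q) (pB q) Q = 1 := by
  simp only [radP, pB]; field_simp; ring

theorem radP_pA_pC (hQ : 0 < Q) : radP (pA q) (pC p q) Q = pA p Q := by
  simp only [radP, pC]; field_simp; ring

theorem regAt_profile (hQ : 0 < Q) (hp : ContDiff ℝ 2 p) (hq : ContDiff ℝ 2 q) :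
    RegAt (pA q) (pB q) (pC p q) Q where
  pos := ⟨Real.exp_pos _, by rw [radP_pA_pB hQ]; norm_num,
    by rw [radP_pA_pC hQ]; exact Real.exp_pos _⟩
  smoothA := contDiffAt_pA hQ hq
  smoothB := (contDiffAt_const.sub (contDiffAt_pA hQ hq)).div contDiffAt_id hQ.ne'
  smoothC := ((contDiffAt_pA hQ hp).sub (contDiffAt_pA hQ hq)).div contDiffAt_id hQ.ne'

theorem g1_profile (hQ : 0 < Q) (hq : Differentiable ℝ q) :
    g1 (pA q) Q = deriv q (tOf Q) / Q := by
  have := (Real.exp_pos (2 * q (tOf Q))).ne'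
  rw [g1, deriv_pA hQ hq]
  simp only [pA]; field_simp

theorem g2_profile (hQ : 0 < Q) (hq : Differentiable ℝ q) :
    g2 (pA q) (pB q) Q = (1 - pA q Q - deriv q (tOf Q) * pA q Q) / Q := by
  rw [g2, radP_pA_pB hQ, deriv_pA hQ hq, pB]
  field_simp

theorem g3_profile (hQ : 0 < Q) (hq : Differentiable ℝ q) :
    g3 (pA q) (pB q) Q =
      (-1 + pA q Q - 2 * deriv q (tOf Q) + deriv q (tOf Q) * pA q Q) / Q ^ 2 := by
  have hA : pA q Q ≠ 0 := (Real.exp_pos _).ne'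
  rw [g3, invX, radP_pA_pB hQ, (hasDerivAt_pB hQ hq).deriv, deriv_pA hQ hq, pB]
  field_simp; ring

theorem g4_profile (hQ : 0 < Q) (hp : Differentiable ℝ p) (hq : Differentiable ℝ q) :
    g4 (pA q) (pC p q) Q =
      (deriv p (tOf Q) - deriv q (tOf Q) + 1 - pA p Q / pA q Q) / Q ^ 2 := by
  have hA : pA q Q ≠ 0 := (Real.exp_pos _).ne'
  have hE : pA p Q ≠ 0 := (Real.exp_pos _).ne'
  rw [g4, invX, radP_pA_pC hQ, (hasDerivAt_pC hQ hp hq).deriv, deriv_pA hQ hq, pC]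
  field_simp; ring

theorem g5_profile (hQ : 0 < Q) (hp : Differentiable ℝ p) (hq : Differentiable ℝ q) :
    g5 (pA q) (pB q) (pC p q) Q =
      (-(deriv p (tOf Q) * pA p Q) + deriv q (tOf Q) * pA q Q + 2 * (pA p Q / pA q Q) - 2
        - pA p Q + pA q Q) / Q ^ 2 := by
  have hA : pA q Q ≠ 0 := (Real.exp_pos _).ne'
  rw [g5, invX, radP_pA_pB hQ, (hasDerivAt_pC hQ hp hq).deriv, pC, pB]
  field_simp; ring

theorem g6_profile (hQ : 0 < Q) : g6 (pA q) (pC p q) Q = (pA p Q / pA q Q - 1) / Q := by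
  have hA : pA q Q ≠ 0 := (Real.exp_pos _).ne'
  rw [g6, pC]; field_simp

theorem gT_profile (n : ℕ) (hQ : 0 < Q) (hp : Differentiable ℝ p) (hq : Differentiable ℝ q) :
    gT n (pA q) (pB q) (pC p q) Q =
      (((n : ℝ) - 2) * deriv q (tOf Q) + deriv p (tOf Q)) / Q := by
  rw [gT, g1_profile hQ hq, g2_profile hQ hq, g3_profile hQ hq, g4_profile hQ hp hq, g6_profile hQ]
  field_simp; ring

/-- Derivative of a function known near `Q` in closed form. -/
theorem deriv_of_closed {g F : ℝ → ℝ} {F' : ℝ} (hQ : 0 < Q)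
    (he : ∀ S, 0 < S → g S = F S) (hF : HasDerivAt F F' Q) : deriv g Q = F' :=
  (hF.congr_of_eventuallyEq (Filter.eventually_of_mem (lt_mem_nhds hQ) he)).deriv

/-- The three combinations that are the eigenvalues of the Ricci form. -/
theorem k_profile (m : ℕ) (hQ : 0 < Q) (hp : ContDiff ℝ 2 p) (hq : ContDiff ℝ 2 q) :
    Q * kV (2 * m + 2) (pA q) (pB q) (pC p q) Q =
      pA q Q * (-(deriv (deriv q) (tOf Q) + deriv q (tOf Q) + deriv q (tOf Q) ^ 2)
        - (1 + deriv p (tOf Q)) * (1 + deriv q (tOf Q))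
        - (2 * m - 1) * (1 + deriv q (tOf Q)) ^ 2
        + (2 * m + 2) / pA q Q - 2 * (pA p Q / pA q Q ^ 2)) ∧
    Q * (kV (2 * m + 2) (pA q) (pB q) (pC p q) Q + Q * kX (2 * m + 2) (pA q) (pB q) (pC p q) Q) =
      -(deriv (deriv p) (tOf Q) + deriv p (tOf Q) + deriv p (tOf Q) ^ 2)
        - 2 * m * (deriv (deriv q) (tOf Q) + deriv q (tOf Q) + deriv q (tOf Q) ^ 2) ∧
    Q * (kV (2 * m + 2) (pA q) (pB q) (pC p q) Q + Q * kY (2 * m + 2) (pA q) (pB q) (pC p q) Q) =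
      pA p Q * (-(deriv (deriv p) (tOf Q) + deriv p (tOf Q) + deriv p (tOf Q) ^ 2)
        - 2 * m * ((1 + deriv p (tOf Q)) * (1 + deriv q (tOf Q)))
        + 2 * m * (pA p Q / pA q Q ^ 2)) := by
  have dp : Differentiable ℝ p := hp.differentiable (by norm_num)
  have dq : Differentiable ℝ q := hq.differentiable (by norm_num)
  have hA : pA q Q ≠ 0 := (Real.exp_pos _).ne'
  have hp2 : HasDerivAt (deriv p) (deriv (deriv p) (tOf Q)) (tOf Q) :=
    (differentiableAt_deriv hp.contDiffAt).hasDerivAt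
  have hq2 : HasDerivAt (deriv q) (deriv (deriv q) (tOf Q)) (tOf Q) :=
    (differentiableAt_deriv hq.contDiffAt).hasDerivAt
  have fp := hasDerivAt_comp_tOf hQ hp2
  have fq := hasDerivAt_comp_tOf hQ hq2
  have aP := hasDerivAt_pA hQ dp
  have aQ := hasDerivAt_pA hQ dq
  have sq2 : HasDerivAt (fun S : ℝ => S ^ 2) (2 * Q) Q := by simpa using hasDerivAt_pow 2 Q
  have hne2 : Q ^ 2 ≠ 0 := pow_ne_zero 2 hQ.ne'
  have e1 := deriv_of_closed hQ (fun S hS => g1_profile hS dq)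
    (fq.fun_div (hasDerivAt_id' Q) hQ.ne')
  have e2 := deriv_of_closed hQ (fun S hS => g2_profile hS dq)
    (((aQ.const_sub 1).fun_sub (fq.fun_mul aQ)).fun_div (hasDerivAt_id' Q) hQ.ne')
  have e3 := deriv_of_closed hQ (fun S hS => g3_profile hS dq)
    ((((aQ.const_add (-1)).fun_sub (fq.const_mul 2)).fun_add (fq.fun_mul aQ)).fun_div sq2 hne2)
  have e5 := deriv_of_closed hQ (fun S hS => g5_profile hS dp dq)
    ((((((fp.fun_mul aP).fun_neg.fun_add (fq.fun_mul aQ)).fun_add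
      ((aP.fun_div aQ hA).const_mul 2)).sub_const 2).fun_sub aP).fun_add aQ |>.fun_div sq2 hne2)
  have e6 := deriv_of_closed hQ (fun S hS => g6_profile (p := p) (q := q) hS)
    (((aP.fun_div aQ hA).sub_const 1).fun_div (hasDerivAt_id' Q) hQ.ne')
  have eT := deriv_of_closed hQ (fun S hS => gT_profile (2 * m + 2) hS dp dq)
    (((fq.const_mul (((2 * m + 2 : ℕ) : ℝ) - 2)).fun_add fp).fun_div (hasDerivAt_id' Q) hQ.ne')
  simp only [kV, kX, kY, e1, e2, e3, e5, e6, eT, g1_profile hQ dq, g2_profile hQ dq,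
    g3_profile hQ dq, g4_profile hQ dp dq, g5_profile hQ dp dq, g6_profile (p := p) (q := q) hQ,
    gT_profile (2 * m + 2) hQ dp dq]
  push_cast
  refine ⟨?_, ?_, ?_⟩ <;> (field_simp; ring)

end Vale.Agent.P225.Full
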