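import Vale.Agent.P225.Full.BergerInv

/-!
# Ricci form and Laplacian of the Berger type metric
-/

namespace Vale.Agent.P225.Full

open scoped Matrix Topology
open Matrix Finset

variable {n : ℕ} {J : Matrix (Fin n) (Fin n) ℝ} {A B C : ℝ → ℝ} {x : Coord n}

/-- Regularity and positivity at `q`. -/
structure RegAt (A B C : ℝ → ℝ) (q : ℝ) : Prop where
  pos : PosAt A B C q
  smoothA : ContDiffAt ℝ 2 A q
  smoothB : ContDiffAt ℝ 2 B q
  smoothC : ContDiffAt ℝ 2 C q

theorem RegAt.eventually {q : ℝ} (h : RegAt A B C q) :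
    ∀ᶠ p in 𝓝 q, PosAt A B C p ∧ DifferentiableAt ℝ A p ∧ DifferentiableAt ℝ B p
      ∧ DifferentiableAt ℝ C p := by
  have cA := h.smoothA.continuousAt
  have cP : ContinuousAt (radP A B) q := by
    have := h.smoothB.continuousAt; unfold radP; fun_prop
  have cQ : ContinuousAt (radP A C) q := by
    have := h.smoothC.continuousAt; unfold radP; fun_prop
  filter_upwards [cA.eventually (lt_mem_nhds h.pos.hA), cP.eventually (lt_mem_nhds h.pos.hP),
    cQ.eventually (lt_mem_nhds h.pos.hQ), h.smoothA.eventually (by simp),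
    h.smoothB.eventually (by simp), h.smoothC.eventually (by simp)] with p h1 h2 h3 h4 h5 h6
  exact ⟨⟨h1, h2, h3⟩, h4.differentiableAt (by simp), h5.differentiableAt (by simp),
    h6.differentiableAt (by simp)⟩

theorem differentiableAt_deriv {φ : ℝ → ℝ} {q : ℝ} (h : ContDiffAt ℝ 2 φ q) :
    DifferentiableAt ℝ (deriv φ) q := by
  have h1 : ContDiffAt ℝ 1 (fderiv ℝ φ) q := h.fderiv_right (by norm_num)
  have h2 : DifferentiableAt ℝ (fun p => fderiv ℝ φ p 1) q :=
    ((h1.differentiableAt (by simp)).clm_apply (differentiableAt_const _))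
  simpa only [fderiv_apply_one_eq_deriv] using h2

theorem RegAt.coef {q : ℝ} (h : RegAt A B C q) :
    DifferentiableAt ℝ (g1 A) q ∧ DifferentiableAt ℝ (g2 A B) q ∧ DifferentiableAt ℝ (g3 A B) q
      ∧ DifferentiableAt ℝ (g4 A C) q ∧ DifferentiableAt ℝ (g5 A B C) q
      ∧ DifferentiableAt ℝ (g6 A C) q ∧ DifferentiableAt ℝ (gT n A B C) q := by
  have dA := h.smoothA.differentiableAt (by norm_num)
  have dB := h.smoothB.differentiableAt (by norm_num)
  have dC := h.smoothC.differentiableAt (by norm_num)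
  have dA' := differentiableAt_deriv h.smoothA
  have dB' := differentiableAt_deriv h.smoothB
  have dC' := differentiableAt_deriv h.smoothC
  obtain ⟨hA, hP, hQ⟩ := h.pos
  have d1 : DifferentiableAt ℝ (g1 A) q := dA'.fun_div dA hA.ne'
  have dP : DifferentiableAt ℝ (radP A B) q := dA.fun_add (differentiableAt_id.fun_mul dB)
  have dQ : DifferentiableAt ℝ (radP A C) q := dA.fun_add (differentiableAt_id.fun_mul dC)
  have d2 : DifferentiableAt ℝ (g2 A B) q := (dB.fun_sub dA').fun_div dP hP.ne'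
  have dX : DifferentiableAt ℝ (invX A B) q :=
    dB.fun_neg.fun_div (dA.fun_mul dP) (mul_pos hA hP).ne'
  have dY : DifferentiableAt ℝ (invX A C) q :=
    dC.fun_neg.fun_div (dA.fun_mul dQ) (mul_pos hA hQ).ne'
  have d3 : DifferentiableAt ℝ (g3 A B) q :=
    (dB'.fun_div dP hP.ne').fun_add (((differentiableAt_const _).fun_mul dA').fun_mul dX)
  have d4 : DifferentiableAt ℝ (g4 A C) q :=
    (dC'.fun_div dQ hQ.ne').fun_add ((dA'.fun_add dC).fun_mul dY)
  have d5 : DifferentiableAt ℝ (g5 A B C) q :=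
    (dC'.fun_neg.fun_div dP hP.ne').fun_sub (((differentiableAt_const _).fun_mul dC).fun_mul dX)
  have d6 : DifferentiableAt ℝ (g6 A C) q := dC.fun_div dA hA.ne'
  exact ⟨d1, d2, d3, d4, d5, d6, (((((differentiableAt_const _).fun_mul d1).fun_add d2).fun_add
    (differentiableAt_id.fun_mul d3)).fun_add (differentiableAt_id.fun_mul d4)).fun_add d6⟩

/-- The Ricci form of any metric, evaluated on a constant vector. -/
theorem ric_quad {g : MetricField n}
    (hd : ∀ k i j, DifferentiableAt ℝ (christoffel g k i j) x)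
    (hev : ∀ᶠ y in 𝓝 x, ∀ k i j, christoffel g k i j y = christoffel g k j i y) (v : Coord n) :
    ∑ i, ∑ j, ricciTensor g i j x * v i * v j =
      ∑ k, pd k (fun y => ∑ i, ∑ j, christoffel g k j i y * v i * v j) x
      - ∑ j, v j * pd j (fun y => ∑ k, ∑ i, christoffel g k k i y * v i) x
      + ∑ l, (∑ k, christoffel g k k l x) * (∑ i, ∑ j, christoffel g l j i x * v i * v j)
      - ∑ k, ∑ l, (∑ j, christoffel g k j l x * v j) * (∑ i, christoffel g l i k x * v i) := by
  have e1 : ∀ k, pd k (fun y => ∑ i, ∑ j, christoffel g k j i y * v i * v j) x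
      = ∑ i, ∑ j, pd k (christoffel g k j i) x * v i * v j := by
    intro k
    simp only [pd]
    rw [fderiv_fun_sum fun i _ => DifferentiableAt.fun_sum fun j _ =>
      ((hd k j i).mul_const (v i)).mul_const (v j)]
    simp only [_root_.sum_apply]
    refine sum_congr rfl fun i _ => ?_
    rw [fderiv_fun_sum fun j _ => ((hd k j i).mul_const (v i)).mul_const (v j)]
    simp only [_root_.sum_apply]
    refine sum_congr rfl fun j _ => ?_
    rw [fderiv_mul_const ((hd k j i).mul_const (v i)), fderiv_mul_const (hd k j i)]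
    simp only [_root_.smul_apply, smul_eq_mul]; ring
  have e2 : ∀ j, pd j (fun y => ∑ k, ∑ i, christoffel g k k i y * v i) x
      = ∑ k, ∑ i, pd j (christoffel g k k i) x * v i := by
    intro j
    simp only [pd]
    rw [fderiv_fun_sum fun k _ => DifferentiableAt.fun_sum fun i _ => (hd k k i).mul_const (v i)]
    simp only [_root_.sum_apply]
    refine sum_congr rfl fun k _ => ?_
    rw [fderiv_fun_sum fun i _ => (hd k k i).mul_const (v i)]
    simp only [_root_.sum_apply]
    refine sum_congr rfl fun i _ => ?_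
    rw [fderiv_mul_const (hd k k i)]
    simp only [_root_.smul_apply, smul_eq_mul]; ring
  have hs := hev.self_of_nhds
  have hp : ∀ m k i j, pd m (christoffel g k i j) x = pd m (christoffel g k j i) x := fun m k i j =>
    pdq_congr (hev.mono fun y hy => hy k i j) m
  have hric : ∀ i j, ricciTensor g i j x * v i * v j = v i * v j *
      (∑ k, (pd k (christoffel g k j i) x - pd j (christoffel g k k i) x
        + ∑ l, (christoffel g k k l x * christoffel g l j i x
          - christoffel g k j l x * christoffel g l k i x))) := by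
    intro i j
    simp only [ricciTensor, sum_add_distrib, sum_sub_distrib, fun k => hp k k i j,
      fun k => hp j k i k, fun l => hs l i j, fun (l m : Fin n) => hs m i l]
    ring
  simp only [e1, e2, hric, mul_add, mul_sub, mul_sum, sum_mul, sum_add_distrib, sum_sub_distrib]
  have r1 : ∑ i, ∑ j, ∑ k, v i * v j * pd k (christoffel g k j i) x
      = ∑ k, ∑ i, ∑ j, pd k (christoffel g k j i) x * v i * v j := by
    rw [sum_comm_cycle]
    exact sum_congr rfl fun i _ => sum_congr rfl fun j _ => sum_congr rfl fun k _ => by ring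
  have r2 : ∑ i, ∑ j, ∑ k, v i * v j * pd j (christoffel g k k i) x
      = ∑ j, ∑ k, ∑ i, v j * (pd j (christoffel g k k i) x * v i) := by
    rw [sum_comm]
    refine sum_congr rfl fun j _ => ?_
    rw [sum_comm]
    exact sum_congr rfl fun k _ => sum_congr rfl fun i _ => by ring
  have r3 : ∑ i, ∑ j, ∑ k, ∑ l, v i * v j * (christoffel g k k l x * christoffel g l j i x)
      = ∑ l, ∑ i, ∑ j, ∑ k, christoffel g k k l x * (christoffel g l j i x * v i * v j) := by
    rw [sum_comm (s := (univ : Finset (Fin n))) (t := univ)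
      (f := fun l i => ∑ j, ∑ k, christoffel g k k l x * (christoffel g l j i x * v i * v j))]
    refine sum_congr rfl fun i _ => ?_
    rw [sum_comm (s := (univ : Finset (Fin n))) (t := univ)
      (f := fun l j => ∑ k, christoffel g k k l x * (christoffel g l j i x * v i * v j))]
    refine sum_congr rfl fun j _ => ?_
    rw [sum_comm]
    exact sum_congr rfl fun k _ => sum_congr rfl fun l _ => by ring
  have r4 : ∑ i, ∑ j, ∑ k, ∑ l, v i * v j * (christoffel g k j l x * christoffel g l k i x)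
      = ∑ k, ∑ l, ∑ i, ∑ j, christoffel g k j l x * v j * (christoffel g l i k x * v i) := by
    calc _ = ∑ k, ∑ i, ∑ j, ∑ l, v i * v j * (christoffel g k j l x * christoffel g l k i x) := sum_comm_cycle
      _ = ∑ k, ∑ l, ∑ i, ∑ j, v i * v j * (christoffel g k j l x * christoffel g l k i x) :=
          sum_congr rfl fun k _ => sum_comm_cycle
      _ = _ := by
          refine sum_congr rfl fun k _ => sum_congr rfl fun l _ => sum_congr rfl fun i _ =>
            sum_congr rfl fun j _ => ?_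
          rw [hs l i k]; ring
  rw [r1, r2, r3, r4]; ring

/-- The contracted symbol `Γ^k(v,v)`. -/
theorem gam_vv (hJ : IsCx J) (v : Coord n) (k : Fin n) (y : Coord n) :
    ∑ i, ∑ j, bergerGam J A B C k j i y * v i * v j =
      2 * g1 A (sq y) * (v ⬝ᵥ y) * v k + g2 A B (sq y) * (v ⬝ᵥ v) * y k
      + g3 A B (sq y) * (v ⬝ᵥ y) * (v ⬝ᵥ y) * y k
      + 2 * g4 A C (sq y) * (v ⬝ᵥ y) * ((-(J *ᵥ v)) ⬝ᵥ y) * (J *ᵥ y) k
      + g5 A B C (sq y) * ((-(J *ᵥ v)) ⬝ᵥ y) * ((-(J *ᵥ v)) ⬝ᵥ y) * y k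
      + 2 * g6 A C (sq y) * ((-(J *ᵥ v)) ⬝ᵥ y) * (J *ᵥ v) k := by
  have hx : ∑ i, y i * v i = v ⬝ᵥ y := sum_congr rfl fun i _ => mul_comm _ _
  have hη : ∑ i, (J *ᵥ y) i * v i = (-(J *ᵥ v)) ⬝ᵥ y := by
    rw [show ∑ i, (J *ᵥ y) i * v i = (J *ᵥ y) ⬝ᵥ v from rfl, hJ.transpose_mulVec_dot,
      neg_dotProduct, dotProduct_comm]
  have h1 : ∀ c : ℝ, ∑ i, ∑ j, c * (1 : Matrix (Fin n) (Fin n) ℝ) j i * v i * v j
      = c * (v ⬝ᵥ v) := by
    intro c; simp [Matrix.one_apply, dotProduct, mul_sum]; exact sum_congr rfl fun i _ => by ring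
  have hk : ∑ i, (1 : Matrix (Fin n) (Fin n) ℝ) k i * v i = v k := by simp [Matrix.one_apply]
  have hJk : ∑ i, J k i * v i = (J *ᵥ v) k := rfl
  have hprod : ∀ a b : Coord n, ∑ i, ∑ j, a i * b j = (∑ i, a i) * ∑ j, b j := fun a b => by
    rw [sum_mul_sum]
  calc _ = g1 A (sq y) * (∑ i, ∑ j, ((1 : Matrix (Fin n) (Fin n) ℝ) k i * v i) * (y j * v j))
        + g1 A (sq y) * (∑ i, ∑ j, (y i * v i) * ((1 : Matrix (Fin n) (Fin n) ℝ) k j * v j))
        + ∑ i, ∑ j, g2 A B (sq y) * y k * (1 : Matrix (Fin n) (Fin n) ℝ) j i * v i * v j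
        + g3 A B (sq y) * y k * (∑ i, ∑ j, (y i * v i) * (y j * v j))
        + g4 A C (sq y) * (J *ᵥ y) k * (∑ i, ∑ j, ((J *ᵥ y) i * v i) * (y j * v j))
        + g4 A C (sq y) * (J *ᵥ y) k * (∑ i, ∑ j, (y i * v i) * ((J *ᵥ y) j * v j))
        + g5 A B C (sq y) * y k * (∑ i, ∑ j, ((J *ᵥ y) i * v i) * ((J *ᵥ y) j * v j))
        + g6 A C (sq y) * (∑ i, ∑ j, ((J *ᵥ y) i * v i) * (J k j * v j))
        + g6 A C (sq y) * (∑ i, ∑ j, (J k i * v i) * ((J *ᵥ y) j * v j)) := by
        simp only [mul_sum, ← sum_add_distrib]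
        exact sum_congr rfl fun i _ => sum_congr rfl fun j _ => by rw [bergerGam]; ring
    _ = _ := by rw [h1]; simp only [hprod, hx, hη, hk, hJk]; ring

/-- The trace of the symbols. -/
theorem gam_trace (hJ : IsCx J) (l : Fin n) (y : Coord n) :
    ∑ k, bergerGam J A B C k k l y = gT n A B C (sq y) * y l := by
  have e1 : ∑ k : Fin n, y k * (1 : Matrix (Fin n) (Fin n) ℝ) k l = y l := by simp [Matrix.one_apply]
  have e1' : ∑ k : Fin n, (1 : Matrix (Fin n) (Fin n) ℝ) k l * y k = y l := by simp [Matrix.one_apply]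
  have e2 : ∑ k : Fin n, (1 : Matrix (Fin n) (Fin n) ℝ) k k = n := by simp
  have e3 : ∑ k, y k * (J *ᵥ y) k = 0 := hJ.dot_self_mulVec y
  have e4 : ∑ k, y k * y k = sq y := rfl
  have e5 : ∑ k, (J *ᵥ y) k * (J *ᵥ y) k = sq y := hJ.mulVec_dot_mulVec y y
  have e6 : ∑ k, (J *ᵥ y) k * J k l = y l := by
    have h := congrFun (hJ.mulVec_mulVec_self y) l
    simp only [mulVec, dotProduct, Pi.neg_apply] at h
    rw [show y l = -(-y l) by ring, ← h, ← sum_neg_distrib]
    exact sum_congr rfl fun k _ => by rw [hJ.apply_neg l k]; simp [mulVec, dotProduct]; ring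
  have e7 : ∑ k, J k k = 0 := sum_eq_zero fun k _ => by
    have := hJ.apply_neg k k; linarith
  calc _ = g1 A (sq y) * (∑ k, y k * (1 : Matrix (Fin n) (Fin n) ℝ) k l)
        + g1 A (sq y) * y l * (∑ k : Fin n, (1 : Matrix (Fin n) (Fin n) ℝ) k k)
        + g2 A B (sq y) * (∑ k : Fin n, (1 : Matrix (Fin n) (Fin n) ℝ) k l * y k)
        + g3 A B (sq y) * y l * (∑ k, y k * y k)
        + g4 A C (sq y) * (J *ᵥ y) l * (∑ k, y k * (J *ᵥ y) k)
        + g4 A C (sq y) * y l * (∑ k, (J *ᵥ y) k * (J *ᵥ y) k)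
        + g5 A B C (sq y) * (J *ᵥ y) l * (∑ k, y k * (J *ᵥ y) k)
        + g6 A C (sq y) * (J *ᵥ y) l * (∑ k, J k k)
        + g6 A C (sq y) * (∑ k, (J *ᵥ y) k * J k l) := by
        simp only [mul_sum, ← sum_add_distrib]
        exact sum_congr rfl fun k _ => by rw [bergerGam]; ring
    _ = _ := by rw [e1, e1', e2, e3, e4, e5, e6, e7, gT]; ring

theorem ric_berger (hJ : IsCx J) (hr : RegAt A B C (sq x)) (v : Coord n) :
    ∑ i, ∑ j, ricciTensor (berger J A B C) i j x * v i * v j =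
      kV n A B C (sq x) * (v ⬝ᵥ v) + kX n A B C (sq x) * (v ⬝ᵥ x) ^ 2
        + kY n A B C (sq x) * ((J *ᵥ x) ⬝ᵥ v) ^ 2 := by
  obtain ⟨d1, d2, d3, d4, d5, d6, dT⟩ := hr.coef (n := n)
  have hev : ∀ᶠ y in 𝓝 x, ∀ k i j, christoffel (berger J A B C) k i j y = bergerGam J A B C k i j y := by
    filter_upwards [(differentiableAt_sq (x := x)).continuousAt.eventually hr.eventually]
      with y hy k i j
    exact chr_berger hJ hy.1 hy.2.1 hy.2.2.1 hy.2.2.2 k i j
  have c1 : DifferentiableAt ℝ (fun y => g1 A (sq y)) x := d1.comp x differentiableAt_sq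
  have c2 : DifferentiableAt ℝ (fun y => g2 A B (sq y)) x := d2.comp x differentiableAt_sq
  have c3 : DifferentiableAt ℝ (fun y => g3 A B (sq y)) x := d3.comp x differentiableAt_sq
  have c4 : DifferentiableAt ℝ (fun y => g4 A C (sq y)) x := d4.comp x differentiableAt_sq
  have c5 : DifferentiableAt ℝ (fun y => g5 A B C (sq y)) x := d5.comp x differentiableAt_sq
  have c6 : DifferentiableAt ℝ (fun y => g6 A C (sq y)) x := d6.comp x differentiableAt_sq
  have cT : DifferentiableAt ℝ (fun y => gT n A B C (sq y)) x := dT.comp x differentiableAt_sq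
  have hd : ∀ k i j, DifferentiableAt ℝ (christoffel (berger J A B C) k i j) x := by
    intro k i j
    refine DifferentiableAt.congr_of_eventuallyEq ?_ (hev.mono fun y hy => hy k i j)
    have := fun m => differentiableAt_coord (x := x) m
    have := fun m => differentiableAt_mulVec (x := x) J m
    unfold bergerGam
    fun_prop
  have hs : ∀ᶠ y in 𝓝 x, ∀ k i j, christoffel (berger J A B C) k i j y
      = christoffel (berger J A B C) k j i y := by
    filter_upwards [hev] with y hy k i j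
    rw [hy k i j, hy k j i]
    simp only [bergerGam, Matrix.one_apply, eq_comm (a := i) (b := j)]
    ring
  rw [ric_quad hd hs]
  set w : Coord n := -(J *ᵥ v) with hw
  have hY : (J *ᵥ x) ⬝ᵥ v = w ⬝ᵥ x := by
    rw [hJ.transpose_mulVec_dot, hw, neg_dotProduct, dotProduct_comm]
  have hwk : ∀ k, w k = -(J *ᵥ v) k := fun k => rfl
  set X := v ⬝ᵥ x with hX
  set Y := w ⬝ᵥ x with hY'
  -- divergence
  have hdiv : ∀ k, pd k (fun y => ∑ i, ∑ j, christoffel (berger J A B C) k j i y * v i * v j) x =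
      2 * (2 * deriv (g1 A) (sq x) * x k * X + g1 A (sq x) * v k) * v k
      + ((2 * deriv (g2 A B) (sq x) * x k) * (v ⬝ᵥ v)) * x k + g2 A B (sq x) * (v ⬝ᵥ v)
      + (2 * deriv (g3 A B) (sq x) * x k * X * X + 2 * g3 A B (sq x) * X * v k) * x k
      + g3 A B (sq x) * X * X
      + 2 * ((2 * deriv (g4 A C) (sq x) * x k * X + g4 A C (sq x) * v k) * Y
          + g4 A C (sq x) * X * w k) * (J *ᵥ x) k + 2 * g4 A C (sq x) * X * Y * J k k
      + (2 * deriv (g5 A B C) (sq x) * x k * Y * Y + 2 * g5 A B C (sq x) * Y * w k) * x k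
      + g5 A B C (sq x) * Y * Y
      + 2 * (2 * deriv (g6 A C) (sq x) * x k * Y + g6 A C (sq x) * w k) * (J *ᵥ v) k := by
    intro k
    have hX' := differentiableAt_dot (x := x) v
    have hY'' := differentiableAt_dot (x := x) w
    have hk' := differentiableAt_coord (x := x) k
    have hη' := differentiableAt_mulVec (x := x) J k
    have hcon : ∀ r : ℝ, DifferentiableAt ℝ (fun _ : Coord n => r) x := fun r => differentiableAt_const r
    rw [pdq_congr (h := fun y => 2 * g1 A (sq y) * (v ⬝ᵥ y) * v k + g2 A B (sq y) * (v ⬝ᵥ v) * y k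
      + g3 A B (sq y) * (v ⬝ᵥ y) * (v ⬝ᵥ y) * y k
      + 2 * g4 A C (sq y) * (v ⬝ᵥ y) * (w ⬝ᵥ y) * (J *ᵥ y) k
      + g5 A B C (sq y) * (w ⬝ᵥ y) * (w ⬝ᵥ y) * y k
      + 2 * g6 A C (sq y) * (w ⬝ᵥ y) * (J *ᵥ v) k)
      (hev.mono fun y hy => (sum_congr rfl fun i _ => sum_congr rfl fun j _ => by rw [hy]).trans
        (gam_vv hJ v k y)) k]
    have t1 := (((hcon 2).fun_mul c1).fun_mul hX').fun_mul (hcon (v k))
    have t2 := (c2.fun_mul (hcon (v ⬝ᵥ v))).fun_mul hk'
    have t3 := ((c3.fun_mul hX').fun_mul hX').fun_mul hk'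
    have t4 := ((((hcon 2).fun_mul c4).fun_mul hX').fun_mul hY'').fun_mul hη'
    have t5 := ((c5.fun_mul hY'').fun_mul hY'').fun_mul hk'
    have t6 := (((hcon 2).fun_mul c6).fun_mul hY'').fun_mul (hcon ((J *ᵥ v) k))
    rw [pdq_add ((((t1.fun_add t2).fun_add t3).fun_add t4).fun_add t5) t6,
      pdq_add (((t1.fun_add t2).fun_add t3).fun_add t4) t5,
      pdq_add ((t1.fun_add t2).fun_add t3) t4, pdq_add (t1.fun_add t2) t3, pdq_add t1 t2,
      pdq_mul (((hcon 2).fun_mul c1).fun_mul hX') (hcon _), pdq_mul ((hcon 2).fun_mul c1) hX',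
      pdq_mul (hcon 2) c1,
      pdq_mul (c2.fun_mul (hcon _)) hk', pdq_mul c2 (hcon _),
      pdq_mul ((c3.fun_mul hX').fun_mul hX') hk', pdq_mul (c3.fun_mul hX') hX', pdq_mul c3 hX',
      pdq_mul ((((hcon 2).fun_mul c4).fun_mul hX').fun_mul hY'') hη',
      pdq_mul (((hcon 2).fun_mul c4).fun_mul hX') hY'', pdq_mul ((hcon 2).fun_mul c4) hX',
      pdq_mul (hcon 2) c4,
      pdq_mul ((c5.fun_mul hY'').fun_mul hY'') hk', pdq_mul (c5.fun_mul hY'') hY'', pdq_mul c5 hY'',
      pdq_mul (((hcon 2).fun_mul c6).fun_mul hY'') (hcon _), pdq_mul ((hcon 2).fun_mul c6) hY'',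
      pdq_mul (hcon 2) c6,
      pdq_comp_sq d1, pdq_comp_sq d2, pdq_comp_sq d3, pdq_comp_sq d4, pdq_comp_sq d5,
      pdq_comp_sq d6, pdq_dot, pdq_dot, pdq_coord, pdq_mulVec]
    simp only [pdq_const, if_true, ← hX, ← hY']
    ring
  -- derivative of the trace
  have htr : ∀ j, pd j (fun y => ∑ k, ∑ i, christoffel (berger J A B C) k k i y * v i) x =
      2 * deriv (gT n A B C) (sq x) * x j * X + gT n A B C (sq x) * v j := by
    intro j
    rw [pdq_congr (h := fun y => gT n A B C (sq y) * (v ⬝ᵥ y)) (hev.mono fun y hy => by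
      show _ = _
      simp only [hy]
      rw [sum_comm]
      simp only [← sum_mul, gam_trace hJ, dotProduct, mul_sum]
      exact sum_congr rfl fun i _ => by ring) j,
      pdq_mul cT (differentiableAt_dot v), pdq_comp_sq dT, pdq_dot, ← hX]
  have hG : ∀ l, ∑ i, ∑ j, christoffel (berger J A B C) l j i x * v i * v j =
      2 * g1 A (sq x) * X * v l + g2 A B (sq x) * (v ⬝ᵥ v) * x l + g3 A B (sq x) * X * X * x l
      + 2 * g4 A C (sq x) * X * Y * (J *ᵥ x) l + g5 A B C (sq x) * Y * Y * x l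
      + 2 * g6 A C (sq x) * Y * (J *ᵥ v) l := by
    intro l
    simp only [hev.self_of_nhds]
    exact gam_vv hJ v l x
  have hT : ∀ l, ∑ k, christoffel (berger J A B C) k k l x = gT n A B C (sq x) * x l := by
    intro l; simp only [hev.self_of_nhds]; exact gam_trace hJ l x
  -- the operator `u ↦ Γ(v,u)`
  have hL : ∀ k l, ∑ j, christoffel (berger J A B C) k j l x * v j =
      ((g1 A (sq x) * X) • (1 : Matrix (Fin n) (Fin n) ℝ) + (g6 A C (sq x) * Y) • J
        + vecMulVec v (g1 A (sq x) • x)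
        + vecMulVec x (g2 A B (sq x) • v + (g3 A B (sq x) * X) • x
            + (g5 A B C (sq x) * Y) • (J *ᵥ x))
        + vecMulVec (J *ᵥ x) ((g4 A C (sq x) * X) • (J *ᵥ x) + (g4 A C (sq x) * Y) • x)
        + vecMulVec (J *ᵥ v) (g6 A C (sq x) • (J *ᵥ x))) k l := by
    intro k l
    have a1 : ∑ j, x j * v j = X := sum_congr rfl fun i _ => mul_comm _ _
    have a2 : ∑ j, (J *ᵥ x) j * v j = Y := by rw [← hY]; rfl
    have a3 : ∑ j, (1 : Matrix (Fin n) (Fin n) ℝ) k j * v j = v k := by simp [Matrix.one_apply]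
    have a4 : ∑ j, (1 : Matrix (Fin n) (Fin n) ℝ) j l * v j = v l := by simp [Matrix.one_apply]
    have a5 : ∑ j, J k j * v j = (J *ᵥ v) k := rfl
    calc _ = g1 A (sq x) * (1 : Matrix (Fin n) (Fin n) ℝ) k l * (∑ j, x j * v j)
          + g1 A (sq x) * x l * (∑ j, (1 : Matrix (Fin n) (Fin n) ℝ) k j * v j)
          + g2 A B (sq x) * x k * (∑ j, (1 : Matrix (Fin n) (Fin n) ℝ) j l * v j)
          + g3 A B (sq x) * x l * x k * (∑ j, x j * v j)
          + g4 A C (sq x) * (J *ᵥ x) l * (J *ᵥ x) k * (∑ j, x j * v j)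
          + g4 A C (sq x) * x l * (J *ᵥ x) k * (∑ j, (J *ᵥ x) j * v j)
          + g5 A B C (sq x) * (J *ᵥ x) l * x k * (∑ j, (J *ᵥ x) j * v j)
          + g6 A C (sq x) * (J *ᵥ x) l * (∑ j, J k j * v j)
          + g6 A C (sq x) * J k l * (∑ j, (J *ᵥ x) j * v j) := by
          simp only [hev.self_of_nhds, mul_sum, ← sum_add_distrib]
          exact sum_congr rfl fun j _ => by rw [bergerGam]; ring
      _ = _ := by
          rw [a1, a2, a3, a4, a5]
          simp only [Matrix.add_apply, Matrix.smul_apply, vecMulVec_apply, Pi.add_apply,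
            Pi.smul_apply, smul_eq_mul]
          ring
  have q1 : ∑ k, x k * x k = sq x := rfl
  have q2 : ∑ k, v k * v k = v ⬝ᵥ v := rfl
  have q3 : ∑ k, x k * v k = X := sum_congr rfl fun i _ => mul_comm _ _
  have q4 : ∑ k, (J *ᵥ x) k * x k = 0 := hJ.mulVec_self_dot x
  have q5 : ∑ k, (J *ᵥ x) k * v k = Y := by rw [← hY]; rfl
  have q6 : ∑ k, (J *ᵥ v) k * x k = -Y := by
    rw [hY', hw, neg_dotProduct, neg_neg]; rfl
  have q7 : ∑ k, (J *ᵥ v) k * (J *ᵥ x) k = X := hJ.mulVec_dot_mulVec v x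
  have q8 : ∑ k, (J *ᵥ v) k * (J *ᵥ v) k = v ⬝ᵥ v := hJ.mulVec_dot_mulVec v v
  have q9 : ∑ k, J k k = 0 := sum_eq_zero fun k _ => by
    have := hJ.apply_neg k k; linarith
  have t1 : ∑ k, pd k (fun y => ∑ i, ∑ j, christoffel (berger J A B C) k j i y * v i * v j) x =
      4 * deriv (g1 A) (sq x) * X ^ 2 + 2 * g1 A (sq x) * (v ⬝ᵥ v)
      + (2 * sq x * deriv (g2 A B) (sq x) + n * g2 A B (sq x)) * (v ⬝ᵥ v)
      + (2 * sq x * deriv (g3 A B) (sq x) + n * g3 A B (sq x) + 2 * g3 A B (sq x)) * X ^ 2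
      + 2 * g4 A C (sq x) * (Y ^ 2 - X ^ 2)
      + (2 * sq x * deriv (g5 A B C) (sq x) + n * g5 A B C (sq x) + 2 * g5 A B C (sq x)) * Y ^ 2
      - 4 * deriv (g6 A C) (sq x) * Y ^ 2 - 2 * g6 A C (sq x) * (v ⬝ᵥ v) := by
    simp only [hdiv, hwk]
    calc _ = 4 * deriv (g1 A) (sq x) * X * (∑ k, x k * v k) + 2 * g1 A (sq x) * (∑ k, v k * v k)
          + 2 * deriv (g2 A B) (sq x) * (v ⬝ᵥ v) * (∑ k, x k * x k)
          + (∑ _k : Fin n, g2 A B (sq x) * (v ⬝ᵥ v))
          + 2 * deriv (g3 A B) (sq x) * X * X * (∑ k, x k * x k)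
          + 2 * g3 A B (sq x) * X * (∑ k, x k * v k) + (∑ _k : Fin n, g3 A B (sq x) * X * X)
          + 4 * deriv (g4 A C) (sq x) * X * Y * (∑ k, (J *ᵥ x) k * x k)
          + 2 * g4 A C (sq x) * Y * (∑ k, (J *ᵥ x) k * v k)
          - 2 * g4 A C (sq x) * X * (∑ k, (J *ᵥ v) k * (J *ᵥ x) k)
          + 2 * g4 A C (sq x) * X * Y * (∑ k, J k k)
          + 2 * deriv (g5 A B C) (sq x) * Y * Y * (∑ k, x k * x k)
          - 2 * g5 A B C (sq x) * Y * (∑ k, (J *ᵥ v) k * x k)
          + (∑ _k : Fin n, g5 A B C (sq x) * Y * Y)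
          + 4 * deriv (g6 A C) (sq x) * Y * (∑ k, (J *ᵥ v) k * x k)
          - 2 * g6 A C (sq x) * (∑ k, (J *ᵥ v) k * (J *ᵥ v) k) := by
          simp only [mul_sum, ← sum_add_distrib, ← sum_sub_distrib]
          exact sum_congr rfl fun k _ => by ring
      _ = _ := by
          rw [q1, q2, q3, q4, q5, q6, q7, q8, q9]
          simp only [sum_const, card_univ, Fintype.card_fin, nsmul_eq_mul]
          ring
  have t2 : ∑ j, v j * pd j (fun y => ∑ k, ∑ i, christoffel (berger J A B C) k k i y * v i) x =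
      2 * deriv (gT n A B C) (sq x) * X ^ 2 + gT n A B C (sq x) * (v ⬝ᵥ v) := by
    simp only [htr]
    calc _ = 2 * deriv (gT n A B C) (sq x) * X * (∑ k, x k * v k)
          + gT n A B C (sq x) * (∑ k, v k * v k) := by
          simp only [mul_sum, ← sum_add_distrib]
          exact sum_congr rfl fun k _ => by ring
      _ = _ := by rw [q3, q2]; ring
  have t3 : ∑ l, (∑ k, christoffel (berger J A B C) k k l x)
      * (∑ i, ∑ j, christoffel (berger J A B C) l j i x * v i * v j) =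
      gT n A B C (sq x) * (2 * g1 A (sq x) * X ^ 2 + sq x * g2 A B (sq x) * (v ⬝ᵥ v)
        + sq x * g3 A B (sq x) * X ^ 2 + sq x * g5 A B C (sq x) * Y ^ 2
        - 2 * g6 A C (sq x) * Y ^ 2) := by
    simp only [hG, hT]
    calc _ = gT n A B C (sq x) * (2 * g1 A (sq x) * X * (∑ k, x k * v k)
          + (g2 A B (sq x) * (v ⬝ᵥ v) + g3 A B (sq x) * X * X + g5 A B C (sq x) * Y * Y)
            * (∑ k, x k * x k)
          + 2 * g4 A C (sq x) * X * Y * (∑ k, (J *ᵥ x) k * x k)
          + 2 * g6 A C (sq x) * Y * (∑ k, (J *ᵥ v) k * x k)) := by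
          simp only [mul_sum, ← sum_add_distrib]
          exact sum_congr rfl fun k _ => by ring
      _ = _ := by rw [q1, q3, q4, q6]; ring
  have e1 : x ⬝ᵥ x = sq x := rfl
  have e2 : (J *ᵥ x) ⬝ᵥ (J *ᵥ x) = sq x := hJ.mulVec_dot_mulVec x x
  have e3 : x ⬝ᵥ v = X := q3
  have e4 : (J *ᵥ x) ⬝ᵥ v = Y := hY
  have e5 : x ⬝ᵥ (J *ᵥ v) = -Y := by rw [dotProduct_comm]; exact q6
  have e6 : (J *ᵥ x) ⬝ᵥ (J *ᵥ v) = X := by rw [hJ.mulVec_dot_mulVec]; exact q3
  have e7 : v ⬝ᵥ (J *ᵥ x) = Y := by rw [dotProduct_comm]; exact hY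
  have e8 : (J *ᵥ v) ⬝ᵥ x = -Y := q6
  have e9 : (J *ᵥ v) ⬝ᵥ (J *ᵥ x) = X := q7
  have t4 : ∑ k, ∑ l, (∑ j, christoffel (berger J A B C) k j l x * v j)
      * (∑ i, christoffel (berger J A B C) l i k x * v i) =
      (n * g1 A (sq x) ^ 2
        + 2 * g1 A (sq x) * (g1 A (sq x) + g2 A B (sq x) + sq x * g3 A B (sq x)
          + sq x * g4 A C (sq x) + g6 A C (sq x))
        + g1 A (sq x) ^ 2 + (g2 A B (sq x) + sq x * g3 A B (sq x)) ^ 2
        + sq x ^ 2 * g4 A C (sq x) ^ 2 + g6 A C (sq x) ^ 2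
        + 2 * g1 A (sq x) * g3 A B (sq x) * sq x + 2 * g4 A C (sq x) * g6 A C (sq x) * sq x) * X ^ 2
      + (-(n * g6 A C (sq x) ^ 2)
        + 2 * g6 A C (sq x) * (-g1 A (sq x) + g2 A B (sq x) + sq x * g5 A B C (sq x)
          - sq x * g4 A C (sq x) - g6 A C (sq x))
        + 2 * sq x * g1 A (sq x) * g5 A B C (sq x) - 2 * g1 A (sq x) * g6 A C (sq x)
        + 2 * sq x * g4 A C (sq x) * (g2 A B (sq x) + sq x * g5 A B C (sq x))
        - 2 * g4 A C (sq x) * g6 A C (sq x) * sq x) * Y ^ 2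
      + 2 * g1 A (sq x) * g2 A B (sq x) * sq x * (v ⬝ᵥ v) := by
    simp only [hL]
    rw [show ∀ M : Matrix (Fin n) (Fin n) ℝ, ∑ k, ∑ l, M k l * M l k = (M * M).trace from
      fun M => by simp [Matrix.trace, Matrix.mul_apply]]
    have hJt : J.trace = 0 := q9
    simp only [add_mul, mul_add, smul_mul_assoc, mul_smul_comm, Matrix.one_mul, Matrix.mul_one,
      vecMulVec_mul_vecMulVec]
    simp only [hJ.sq_eq, mul_vecMulVec, vecMulVec_mul, Matrix.trace_add,
      Matrix.trace_smul, Matrix.trace_neg, Matrix.trace_one, Fintype.card_fin, trace_vecMulVec,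
      hJt, smul_eq_mul, dotProduct_add, add_dotProduct, dotProduct_smul, smul_dotProduct,
      vecMulVec_smul, ← mulVec_transpose, hJ.skew, neg_mulVec, mulVec_add, mulVec_smul,
      dotProduct_neg, neg_dotProduct, hJ.mulVec_mulVec_self, e1, e2, e3, e4, e5, e6, e7, e8, e9,
      ← hX, hJ.dot_self_mulVec, hJ.mulVec_self_dot]
    simp only [smul_mul_assoc, mul_smul_comm, mul_vecMulVec, vecMulVec_mul, Matrix.trace_smul,
      trace_vecMulVec, smul_eq_mul, ← mulVec_transpose, hJ.skew, neg_mulVec, dotProduct_neg,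
      neg_dotProduct, hJ.mulVec_mulVec_self, e7, e8]
    ring
  rw [t1, t2, t3, t4, hY]
  simp only [kV, kX, kY]
  ring

theorem lap_berger (hJ : IsCx J) (hr : RegAt A B C (sq x)) (f : Coord n → ℝ) :
    laplace (berger J A B C) f x =
      (∑ i, pd i (pd i f) x) / A (sq x)
      + invX A B (sq x) * (∑ i, ∑ j, x i * x j * pd i (pd j f) x)
      + invX A C (sq x) * (∑ i, ∑ j, (J *ᵥ x) i * (J *ᵥ x) j * pd i (pd j f) x)
      - lapX n A B C (sq x) * ∑ k, x k * pd k f x := by
  have hA := hr.smoothA.differentiableAt (by norm_num)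
  have hB := hr.smoothB.differentiableAt (by norm_num)
  have hC := hr.smoothC.differentiableAt (by norm_num)
  set η := J *ᵥ x with hη
  have hsplit : ∀ S : Fin n → Fin n → ℝ, ∑ i, ∑ j, bergerInv J A B C x i j * S i j =
      (A (sq x))⁻¹ * ∑ i, S i i + invX A B (sq x) * (∑ i, ∑ j, x i * x j * S i j)
        + invX A C (sq x) * (∑ i, ∑ j, η i * η j * S i j) := by
    intro S
    simp only [bergerInv, Matrix.add_apply, Matrix.smul_apply, vecMulVec_apply, smul_eq_mul,
      add_mul, sum_add_distrib, mul_sum, hη]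
    congr 1
    · congr 1
      · simp [Matrix.one_apply, ite_mul]
      · exact sum_congr rfl fun i _ => sum_congr rfl fun j _ => by ring
    · exact sum_congr rfl fun i _ => sum_congr rfl fun j _ => by ring
  have q1 : ∑ k, x k * x k = sq x := rfl
  have q2 : ∑ k, η k * η k = sq x := hJ.mulVec_dot_mulVec x x
  have q3 : ∑ k, x k * η k = 0 := hJ.dot_self_mulVec x
  have q4 : ∀ k : Fin n, ∑ i, x i * (1 : Matrix (Fin n) (Fin n) ℝ) k i = x k := fun k => by
    simp [Matrix.one_apply]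
  have q4' : ∀ k : Fin n, ∑ i, η i * (1 : Matrix (Fin n) (Fin n) ℝ) k i = η k := fun k => by
    simp [Matrix.one_apply]
  have q5 : ∀ k, ∑ i, η i * J k i = -x k := fun k => by
    have h := congrFun (hJ.mulVec_mulVec_self x) k
    rw [← Pi.neg_apply, ← h]
    exact sum_congr rfl fun i _ => mul_comm _ _
  have q6 : ∀ k, ∑ i, x i * J k i = η k := fun k => sum_congr rfl fun i _ => mul_comm _ _
  have d1 : ∀ k, ∑ i, bergerGam J A B C k i i x =
      (2 * g1 A (sq x) + n * g2 A B (sq x) + sq x * g3 A B (sq x) + sq x * g5 A B C (sq x)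
        - 2 * g6 A C (sq x)) * x k := by
    intro k
    calc _ = 2 * g1 A (sq x) * (∑ i, x i * (1 : Matrix (Fin n) (Fin n) ℝ) k i)
          + g2 A B (sq x) * x k * (∑ i : Fin n, (1 : Matrix (Fin n) (Fin n) ℝ) i i)
          + g3 A B (sq x) * x k * (∑ i, x i * x i)
          + 2 * g4 A C (sq x) * η k * (∑ i, x i * η i)
          + g5 A B C (sq x) * x k * (∑ i, η i * η i)
          + 2 * g6 A C (sq x) * (∑ i, η i * J k i) := by
          simp only [mul_sum, ← sum_add_distrib]
          exact sum_congr rfl fun i _ => by rw [bergerGam, hη]; ring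
      _ = _ := by rw [q1, q2, q3, q4, q5]; simp; ring
  have d2 : ∀ k, ∑ i, ∑ j, x i * x j * bergerGam J A B C k i j x =
      sq x * (2 * g1 A (sq x) + g2 A B (sq x) + sq x * g3 A B (sq x)) * x k := by
    intro k
    have h1 : ∑ i, ∑ j, x i * x j * (1 : Matrix (Fin n) (Fin n) ℝ) i j = sq x := by
      simp [Matrix.one_apply, ← q1]
    calc _ = g1 A (sq x) * ((∑ i, x i * x i) * ∑ j, x j * (1 : Matrix (Fin n) (Fin n) ℝ) k j)
          + g1 A (sq x) * ((∑ i, x i * (1 : Matrix (Fin n) (Fin n) ℝ) k i) * ∑ j, x j * x j)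
          + g2 A B (sq x) * x k * (∑ i, ∑ j, x i * x j * (1 : Matrix (Fin n) (Fin n) ℝ) i j)
          + g3 A B (sq x) * x k * ((∑ i, x i * x i) * ∑ j, x j * x j)
          + g4 A C (sq x) * η k * ((∑ i, x i * x i) * ∑ j, x j * η j)
          + g4 A C (sq x) * η k * ((∑ i, x i * η i) * ∑ j, x j * x j)
          + g5 A B C (sq x) * x k * ((∑ i, x i * η i) * ∑ j, x j * η j)
          + g6 A C (sq x) * ((∑ i, x i * J k i) * ∑ j, x j * η j)
          + g6 A C (sq x) * ((∑ i, x i * η i) * ∑ j, x j * J k j) := by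
          simp only [sum_mul_sum]
          simp only [mul_sum, ← sum_add_distrib]
          exact sum_congr rfl fun i _ => sum_congr rfl fun j _ => by rw [bergerGam, hη]; ring
      _ = _ := by rw [h1, q1, q3, q4]; ring
  have d3 : ∀ k, ∑ i, ∑ j, η i * η j * bergerGam J A B C k i j x =
      sq x * (g2 A B (sq x) + sq x * g5 A B C (sq x) - 2 * g6 A C (sq x)) * x k := by
    intro k
    have h1 : ∑ i, ∑ j, η i * η j * (1 : Matrix (Fin n) (Fin n) ℝ) i j = sq x := by
      simp [Matrix.one_apply, ← q2]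
    have q3' : ∑ i, η i * x i = 0 := hJ.mulVec_self_dot x
    calc _ = g1 A (sq x) * ((∑ i, η i * x i) * ∑ j, η j * (1 : Matrix (Fin n) (Fin n) ℝ) k j)
          + g1 A (sq x) * ((∑ i, η i * (1 : Matrix (Fin n) (Fin n) ℝ) k i) * ∑ j, η j * x j)
          + g2 A B (sq x) * x k * (∑ i, ∑ j, η i * η j * (1 : Matrix (Fin n) (Fin n) ℝ) i j)
          + g3 A B (sq x) * x k * ((∑ i, η i * x i) * ∑ j, η j * x j)
          + g4 A C (sq x) * η k * ((∑ i, η i * x i) * ∑ j, η j * η j)
          + g4 A C (sq x) * η k * ((∑ i, η i * η i) * ∑ j, η j * x j)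
          + g5 A B C (sq x) * x k * ((∑ i, η i * η i) * ∑ j, η j * η j)
          + g6 A C (sq x) * ((∑ i, η i * J k i) * ∑ j, η j * η j)
          + g6 A C (sq x) * ((∑ i, η i * η i) * ∑ j, η j * J k j) := by
          simp only [sum_mul_sum]
          simp only [mul_sum, ← sum_add_distrib]
          exact sum_congr rfl fun i _ => sum_congr rfl fun j _ => by rw [bergerGam, hη]; ring
      _ = _ := by rw [h1, q3', q2, q4', q5]; ring
  have htrace : ∀ k, ∑ i, ∑ j, bergerInv J A B C x i j * bergerGam J A B C k i j x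
      = lapX n A B C (sq x) * x k := by
    intro k
    rw [hsplit (fun i j => bergerGam J A B C k i j x), d1, d2, d3, lapX]
    ring
  calc laplace (berger J A B C) f x
      = ∑ i, ∑ j, bergerInv J A B C x i j * pd i (pd j f) x
        - ∑ k, (∑ i, ∑ j, bergerInv J A B C x i j * bergerGam J A B C k i j x) * pd k f x := by
        simp only [laplace, berger_inv hJ hr.pos, chr_berger hJ hr.pos hA hB hC, mul_sub,
          sum_sub_distrib, mul_sum, sum_mul]
        congr 1
        rw [sum_comm_cycle]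
        exact sum_congr rfl fun i _ => sum_congr rfl fun j _ => sum_congr rfl fun k _ => by ring
    _ = _ := by
        rw [hsplit]
        simp only [htrace, hη, mul_sum]
        rw [div_eq_inv_mul, mul_sum]
        congr 1
        exact sum_congr rfl fun k _ => by ring

end Vale.Agent.P225.Full
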