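import Vale.Agent.P225.Full.Spec
import Vale.Agent.P225.Full.ParamODE

/-!
# The ideal pulse word and norms of small matrices

The closed form of the ideal slow flow of disjoint pulses is a product of exponentials.
-/

namespace Vale.Agent.P225.Full.PulseWord

open Filter Topology Set NormedSpace Spec
open scoped Matrix.Norms.Operator

variable {D : ℕ}

lemma abs_entry_le (A : Matrix (Fin D) (Fin D) ℝ) (a b : Fin D) : |A a b| ≤ ‖A‖ := by
  rw [Matrix.linfty_opNorm_def, ← Real.norm_eq_abs, ← coe_nnnorm, NNReal.coe_le_coe]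
  exact (Finset.single_le_sum (fun _ _ => zero_le) (Finset.mem_univ b)).trans
    (Finset.le_sup (f := fun i => ∑ j, ‖A i j‖₊) (Finset.mem_univ a))

lemma hasFDerivAt_entry (a b : Fin D) (A : Matrix (Fin D) (Fin D) ℝ) :
    HasFDerivAt (fun A : Matrix (Fin D) (Fin D) ℝ => A a b)
      (LinearMap.mkContinuous (Matrix.entryLinearMap ℝ ℝ a b) 1
        fun A => by simpa using abs_entry_le A a b) A :=
  ((Matrix.entryLinearMap ℝ ℝ a b).mkContinuous 1
    fun A => by simpa using abs_entry_le A a b).hasFDerivAt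

lemma norm_le_of_entry {A : Matrix (Fin D) (Fin D) ℝ} {r : ℝ} (hr : 0 ≤ r)
    (h : ∀ a b, |A a b| ≤ r) : ‖A‖ ≤ D * r := by
  lift r to NNReal using hr
  rw [Matrix.linfty_opNorm_def, ← NNReal.coe_natCast, ← NNReal.coe_mul, NNReal.coe_le_coe]
  refine Finset.sup_le fun a _ => (Finset.sum_le_card_nsmul _ _ r fun b _ => ?_).trans ?_
  · rw [← NNReal.coe_le_coe, coe_nnnorm, Real.norm_eq_abs]
    exact h a b
  · simp

lemma isUnit_expProd {N : ℕ} (A : Fin N → Matrix (Fin D) (Fin D) ℝ) : IsUnit (expProd A) := by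
  induction N with
  | zero => exact isUnit_one
  | succ N ih =>
    let _ := NormedAlgebra.restrictScalars ℚ ℝ (Matrix (Fin D) (Fin D) ℝ)
    exact (isUnit_exp _).mul (ih _)

lemma continuous_expProd {X : Type*} [TopologicalSpace X] {N : ℕ}
    {A : Fin N → X → Matrix (Fin D) (Fin D) ℝ} (h : ∀ i, Continuous (A i)) :
    Continuous fun x => expProd fun i => A i x := by
  induction N with
  | zero => exact continuous_const
  | succ N ih =>
    let _ := NormedAlgebra.restrictScalars ℚ ℝ (Matrix (Fin D) (Fin D) ℝ)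
    exact (exp_continuous.comp (h _)).mul (ih fun i => h i.castSucc)

lemma hasDerivAt_expProd {N : ℕ} (B : Fin N → Matrix (Fin D) (Fin D) ℝ) (a : Fin N → ℝ → ℝ)
    (a' : Fin N → ℝ) (t : ℝ) (ha : ∀ i, HasDerivAt (a i) (a' i) t)
    (hzero : ∀ i j, i < j → a' i ≠ 0 → a j t = 0) :
    HasDerivAt (fun s => expProd fun i => a i s • B i)
      ((∑ i, a' i • B i) * expProd fun i => a i t • B i) t := by
  induction N with
  | zero =>
    simp only [expProd, Finset.univ_eq_empty, Finset.sum_empty, zero_mul]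
    exact hasDerivAt_const t (1 : Matrix (Fin D) (Fin D) ℝ)
  | succ N ih =>
    have hih := ih (fun i => B i.castSucc) (fun i => a i.castSucc) (fun i => a' i.castSucc)
      (fun i => ha _) fun i j hij => hzero _ _ (by simpa using hij)
    have hexp : HasDerivAt (fun s => exp (a (Fin.last N) s • B (Fin.last N)))
        (a' (Fin.last N) • (B (Fin.last N) * exp (a (Fin.last N) t • B (Fin.last N)))) t :=
      (hasDerivAt_exp_smul_const' (𝕂 := ℝ) (B (Fin.last N)) _).scomp t (ha _)
    refine (hexp.fun_mul hih).congr_deriv ?_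
    simp only [expProd, Fin.sum_univ_castSucc, add_mul, smul_mul_assoc, mul_assoc]
    rw [add_comm]
    congr 1
    by_cases hall : ∀ i : Fin N, a' i.castSucc = 0
    · simp [hall]
    · push Not at hall
      obtain ⟨i, hi⟩ := hall
      rw [hzero i.castSucc (Fin.last N) (Fin.castSucc_lt_last i) hi]
      simp

/-- The amplitude of one pulse up to the time `x`. -/
noncomputable def bumpInt (w : ℝ → ℝ) (x : ℝ) : ℝ := ∫ u in (0 : ℝ)..x, w u

lemma bumpInt_of_le {w : ℝ → ℝ} (hw : ∀ s, s ≤ 0 ∨ 1 ≤ s → w s = 0) {x : ℝ} (hx : x ≤ 0) :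
    bumpInt w x = 0 := by
  rw [bumpInt, intervalIntegral.integral_congr (g := fun _ => (0 : ℝ)) fun u hu => ?_]
  · simp
  · rw [uIcc_of_ge hx] at hu
    exact hw u (Or.inl hu.2)

lemma bumpInt_of_ge {w : ℝ → ℝ} (hc : Continuous w) (hw : ∀ s, s ≤ 0 ∨ 1 ≤ s → w s = 0)
    (h1 : (∫ s in (0 : ℝ)..1, w s) = 1) {x : ℝ} (hx : 1 ≤ x) : bumpInt w x = 1 := by
  rw [bumpInt, ← intervalIntegral.integral_add_adjacent_intervals (b := (1 : ℝ))
    (hc.intervalIntegrable _ _) (hc.intervalIntegrable _ _), h1,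
    intervalIntegral.integral_congr (g := fun _ => (0 : ℝ)) fun u hu => ?_]
  · simp
  · rw [uIcc_of_le hx] at hu
    exact hw u (Or.inr hu.1)

/-- The ideal flow of disjoint pulses is a product of exponentials. -/
lemma hasDerivAt_path {N : ℕ} (B : Fin N → Matrix (Fin D) (Fin D) ℝ) (α : Fin N → ℝ)
    {w : ℝ → ℝ} (hc : Continuous w) (hw : ∀ s, s ≤ 0 ∨ 1 ≤ s → w s = 0) (t : ℝ) :
    HasDerivAt (fun s => expProd fun i => (α i * bumpInt w (s - i)) • B i)
      ((∑ i, (α i * w (t - i)) • B i) * expProd fun i => (α i * bumpInt w (t - i)) • B i) t := by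
  refine hasDerivAt_expProd B (fun i s => α i * bumpInt w (s - i)) _ t (fun i => ?_) ?_
  · refine HasDerivAt.const_mul _ ?_
    simpa [bumpInt, Function.comp_def] using ((intervalIntegral.integral_hasDerivAt_right (hc.intervalIntegrable _ _)
      hc.stronglyMeasurable.stronglyMeasurableAtFilter hc.continuousAt).comp t
      ((hasDerivAt_id t).sub_const (i : ℝ)))
  · intro i j hij hi
    have hlt : t - i < 1 := by
      by_contra h
      exact hi (by rw [hw _ (Or.inr (le_of_not_gt h)), mul_zero])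
    have hij' : (i : ℝ) + 1 ≤ j := by exact_mod_cast Nat.succ_le_of_lt (Fin.lt_def.1 hij)
    rw [bumpInt_of_le hw (by linarith), mul_zero]

/-- The ideal flow, entrywise. -/
lemma hasDerivAt_path_entry {N : ℕ} (B : Fin N → Matrix (Fin D) (Fin D) ℝ) (α : Fin N → ℝ)
    {w : ℝ → ℝ} (hc : Continuous w) (hw : ∀ s, s ≤ 0 ∨ 1 ≤ s → w s = 0) (t : ℝ) (a b : Fin D) :
    HasDerivAt (fun s => (expProd fun i => (α i * bumpInt w (s - i)) • B i) a b)
      (((∑ i, (α i * w (t - i)) • B i) *
        expProd fun i => (α i * bumpInt w (t - i)) • B i) a b) t :=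
  (hasFDerivAt_entry a b _).comp_hasDerivAt t (hasDerivAt_path B α hc hw t)

lemma path_zero {N : ℕ} (B : Fin N → Matrix (Fin D) (Fin D) ℝ) (α : Fin N → ℝ) {w : ℝ → ℝ}
    (hw : ∀ s, s ≤ 0 ∨ 1 ≤ s → w s = 0) :
    (expProd fun i => (α i * bumpInt w ((0 : ℝ) - i)) • B i) = 1 := by
  induction N with
  | zero => rfl
  | succ N ih =>
    have h := ih (fun i => B i.castSucc) fun i => α i.castSucc
    simp only [expProd, Fin.val_castSucc] at h ⊢
    rw [h, bumpInt_of_le hw (by simp), mul_zero, zero_smul, exp_zero, mul_one]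

lemma path_end {N : ℕ} (B : Fin N → Matrix (Fin D) (Fin D) ℝ) (α : Fin N → ℝ) {w : ℝ → ℝ}
    (hc : Continuous w) (hw : ∀ s, s ≤ 0 ∨ 1 ≤ s → w s = 0)
    (h1 : (∫ s in (0 : ℝ)..1, w s) = 1) :
    (expProd fun i => (α i * bumpInt w ((N : ℝ) - i)) • B i) = expProd fun i => α i • B i := by
  congr 1
  funext i
  have : (i : ℝ) + 1 ≤ N := by exact_mod_cast i.2
  rw [bumpInt_of_ge hc hw h1 (by linarith), mul_one]

end Vale.Agent.P225.Full.PulseWord
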