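import Mathlib

/-!
# Matrices of determinant one are products of exponentials

Transvections are exponentials of nilpotent matrices, positive diagonal matrices are exponentials,
and a pair of sign changes is a product of six transvections.
-/

namespace Vale.Agent.P225.Full.SLExp

open Matrix NormedSpace

variable {D : ℕ}

/-- Products of exponentials. -/
def IsExpProd (T : Matrix (Fin D) (Fin D) ℝ) : Prop :=
  ∃ Xs : List (Matrix (Fin D) (Fin D) ℝ), (Xs.map exp).prod = T

lemma IsExpProd.mul {A B : Matrix (Fin D) (Fin D) ℝ} (hA : IsExpProd A) (hB : IsExpProd B) :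
    IsExpProd (A * B) := by
  obtain ⟨l, rfl⟩ := hA
  obtain ⟨l', rfl⟩ := hB
  exact ⟨l ++ l', by simp⟩

lemma isExpProd_one : IsExpProd (1 : Matrix (Fin D) (Fin D) ℝ) := ⟨[], rfl⟩

lemma exp_single_offdiag {i j : Fin D} (h : i ≠ j) (c : ℝ) :
    exp (single i j c) = transvection i j c := by
  have hsq : single i j c * single i j c = (0 : Matrix (Fin D) (Fin D) ℝ) :=
    single_mul_single_of_ne _ _ _ _ h.symm _
  have hpow : ∀ k : ℕ, 2 ≤ k → single i j c ^ k = (0 : Matrix (Fin D) (Fin D) ℝ) := by
    intro k hk
    obtain ⟨k, rfl⟩ := Nat.exists_eq_add_of_le hk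
    rw [pow_add, sq, hsq, zero_mul]
  rw [exp_eq_tsum ℝ]
  change (∑' n : ℕ, (n.factorial⁻¹ : ℝ) • single i j c ^ n) = _
  rw [tsum_eq_sum (s := Finset.range 2) fun k hk => ?_]
  · simp [Finset.sum_range_succ, transvection]
  · rw [hpow k (by simp only [Finset.mem_range, not_lt] at hk; exact hk), smul_zero]

lemma isExpProd_transvection {i j : Fin D} (h : i ≠ j) (c : ℝ) :
    IsExpProd (transvection i j c) :=
  ⟨[single i j c], by simp [exp_single_offdiag h]⟩

lemma isExpProd_diagonal_pos {d : Fin D → ℝ} (h : ∀ i, 0 < d i) : IsExpProd (diagonal d) := by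
  refine ⟨[diagonal fun i => Real.log (d i)], ?_⟩
  simp only [List.map_cons, List.map_nil, List.prod_cons, List.prod_nil, mul_one, exp_diagonal]
  congr 1
  funext i
  rw [Pi.exp_def]
  simp [← Real.exp_eq_exp_ℝ, Real.exp_log (h i)]

/-- The diagonal matrix changing the signs in the places `i` and `j`. -/
lemma isExpProd_flip {i j : Fin D} (h : i ≠ j) :
    IsExpProd (diagonal fun k => if k = i ∨ k = j then (-1 : ℝ) else 1) := by
  have e : (diagonal fun k => if k = i ∨ k = j then (-1 : ℝ) else 1) =
      (transvection i j 1 * transvection j i (-1) * transvection i j 1) *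
        (transvection i j 1 * transvection j i (-1) * transvection i j 1) := by
    have hw : transvection i j (1 : ℝ) * transvection j i (-1) * transvection i j 1 =
        1 + single i j 1 - single j i 1 - single i i 1 - single j j 1 := by
      simp only [transvection, add_mul, mul_add, one_mul, mul_one, single_mul_single_same,
        single_mul_single_of_ne _ _ _ _ h, single_mul_single_of_ne _ _ _ _ h.symm, add_zero,
        zero_mul, single_neg, neg_mul, mul_neg]
      ext a b
      simp only [Matrix.add_apply, Matrix.sub_apply, Matrix.neg_apply, single_apply, Matrix.zero_apply]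
      split_ifs <;> ring
    rw [hw]
    simp only [add_mul, mul_add, sub_mul, mul_sub, one_mul, mul_one, single_mul_single_same,
      single_mul_single_of_ne _ _ _ _ h, single_mul_single_of_ne _ _ _ _ h.symm]
    ext a b
    simp only [diagonal_apply, Matrix.add_apply, Matrix.sub_apply, Matrix.one_apply, single_apply,
      Matrix.zero_apply]
    by_cases hab : a = b <;> by_cases hai : a = i <;> by_cases haj : a = j <;>
      by_cases hbi : b = i <;> by_cases hbj : b = j <;>
      simp_all [eq_comm] <;> norm_num
  rw [e]
  exact (((isExpProd_transvection h _).mul (isExpProd_transvection h.symm _)).mul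
    (isExpProd_transvection h _)).mul (((isExpProd_transvection h _).mul
      (isExpProd_transvection h.symm _)).mul (isExpProd_transvection h _))

lemma isExpProd_signs (s : Finset (Fin D)) (hs : Even s.card) :
    IsExpProd (diagonal fun k => if k ∈ s then (-1 : ℝ) else 1) := by
  induction s using Finset.strongInduction with
  | H s ih =>
    rcases s.eq_empty_or_nonempty with rfl | ⟨i, hi⟩
    · simpa using isExpProd_one
    have h2 : 1 < s.card := by
      rcases hs with ⟨k, hk⟩
      have := Finset.card_pos.2 ⟨i, hi⟩
      omega
    obtain ⟨j, hj, hji⟩ := Finset.exists_mem_ne h2 i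
    set t := (s.erase i).erase j
    have htc : t.card = s.card - 2 := by
      simp [t, Finset.card_erase_of_mem, hi, hj, hji, Nat.sub_sub]
    have hts : t ⊂ s := by
      refine (Finset.ssubset_iff_of_subset fun x hx => ?_).2 ⟨i, hi, by simp [t]⟩
      simp [t] at hx
      exact hx.2.2
    have hte : Even t.card := by
      rcases hs with ⟨k, hk⟩
      exact ⟨k - 1, by omega⟩
    convert (isExpProd_flip hji.symm).mul (ih t hts hte) using 1
    rw [diagonal_mul_diagonal]
    congr 1
    funext k
    by_cases hki : k = i
    · simp [hki, hi, t]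
    by_cases hkj : k = j
    · simp [hkj, hj, t]
    simp [hki, hkj, t]

/-- A real matrix of determinant one is a product of exponentials. -/
theorem isExpProd_of_det_one {T : Matrix (Fin D) (Fin D) ℝ} (hT : T.det = 1) : IsExpProd T := by
  obtain ⟨L, L', d, rfl⟩ := Pivot.exists_list_transvec_mul_diagonal_mul_list_transvec T
  have hl : ∀ l : List (TransvectionStruct (Fin D) ℝ),
      IsExpProd (l.map TransvectionStruct.toMatrix).prod := by
    intro l
    induction l with
    | nil => exact isExpProd_one
    | cons t l ih =>
      rw [List.map_cons, List.prod_cons]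
      exact (isExpProd_transvection t.hij t.c).mul ih
  have hdet : ∏ i, d i = 1 := by simpa [det_diagonal] using hT
  have hd0 : ∀ i, d i ≠ 0 := fun i hi => by
    rw [Finset.prod_eq_zero (Finset.mem_univ i) hi] at hdet
    exact zero_ne_one hdet
  set s := Finset.univ.filter fun i => d i < 0
  have hs : Even s.card := by
    have h : ∏ i, d i = (-1) ^ s.card * ∏ i, |d i| := by
      rw [← Finset.prod_const, ← Finset.prod_filter_mul_prod_filter_not Finset.univ fun i => d i < 0,
        ← Finset.prod_filter_mul_prod_filter_not Finset.univ (fun i => d i < 0) fun i => |d i|,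
        ← mul_assoc, ← Finset.prod_mul_distrib]
      refine congrArg₂ _ (Finset.prod_congr rfl fun i hi => ?_) (Finset.prod_congr rfl fun i hi => ?_)
      · simp [abs_of_neg (Finset.mem_filter.1 hi).2]
      · simp [abs_of_nonneg (not_lt.1 (Finset.mem_filter.1 hi).2)]
    rcases Nat.even_or_odd s.card with h' | h'
    · exact h'
    · rw [h'.neg_one_pow, hdet] at h
      have : 0 ≤ ∏ i, |d i| := Finset.prod_nonneg fun i _ => abs_nonneg _
      linarith
  refine ((hl L).mul ?_).mul (hl L')
  convert (isExpProd_signs s hs).mul (isExpProd_diagonal_pos fun i => abs_pos.2 (hd0 i)) using 1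
  rw [diagonal_mul_diagonal]
  congr 1
  funext i
  by_cases hi : d i < 0
  · simp [s, hi, abs_of_neg hi]
  · simp [s, hi, abs_of_nonneg (not_lt.1 hi)]

end Vale.Agent.P225.Full.SLExp
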