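import Vale.Agent.P225.Full.Spec
import Vale.Agent.P225.Full.SLExp
import Vale.Agent.P225.Full.PulseWord
import Vale.Agent.P225.SwitchChart

/-!
# Simultaneous local sections

From generation of the product of the shell algebras, the chart of `SwitchChart` gives continuous
pulse amplitudes near any target of determinant one.
-/

namespace Vale.Agent.P225.Full

open Matrix NormedSpace Spec Switch

/-- The weighted pulse generators generate everything on the shells `2 .. L`, together with the
scalars of the shells. -/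
def Generation : Prop := ∀ (m L : ℕ), 4 ≤ m → ∀ (kappa : ℕ → ℝ), (∀ l, 0 < kappa l) →
  StrictAntiOn kappa (Set.Icc 2 L) →
  ∀ (B : ∀ l : ℕ, Matrix (Fin (2 * m + 2)) (Fin (2 * m + 2)) ℝ →
    Harm (2 * m + 2) l →ₗ[ℝ] Harm (2 * m + 2) l), (∀ l, IsGen (B l)) →
  ∀ S : Submodule ℝ (∀ i : Fin (L - 1),
      Harm (2 * m + 2) ((i : ℕ) + 2) →ₗ[ℝ] Harm (2 * m + 2) ((i : ℕ) + 2)),
    (∀ c : Fin (L - 1) → ℝ, (fun i => c i • (LinearMap.id :
      Harm (2 * m + 2) ((i : ℕ) + 2) →ₗ[ℝ] Harm (2 * m + 2) ((i : ℕ) + 2))) ∈ S) →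
    (∀ J, IsCS J → (fun i : Fin (L - 1) => kappa (i + 2) • B (i + 2) J) ∈ S) →
    (∀ J, IsCS J → ∀ X ∈ S, (fun i : Fin (L - 1) =>
      (kappa (i + 2) • B (i + 2) J).comp (X i) -
        (X i).comp (kappa (i + 2) • B (i + 2) J)) ∈ S) →
    S = ⊤

namespace ReachProof

/-- The product over the last factor on the left, as a list product. -/
lemma expProd_eq {D : ℕ} : ∀ {N : ℕ} (A : Fin N → Matrix (Fin D) (Fin D) ℝ),
    expProd A = ((List.ofFn fun k => A k.rev).map exp).prod
  | 0, A => by simp [expProd]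
  | N + 1, A => by
    rw [expProd, expProd_eq fun i => A i.castSucc, List.ofFn_succ]
    simp [Fin.rev_succ]

open scoped Matrix.Norms.Operator

section
variable {ι : Type*} [Fintype ι] [DecidableEq ι] {D : ι → ℕ}

lemma exp_apply' (x : ∀ i, Matrix (Fin (D i)) (Fin (D i)) ℝ) (i : ι) : exp x i = exp (x i) := by
  let _ : ∀ i, NormedAlgebra ℚ (Matrix (Fin (D i)) (Fin (D i)) ℝ) := fun i =>
    NormedAlgebra.restrictScalars ℚ ℝ (Matrix (Fin (D i)) (Fin (D i)) ℝ)
  exact Pi.coe_exp x i

omit [Fintype ι] [DecidableEq ι] in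
lemma prod_apply' (l : List (∀ i, Matrix (Fin (D i)) (Fin (D i)) ℝ)) (i : ι) :
    l.prod i = (l.map fun f => f i).prod := by
  induction l with
  | nil => rfl
  | cons f l ih => rw [List.prod_cons, List.map_cons, List.prod_cons, Pi.mul_apply, ih]

/-- A family of determinant one is a product of exponentials in the product algebra. -/
lemma exists_pi_expProd (T : ∀ i, Matrix (Fin (D i)) (Fin (D i)) ℝ) (hT : ∀ i, (T i).det = 1) :
    ∃ Xs : List (∀ i, Matrix (Fin (D i)) (Fin (D i)) ℝ), (Xs.map exp).prod = T := by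
  choose l hl using fun i => SLExp.isExpProd_of_det_one (hT i)
  have hsingle : ∀ s : Finset ι, ∃ Xs : List (∀ i, Matrix (Fin (D i)) (Fin (D i)) ℝ),
      (Xs.map exp).prod = fun i => if i ∈ s then T i else 1 := by
    intro s
    induction s using Finset.induction with
    | empty =>
      refine ⟨[], ?_⟩
      funext i
      simp
    | insert a s ha ih =>
      obtain ⟨Xs, hXs⟩ := ih
      refine ⟨((l a).map fun X => Pi.single a X) ++ Xs, ?_⟩
      rw [List.map_append, List.prod_append, hXs]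
      funext i
      rw [Pi.mul_apply, Pi.list_prod_apply]
      simp only [List.map_map, Function.comp_def, exp_apply']
      by_cases hia : i = a
      · subst hia
        simp [ha, ← hl i, Function.comp_def]
      · simp [hia]
  obtain ⟨Xs, hXs⟩ := hsingle Finset.univ
  exact ⟨Xs, by simpa using hXs⟩

end

end ReachProof

open scoped Matrix.Norms.Operator in
open ReachProof in
/-- Simultaneous local sections follow from generation. -/
theorem reach_of (hG : Generation) : Reach := by
  intro m L hm kappa hkap hanti E B hB T hT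
  let A := ∀ i : Fin (L - 1), Matrix (Fin (E (i + 2)).D) (Fin (E (i + 2)).D) ℝ
  let ι := {J : Matrix (Fin (2 * m + 2)) (Fin (2 * m + 2)) ℝ // IsCS J}
  let K : ι → A := fun J i => kappa (i + 2) • genMat (E (i + 2)) (B (i + 2)) J.1
  let sc : (Fin (L - 1) → ℝ) →ₗ[ℝ] A :=
    { toFun := fun c i => c i • 1
      map_add' := fun c d => by funext i; exact add_smul _ _ _
      map_smul' := fun r c => by funext i; exact smul_assoc r (c i) _ }
  have hZ : ∀ z ∈ LinearMap.range sc, ∀ x : A, Commute z x := by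
    rintro z ⟨c, rfl⟩ x
    funext i
    change (c i • (1 : Matrix _ _ ℝ)) * x i = x i * (c i • 1)
    rw [smul_mul_assoc, mul_smul_comm, one_mul, mul_one]
  -- transport generation to matrices
  have hgen : ∀ S : Submodule ℝ A, LinearMap.range sc ≤ S → (∀ J, K J ∈ S) →
      (∀ J, ∀ X ∈ S, K J * X - X * K J ∈ S) → S = ⊤ := by
    intro S hsc hK hbr
    let tm : (∀ i : Fin (L - 1), Harm (2 * m + 2) ((i : ℕ) + 2) →ₗ[ℝ]
        Harm (2 * m + 2) ((i : ℕ) + 2)) →ₗ[ℝ] A :=
      { toFun := fun y i => LinearMap.toMatrix (E (i + 2)).basis (E (i + 2)).basis (y i)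
        map_add' := fun y z => by funext i; exact map_add _ _ _
        map_smul' := fun c y => by funext i; exact LinearEquiv.map_smul _ c (y i) }
    have h := hG m L hm kappa hkap hanti B hB (S.comap tm) (fun c => ?_) (fun J hJ => ?_)
      (fun J hJ X hX => ?_)
    · rw [eq_top_iff]
      intro x _
      let y : ∀ i : Fin (L - 1), Harm (2 * m + 2) ((i : ℕ) + 2) →ₗ[ℝ]
          Harm (2 * m + 2) ((i : ℕ) + 2) :=
        fun i => (LinearMap.toMatrix (E (i + 2)).basis (E (i + 2)).basis).symm (x i)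
      have hy : tm y = x := by funext i; simp [tm, y]
      exact hy ▸ (show y ∈ S.comap tm from h ▸ Submodule.mem_top)
    · refine hsc ⟨c, ?_⟩
      funext i
      simp [tm, sc]
    · refine (congrArg (· ∈ S) ?_).mpr (hK ⟨J, hJ⟩)
      funext i
      simp [tm, K, genMat]
    · refine (congrArg (· ∈ S) ?_).mpr (hbr ⟨J, hJ⟩ _ hX)
      funext i
      change LinearMap.toMatrix (E (i + 2)).basis (E (i + 2)).basis
          ((kappa (i + 2) • B (i + 2) J).comp (X i) - (X i).comp (kappa (i + 2) • B (i + 2) J)) =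
        (kappa (i + 2) • genMat (E (i + 2)) (B (i + 2)) J) *
            LinearMap.toMatrix (E (i + 2)).basis (E (i + 2)).basis (X i) -
          LinearMap.toMatrix (E (i + 2)).basis (E (i + 2)).basis (X i) *
            (kappa (i + 2) • genMat (E (i + 2)) (B (i + 2)) J)
      rw [map_sub (LinearMap.toMatrix (E (i + 2)).basis (E (i + 2)).basis),
        LinearMap.toMatrix_comp _ (E (i + 2)).basis,
        LinearMap.toMatrix_comp _ (E (i + 2)).basis, LinearEquiv.map_smul, genMat]
  have hidx : ∀ i : Fin (L - 1), (i : ℕ) + 2 < L + 1 := fun i => by omega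
  let T₀ : A := fun i => T ⟨i + 2, hidx i⟩
  obtain ⟨Xs, hXs⟩ := exists_pi_expProd T₀ fun i => hT _
  obtain ⟨M, idx, s, a, r, hr, hs, ha, hQ⟩ := exists_section K (LinearMap.range sc) hZ hgen Xs
  replace ha : ContinuousOn a (Metric.closedBall T₀ r) := by
    convert! ha using 2
    exact hXs.symm
  replace hQ : ∀ Q ∈ Metric.closedBall T₀ r, s Q ∈ LinearMap.range sc ∧
      exp (s Q) * wordMap K idx (a Q) = Q := by
    convert! hQ using 3
    exact congrArg (fun P => Metric.closedBall P r) hXs.symm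
  let φ : (∀ l : Fin (L + 1), Matrix (Fin (E l).D) (Fin (E l).D) ℝ) → A :=
    fun X i => X ⟨i + 2, hidx i⟩
  have hφ : Continuous φ := continuous_pi fun i => continuous_apply _
  -- the box lies in the ball
  set nD : ℝ := ∑ i : Fin (L - 1), ((E (i + 2)).D : ℝ)
  have hbox : ∀ X, (∀ l a b, |X l a b - T l a b| ≤ r / (nD + 1)) →
      φ X ∈ Metric.closedBall T₀ r := by
    intro X hX
    rw [Metric.mem_closedBall, dist_eq_norm, pi_norm_le_iff_of_nonneg hr.le]
    intro i
    have h1 : ‖φ X i - T₀ i‖ ≤ ((E (i + 2)).D : ℝ) * (r / (nD + 1)) :=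
      PulseWord.norm_le_of_entry (by positivity) fun a b => hX ⟨i + 2, hidx i⟩ a b
    refine h1.trans ?_
    have h2 : ((E (i + 2)).D : ℝ) ≤ nD :=
      Finset.single_le_sum (f := fun i : Fin (L - 1) => ((E (i + 2)).D : ℝ))
        (fun _ _ => Nat.cast_nonneg _) (Finset.mem_univ i)
    rw [mul_div_assoc', div_le_iff₀ (by positivity)]
    nlinarith
  refine ⟨M, fun k => (idx k.rev).1, r / (nD + 1), fun X k => a (φ X) k.rev,
    fun k => (idx k.rev).2, by positivity, fun k => ?_, fun X hX l hl => ?_⟩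
  · exact (continuous_apply k.rev).comp_continuousOn (ha.comp hφ.continuousOn hbox)
  obtain ⟨⟨c, hc⟩, hw⟩ := hQ (φ X) (hbox X hX)
  obtain ⟨i, rfl⟩ : ∃ i : Fin (L - 1), (⟨i + 2, hidx i⟩ : Fin (L + 1)) = l :=
    ⟨⟨l - 2, by omega⟩, Fin.ext (by simp; omega)⟩
  refine ⟨Real.exp (-c i), Real.exp_pos _, ?_⟩
  rw [← hc] at hw
  have hw' := congrFun hw i
  rw [Pi.mul_apply, exp_apply'] at hw'
  have hsc : exp (sc c i) = Real.exp (c i) •
      (1 : Matrix (Fin (E (i + 2)).D) (Fin (E (i + 2)).D) ℝ) := by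
    change exp (c i • (1 : Matrix _ _ ℝ)) = _
    rw [Matrix.smul_one_eq_diagonal, Matrix.smul_one_eq_diagonal, Matrix.exp_diagonal]
    congr 1
    funext a
    rw [Pi.exp_def, ← Real.exp_eq_exp_ℝ]
  rw [hsc, smul_mul_assoc, one_mul] at hw'
  have hword : expProd (fun k => (kappa (i + 2) * a (φ X) k.rev) •
      genMat (E (i + 2)) (B (i + 2)) (idx k.rev).1) = wordMap K idx (a (φ X)) i := by
    rw [expProd_eq]
    simp only [wordMap, word, List.map_ofFn, Function.comp_def, Fin.rev_rev]
    refine Eq.trans ?_ (prod_apply' (D := fun i : Fin (L - 1) => (E (i + 2)).D) _ i).symm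
    rw [List.map_ofFn]
    congr 1
    refine congrArg List.ofFn (funext fun k => ?_)
    simp only [Function.comp_def]
    refine Eq.trans ?_ (exp_apply' (D := fun i : Fin (L - 1) => (E (i + 2)).D) _ i).symm
    refine congrArg exp ?_
    change _ = a (φ X) k • (kappa (i + 2) • genMat (E (i + 2)) (B (i + 2)) (idx k).1)
    rw [smul_smul, mul_comm (kappa _)]
  change expProd _ = Real.exp (-c i) • φ X i
  rw [← hw', smul_smul, ← Real.exp_add, neg_add_cancel, Real.exp_zero, one_smul]
  exact hword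

end Vale.Agent.P225.Full
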