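import Vale.Agent.P225.Full.Spec

/-! # Multiplicities of charges and their Riemann sums -/

namespace Vale.Agent.P225.Full.CountProof

open Finset intervalIntegral MeasureTheory Vale.Agent.P225.Full.Spec

/-- The limiting density of charges. -/
def dens (y : ℝ) : ℝ := (y * (1 - y)) ^ 15

/-- The normalising constant of the density. -/
def normC : ℝ := 16 * ((Nat.factorial 15 : ℕ) : ℝ) ^ 2

theorem normC_pos : 0 < normC := by unfold normC; positivity

theorem pow_sub_pow_le_mul {a b : ℝ} (hb : 0 ≤ b) (hab : b ≤ a) (ha : a ≤ 1) :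
    ∀ n : ℕ, a ^ n - b ^ n ≤ n * (a - b)
  | 0 => by simp
  | n + 1 => by
    have h := pow_sub_pow_le_mul hb hab ha n
    have h1 : b ^ n ≤ 1 := pow_le_one₀ hb (hab.trans ha)
    have h2 : 0 ≤ a ^ n - b ^ n := sub_nonneg.2 (pow_le_pow_left₀ hb hab n)
    rw [pow_succ, pow_succ]
    push_cast
    nlinarith [mul_le_mul_of_nonneg_left ha h2, mul_le_mul_of_nonneg_left h1 (sub_nonneg.2 hab)]

theorem abs_pow_sub_pow_le_mul {a b : ℝ} (ha0 : 0 ≤ a) (ha : a ≤ 1) (hb0 : 0 ≤ b) (hb : b ≤ 1)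
    (n : ℕ) : |a ^ n - b ^ n| ≤ n * |a - b| := by
  rcases le_total b a with h | h
  · rw [abs_of_nonneg (sub_nonneg.2 (pow_le_pow_left₀ hb0 h n)), abs_of_nonneg (sub_nonneg.2 h)]
    exact pow_sub_pow_le_mul hb0 h ha n
  · rw [abs_sub_comm, abs_sub_comm a, abs_of_nonneg (sub_nonneg.2 (pow_le_pow_left₀ ha0 h n)),
      abs_of_nonneg (sub_nonneg.2 h)]
    exact pow_sub_pow_le_mul ha0 h hb n

theorem choose_mul_shift (P : ℕ) :
    (Nat.factorial 16 * (16 + P).choose 16 = (P + 1).ascFactorial 15 * (P + 16)) ∧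
    (P ≠ 0 → Nat.factorial 16 * (16 + P - 1).choose 16 = (P + 1).ascFactorial 15 * P) := by
  constructor
  · rw [Nat.add_comm 16 P, ← Nat.ascFactorial_eq_factorial_mul_choose, Nat.ascFactorial_succ]
    ring
  · intro hP
    obtain ⟨j, rfl⟩ := Nat.exists_eq_succ_of_ne_zero hP
    rw [show 16 + (j + 1) - 1 = j + 16 by omega, ← Nat.ascFactorial_eq_factorial_mul_choose]
    rw [Nat.ascFactorial_succ, ← Nat.succ_ascFactorial]
    simp only [Nat.succ_eq_add_one]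
    ring

theorem mult_formula {l P : ℕ} (hP : P ≤ l) :
    normC * (mult 16 l P : ℝ) =
      ((P + 1).ascFactorial 15 : ℝ) * ((l - P + 1).ascFactorial 15 : ℝ) * ((l : ℝ) + 16) := by
  obtain ⟨hP1, hP2⟩ := choose_mul_shift P
  obtain ⟨hQ1, hQ2⟩ := choose_mul_shift (l - P)
  have hf : (Nat.factorial 16 : ℕ) = 16 * Nat.factorial 15 := rfl
  rw [hf] at hP1 hP2 hQ1 hQ2
  have hl : (l : ℝ) = (P : ℝ) + ((l - P : ℕ) : ℝ) := by rw [Nat.cast_sub hP]; ring
  unfold normC mult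
  rw [hl]
  generalize Nat.factorial 15 = F at hP1 hP2 hQ1 hQ2 ⊢
  split_ifs with h
  · have hPQ : (P : ℝ) * ((l - P : ℕ) : ℝ) = 0 := by
      rcases h with h | h
      · simp [h]
      · simp [show l - P = 0 by omega]
    have e1 : ((16 * F * (16 + P).choose 16 : ℕ) : ℝ) = _ := congrArg Nat.cast hP1
    have e2 : ((16 * F * (16 + (l - P)).choose 16 : ℕ) : ℝ) = _ := congrArg Nat.cast hQ1
    push_cast at e1 e2 ⊢
    linear_combination (1 / 16 : ℝ) * (16 * (F : ℝ) * ((16 + (l - P)).choose 16 : ℝ)) * e1 +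
      (1 / 16 : ℝ) * (((P + 1).ascFactorial 15 : ℝ) * ((P : ℝ) + 16)) * e2 +
      (1 / 16 : ℝ) * (((P + 1).ascFactorial 15 : ℝ) * ((l - P + 1).ascFactorial 15 : ℝ)) * hPQ
  · push Not at h
    have e1 : ((16 * F * (16 + P).choose 16 : ℕ) : ℝ) = _ := congrArg Nat.cast hP1
    have e2 : ((16 * F * (16 + (l - P)).choose 16 : ℕ) : ℝ) = _ := congrArg Nat.cast hQ1
    have e3 : ((16 * F * (16 + P - 1).choose 16 : ℕ) : ℝ) = _ := congrArg Nat.cast (hP2 h.1)
    have e4 : ((16 * F * (16 + (l - P) - 1).choose 16 : ℕ) : ℝ) = _ :=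
      congrArg Nat.cast (hQ2 (by omega))
    push_cast at e1 e2 e3 e4 ⊢
    linear_combination (1 / 16 : ℝ) * (16 * (F : ℝ) * ((16 + (l - P)).choose 16 : ℝ)) * e1 +
      (1 / 16 : ℝ) * (((P + 1).ascFactorial 15 : ℝ) * ((P : ℝ) + 16)) * e2 -
      (1 / 16 : ℝ) * (16 * (F : ℝ) * ((16 + (l - P) - 1).choose 16 : ℝ)) * e3 -
      (1 / 16 : ℝ) * (((P + 1).ascFactorial 15 : ℝ) * (P : ℝ)) * e4

theorem mult_nonneg {l P : ℕ} (hP : P ≤ l) : (0 : ℝ) ≤ (mult 16 l P : ℝ) := by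
  have h := mult_formula hP
  have h2 : (0 : ℝ) ≤ normC * (mult 16 l P : ℝ) := by rw [h]; positivity
  exact nonneg_of_mul_nonneg_right h2 normC_pos

theorem mult_pos {l P : ℕ} (hP : P ≤ l) : 0 < mult 16 l P := by
  have h := mult_formula hP
  have h2 : (0 : ℝ) < normC * (mult 16 l P : ℝ) := by
    rw [h]
    exact mul_pos (mul_pos (Nat.cast_pos.2 (Nat.ascFactorial_pos _ _))
      (Nat.cast_pos.2 (Nat.ascFactorial_pos _ _))) (by positivity)
  exact_mod_cast pos_of_mul_pos_right h2 normC_pos.le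

theorem mult_symm {l P : ℕ} (hP : P ≤ l) : (mult 16 l (l - P) : ℝ) = (mult 16 l P : ℝ) := by
  refine mul_left_cancel₀ normC_pos.ne' ?_
  rw [mult_formula hP, mult_formula (Nat.sub_le l P), Nat.sub_sub_self hP]
  ring

theorem prod_near (n : ℕ) {A B p q l : ℝ} (hl : 64 ≤ l) (hp : 0 ≤ p) (hq : 0 ≤ q)
    (hpq : p + q = l) (hA : p ^ n ≤ A) (hA' : A ≤ (p + 16) ^ n) (hB : q ^ n ≤ B)
    (hB' : B ≤ (q + 16) ^ n) :
    |A * B * (l + 16) - l ^ (2 * n + 1) * (p / l * (1 - p / l)) ^ n|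
      ≤ (2 * n + 1) * 16 * l ^ (2 * n) := by
  have hl0 : 0 < l := by linarith
  obtain ⟨y, rfl⟩ : ∃ y, p = l * y := ⟨p / l, by field_simp⟩
  obtain ⟨e, he⟩ : ∃ e, (16 : ℝ) = l * e := ⟨16 / l, by field_simp⟩
  have hq' : q = l * (1 - y) := by linarith
  subst hq'
  rw [he] at hA' hB'
  rw [mul_div_cancel_left₀ y hl0.ne']
  have hy0 : 0 ≤ y := nonneg_of_mul_nonneg_right hp hl0
  have hy1 : 0 ≤ 1 - y := nonneg_of_mul_nonneg_right hq hl0
  have he0 : 0 ≤ e := nonneg_of_mul_nonneg_right (he ▸ (by norm_num : (0 : ℝ) ≤ 16)) hl0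
  have he1 : e ≤ 1 / 4 := by nlinarith
  have h4 : y * (1 - y) ≤ 1 / 4 := by nlinarith [sq_nonneg (1 - 2 * y)]
  have hv0 : 0 ≤ y * (1 - y) := mul_nonneg hy0 hy1
  have hb : (y + e) * (1 - y + e) ≤ y * (1 - y) + 2 * e := by nlinarith
  have hb0 : 0 ≤ (y + e) * (1 - y + e) := mul_nonneg (by linarith) (by linarith)
  have hd := pow_sub_pow_le_mul hv0 (by linarith : y * (1 - y) ≤ y * (1 - y) + 2 * e)
    (by linarith) n
  have hp1 : (y * (1 - y) + 2 * e) ^ n ≤ 1 := pow_le_one₀ (by linarith) (by linarith)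
  have hA0 : 0 ≤ A := (pow_nonneg hp n).trans hA
  have hB0 : 0 ≤ B := (pow_nonneg hq n).trans hB
  have hlow : l ^ (2 * n + 1) * (y * (1 - y)) ^ n ≤ A * B * (l + 16) := by
    calc l ^ (2 * n + 1) * (y * (1 - y)) ^ n = (l * y) ^ n * (l * (1 - y)) ^ n * l := by
          rw [mul_pow, mul_pow, mul_pow, two_mul, pow_succ, pow_add]; ring
      _ ≤ _ := mul_le_mul (mul_le_mul hA hB (pow_nonneg hq n) hA0) (by linarith) hl0.le
          (mul_nonneg hA0 hB0)
  have hup : A * B * (l + 16) ≤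
      l ^ (2 * n + 1) * (((y + e) * (1 - y + e)) ^ n * (1 + e)) := by
    calc _ ≤ (l * y + l * e) ^ n * (l * (1 - y) + l * e) ^ n * (l + 16) :=
          mul_le_mul_of_nonneg_right
            (mul_le_mul hA' hB' hB0 (pow_nonneg (by nlinarith) n)) (by linarith)
      _ = _ := by
          rw [he, ← mul_add, ← mul_add, mul_pow, mul_pow, mul_pow, two_mul, pow_succ, pow_add]
          ring
  have hdiff : ((y + e) * (1 - y + e)) ^ n * (1 + e) - (y * (1 - y)) ^ n ≤ (2 * n + 1) * e := by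
    have h1 := mul_le_mul_of_nonneg_right (pow_le_pow_left₀ hb0 hb n)
      (by linarith : (0 : ℝ) ≤ 1 + e)
    have h2 := mul_le_mul_of_nonneg_right hp1 he0
    linarith
  rw [abs_le]
  refine ⟨by linarith [show (0 : ℝ) ≤ (2 * n + 1) * 16 * l ^ (2 * n) by positivity], ?_⟩
  have h3 := mul_le_mul_of_nonneg_left hdiff (pow_nonneg hl0.le (2 * n + 1))
  have h5 : l ^ (2 * n + 1) * ((2 * n + 1) * e) = (2 * n + 1) * 16 * l ^ (2 * n) := by
    rw [he, pow_succ]; ring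
  linarith

theorem mult_near {l P : ℕ} (hP : P ≤ l) (hl : 64 ≤ l) :
    |normC * (mult 16 l P : ℝ) - (l : ℝ) ^ 31 * dens ((P : ℝ) / l)| ≤ 496 * (l : ℝ) ^ 30 := by
  rw [mult_formula hP]
  have lo : ∀ j : ℕ, (j : ℝ) ^ 15 ≤ ((j + 1).ascFactorial 15 : ℝ) := fun j => by
    exact_mod_cast (Nat.pow_le_pow_left j.le_succ 15).trans (Nat.pow_succ_le_ascFactorial (j + 1) 15)
  have hi : ∀ j : ℕ, ((j + 1).ascFactorial 15 : ℝ) ≤ ((j : ℝ) + 16) ^ 15 := fun j => by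
    exact_mod_cast (Nat.ascFactorial_le_pow_add j 15).trans
      (Nat.pow_le_pow_left (Nat.le_succ (j + 15)) 15)
  have h := prod_near 15 (l := (l : ℝ)) (p := (P : ℝ)) (q := ((l - P : ℕ) : ℝ))
    (by exact_mod_cast hl) (Nat.cast_nonneg P) (Nat.cast_nonneg _)
    (by rw [Nat.cast_sub hP]; ring) (lo P) (hi P) (lo (l - P)) (hi (l - P))
  unfold dens
  convert h using 1
  norm_num

theorem riemann_sum {g : ℝ → ℝ} {L : ℝ} (hL0 : 0 ≤ L) (hc : Continuous g)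
    (hL : ∀ x ∈ Set.Icc (0 : ℝ) 1, ∀ y ∈ Set.Icc (0 : ℝ) 1, |g x - g y| ≤ L * |x - y|)
    (hg : ∀ x ∈ Set.Icc (0 : ℝ) 1, |g x| ≤ 1) {l P : ℕ} {a : ℝ} (hl : 0 < l)
    (hPa : (P : ℝ) ≤ a * l) (haP : a * l ≤ (P : ℝ) + 1) (ha : a ≤ 1) :
    |(∑ p ∈ range P, g ((p : ℝ) / l)) - (l : ℝ) * ∫ y in (0 : ℝ)..a, g y| ≤ L + 1 := by
  have hl' : (0 : ℝ) < l := by exact_mod_cast hl
  have hint : ∀ u v : ℝ, IntervalIntegrable g volume u v := fun u v => hc.intervalIntegrable u v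
  have hPl : (P : ℝ) / l ≤ a := by rw [div_le_iff₀ hl']; exact hPa
  have hP1 : (P : ℝ) ≤ l := by nlinarith
  have hpiece : ∀ p < P,
      |g ((p : ℝ) / l) - (l : ℝ) * ∫ y in ((p : ℝ) / l)..(((p + 1 : ℕ) : ℝ) / l), g y| ≤ L / l := by
    intro p hp
    have h1 : (p : ℝ) / l ≤ ((p + 1 : ℕ) : ℝ) / l := by gcongr; omega
    have h2 : ((p + 1 : ℕ) : ℝ) / l ≤ 1 := by
      rw [div_le_one hl']
      exact le_trans (by exact_mod_cast (by omega : p + 1 ≤ P)) hP1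
    have hlen : ((p + 1 : ℕ) : ℝ) / l - (p : ℝ) / l = 1 / l := by push_cast; ring
    have h3 : ‖∫ y in ((p : ℝ) / l)..(((p + 1 : ℕ) : ℝ) / l), (g ((p : ℝ) / l) - g y)‖
        ≤ L / l * |((p + 1 : ℕ) : ℝ) / l - (p : ℝ) / l| := by
      refine intervalIntegral.norm_integral_le_of_norm_le_const fun y hy => ?_
      rw [Set.uIoc_of_le h1] at hy
      rw [Real.norm_eq_abs]
      have hp0 : (0 : ℝ) ≤ (p : ℝ) / l := by positivity
      refine (hL _ ⟨hp0, h1.trans h2⟩ _ ⟨by linarith [hy.1], hy.2.trans h2⟩).trans ?_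
      rw [div_eq_mul_inv L, ← one_div, ← hlen]
      refine mul_le_mul_of_nonneg_left ?_ hL0
      rw [abs_le]; constructor <;> linarith [hy.1, hy.2]
    rw [intervalIntegral.integral_sub (intervalIntegrable_const) (hint _ _),
      intervalIntegral.integral_const, hlen, smul_eq_mul, Real.norm_eq_abs,
      abs_of_nonneg (show (0 : ℝ) ≤ 1 / l by positivity)] at h3
    have h4 := mul_le_mul_of_nonneg_left h3 hl'.le
    rw [← abs_of_nonneg hl'.le, ← abs_mul, abs_of_nonneg hl'.le] at h4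
    calc _ = |(l : ℝ) * (1 / l * g ((p : ℝ) / l) -
          ∫ y in ((p : ℝ) / l)..(((p + 1 : ℕ) : ℝ) / l), g y)| := by
            congr 1; field_simp
      _ ≤ _ := h4
      _ = L / l := by field_simp
  have hsum : (∑ p ∈ range P, ∫ y in ((p : ℝ) / l)..(((p + 1 : ℕ) : ℝ) / l), g y)
      = ∫ y in (0 : ℝ)..((P : ℝ) / l), g y := by
    have h := intervalIntegral.sum_integral_adjacent_intervals
      (a := fun p : ℕ => (p : ℝ) / l) (n := P) (fun k _ => hint _ _)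
    simpa using h
  have htail : |(l : ℝ) * ∫ y in ((P : ℝ) / l)..a, g y| ≤ 1 := by
    have h := intervalIntegral.norm_integral_le_of_norm_le_const (a := (P : ℝ) / l) (b := a)
      (C := 1) (f := g) fun y hy => by
        rw [Set.uIoc_of_le hPl] at hy
        have h0 : (0 : ℝ) ≤ (P : ℝ) / l := by positivity
        exact hg y ⟨by linarith [hy.1], hy.2.trans ha⟩
    rw [Real.norm_eq_abs, one_mul, abs_of_nonneg (sub_nonneg.2 hPl)] at h
    rw [abs_mul, abs_of_pos hl']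
    calc (l : ℝ) * |∫ y in ((P : ℝ) / l)..a, g y| ≤ l * (a - P / l) :=
          mul_le_mul_of_nonneg_left h hl'.le
      _ = a * l - P := by field_simp
      _ ≤ 1 := by linarith
  rw [← integral_add_adjacent_intervals (hint 0 ((P : ℝ) / l)) (hint _ a), ← hsum, mul_add,
    mul_sum, ← sub_sub, ← sum_sub_distrib]
  refine (abs_sub _ _).trans (add_le_add ?_ htail)
  refine (abs_sum_le_sum_abs _ _).trans ((sum_le_sum fun p hp => hpiece p (mem_range.1 hp)).trans ?_)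
  rw [sum_const, card_range, nsmul_eq_mul]
  calc (P : ℝ) * (L / l) ≤ l * (L / l) := mul_le_mul_of_nonneg_right hP1 (by positivity)
    _ = L := by field_simp

theorem weighted_sum_near {u : ℝ → ℝ} {L : ℝ} (hL0 : 0 ≤ L)
    (hc : Continuous fun y => u y * dens y)
    (hu : ∀ x ∈ Set.Icc (0 : ℝ) 1, |u x| ≤ 1)
    (hL : ∀ x ∈ Set.Icc (0 : ℝ) 1, ∀ y ∈ Set.Icc (0 : ℝ) 1,
      |u x * dens x - u y * dens y| ≤ L * |x - y|)
    {l P : ℕ} {a : ℝ} (hl : 64 ≤ l)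
    (hPa : (P : ℝ) ≤ a * l) (haP : a * l ≤ (P : ℝ) + 1) (ha : a ≤ 1) :
    |normC * (∑ p ∈ range P, (mult 16 l p : ℝ) * u ((p : ℝ) / l))
      - (l : ℝ) ^ 32 * ∫ y in (0 : ℝ)..a, u y * dens y| ≤ (497 + L) * (l : ℝ) ^ 31 := by
  have hl' : (0 : ℝ) < l := by exact_mod_cast (by omega : 0 < l)
  have hP1 : (P : ℝ) ≤ l := by nlinarith
  have hmem : ∀ p < P, (p : ℝ) / l ∈ Set.Icc (0 : ℝ) 1 := fun p hp =>
    ⟨by positivity, by rw [div_le_one hl']; exact le_trans (by exact_mod_cast hp.le) hP1⟩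
  have hg : ∀ x ∈ Set.Icc (0 : ℝ) 1, |u x * dens x| ≤ 1 := by
    intro x hx
    have h1 : 0 ≤ x * (1 - x) := mul_nonneg hx.1 (by linarith [hx.2])
    have h2 : x * (1 - x) ≤ 1 := by nlinarith [hx.1, hx.2]
    rw [abs_mul, dens, abs_of_nonneg (pow_nonneg h1 15)]
    exact mul_le_one₀ (hu x hx) (pow_nonneg h1 _) (pow_le_one₀ h1 h2)
  have hR := riemann_sum hL0 hc hL hg (by omega) hPa haP ha
  have hA : |normC * (∑ p ∈ range P, (mult 16 l p : ℝ) * u ((p : ℝ) / l))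
      - (l : ℝ) ^ 31 * ∑ p ∈ range P, u ((p : ℝ) / l) * dens ((p : ℝ) / l)|
      ≤ 496 * (l : ℝ) ^ 31 := by
    rw [mul_sum, mul_sum, ← sum_sub_distrib]
    refine (abs_sum_le_sum_abs _ _).trans ((sum_le_sum (g := fun _ => 496 * (l : ℝ) ^ 30)
      fun p hp => ?_).trans ?_)
    · rw [mem_range] at hp
      have hpl : p ≤ l := by
        have : (p : ℝ) < l := lt_of_lt_of_le (by exact_mod_cast hp) hP1
        exact_mod_cast this.le
      calc _ = |u ((p : ℝ) / l)| *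
            |normC * (mult 16 l p : ℝ) - (l : ℝ) ^ 31 * dens ((p : ℝ) / l)| := by
              rw [← abs_mul]; congr 1; ring
        _ ≤ 1 * (496 * (l : ℝ) ^ 30) :=
              mul_le_mul (hu _ (hmem p hp)) (mult_near hpl hl) (abs_nonneg _) zero_le_one
        _ = _ := one_mul _
    · rw [sum_const, card_range, nsmul_eq_mul]
      calc (P : ℝ) * (496 * (l : ℝ) ^ 30) ≤ l * (496 * (l : ℝ) ^ 30) :=
            mul_le_mul_of_nonneg_right hP1 (by positivity)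
        _ = _ := by ring
  have hB : |(l : ℝ) ^ 31 * (∑ p ∈ range P, u ((p : ℝ) / l) * dens ((p : ℝ) / l))
      - (l : ℝ) ^ 32 * ∫ y in (0 : ℝ)..a, u y * dens y| ≤ (L + 1) * (l : ℝ) ^ 31 := by
    rw [show (l : ℝ) ^ 32 * (∫ y in (0 : ℝ)..a, u y * dens y)
      = (l : ℝ) ^ 31 * ((l : ℝ) * ∫ y in (0 : ℝ)..a, u y * dens y) by ring, ← mul_sub, abs_mul,
      abs_of_nonneg (show (0 : ℝ) ≤ (l : ℝ) ^ 31 by positivity), mul_comm]
    exact mul_le_mul_of_nonneg_right hR (by positivity)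
  refine (abs_sub_le _ _ _).trans ((add_le_add hA hB).trans (le_of_eq ?_))
  ring

end Vale.Agent.P225.Full.CountProof
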