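import Vale.Agent.P225.Defs

/-! # Riemannian metrics on an open subset of `ℝ^n`, in coordinates -/

namespace Vale.Agent.P225.Full

open MeasureTheory Filter Topology

variable {n : ℕ}

/-- Coordinate space. -/
abbrev Coord (n : ℕ) : Type := Fin n → ℝ

/-- A matrix field: the components of a metric. -/
abbrev MetricField (n : ℕ) : Type := Coord n → Matrix (Fin n) (Fin n) ℝ

/-- Partial derivative. -/
noncomputable def pd (i : Fin n) (f : Coord n → ℝ) (x : Coord n) : ℝ :=
  fderiv ℝ f x (Pi.single i 1)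

/-- Christoffel symbols `Γ^l_{ij}` of the Levi-Civita connection. -/
noncomputable def christoffel (g : MetricField n) (l i j : Fin n) (x : Coord n) : ℝ :=
  (1 / 2) * ∑ m, (g x)⁻¹ l m *
    (pd i (fun y => g y j m) x + pd j (fun y => g y i m) x - pd m (fun y => g y i j) x)

/-- Components of the Ricci tensor. -/
noncomputable def ricciTensor (g : MetricField n) (i j : Fin n) (x : Coord n) : ℝ :=
  (∑ l, pd l (christoffel g l i j) x) - (∑ l, pd j (christoffel g l i l) x) +
    ∑ l, ∑ m, (christoffel g l l m x * christoffel g m i j x -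
      christoffel g l j m x * christoffel g m i l x)

/-- The Laplace-Beltrami operator. -/
noncomputable def laplace (g : MetricField n) (u : Coord n → ℝ) (x : Coord n) : ℝ :=
  ∑ i, ∑ j, (g x)⁻¹ i j * (pd i (pd j u) x - ∑ k, christoffel g k i j x * pd k u x)

/-- `C^1` curves in `U` from `x` to `y`. -/
def paths (U : Set (Coord n)) (x y : Coord n) : Set (ℝ → Coord n) :=
  {c | ContDiff ℝ 1 c ∧ c 0 = x ∧ c 1 = y ∧ ∀ t ∈ Set.Icc (0 : ℝ) 1, c t ∈ U}

/-- Length of a curve on `[0,1]`. -/
noncomputable def curveLength (g : MetricField n) (c : ℝ → Coord n) : ℝ :=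
  ∫ t in (0 : ℝ)..1, Real.sqrt (∑ i, ∑ j, g (c t) i j * deriv c t i * deriv c t j)

/-- The Riemannian distance of `g` inside `U`. -/
noncomputable def rdist (U : Set (Coord n)) (g : MetricField n) (x y : Coord n) : ℝ :=
  sInf (curveLength g '' paths U x y)

/-- The Riemannian manifold `(U, g)` is connected and metrically complete. -/
def IsCompleteConnected (U : Set (Coord n)) (g : MetricField n) : Prop :=
  IsConnected U ∧ (∀ x ∈ U, ∀ y ∈ U, (paths U x y).Nonempty) ∧
    ∀ z : ℕ → Coord n, (∀ m, z m ∈ U) →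
      (∀ ε > 0, ∃ N, ∀ a ≥ N, ∀ b ≥ N, rdist U g (z a) (z b) < ε) →
      ∃ p ∈ U, Tendsto (fun m => rdist U g (z m) p) atTop (𝓝 0)

/-- `g` is a smooth Riemannian metric on `U` with nonnegative Ricci curvature. -/
def IsNonnegRicci (U : Set (Coord n)) (g : MetricField n) : Prop :=
  (∀ i j, ContDiffOn ℝ (⊤ : ℕ∞) (fun x => g x i j) U) ∧ (∀ x ∈ U, (g x).PosDef) ∧
    ∀ x ∈ U, ∀ v : Coord n, 0 ≤ ∑ i, ∑ j, ricciTensor g i j x * v i * v j

/-- `u` is a harmonic function on `(U, g)` of polynomial growth of order `d`. -/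
def IsHarmonicGrowth (U : Set (Coord n)) (g : MetricField n) (o : Coord n) (d : ℝ)
    (u : Coord n → ℝ) : Prop :=
  ContDiffOn ℝ (⊤ : ℕ∞) u U ∧ (∀ x ∈ U, laplace g u x = 0) ∧
    ∃ C : ℝ, ∀ x ∈ U, |u x| ≤ C * (1 + rdist U g o x) ^ d

/-- A counterexample to Yau's comparison in dimension `n`, for the order `k`. -/
def YauCounterexample (n k : ℕ) : Prop :=
  ∃ (U : Set (Coord n)) (g : MetricField n) (o : Coord n) (N : ℕ) (u : Fin N → Coord n → ℝ),
    IsOpen U ∧ o ∈ U ∧ IsNonnegRicci U g ∧ IsCompleteConnected U g ∧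
      harmonicDim n k < N ∧ (∀ i, IsHarmonicGrowth U g o k (u i)) ∧
      LinearIndependent ℝ (fun i => U.domRestrict (u i))

end Vale.Agent.P225.Full
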