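import Vale.Agent.P225.Full.Spec

/-! # Calculus and contractions for the Laplacian of the model metrics -/

namespace Vale.Agent.P225.Full.Lap

open MvPolynomial Matrix Filter Topology

variable {n : ℕ}

theorem pd_congr {f g : Coord n → ℝ} {x : Coord n} (h : f =ᶠ[𝓝 x] g) (i : Fin n) :
    pd i f x = pd i g x := by
  simp only [pd, h.fderiv_eq]

theorem pd_add {f g : Coord n → ℝ} {x : Coord n} (hf : DifferentiableAt ℝ f x)
    (hg : DifferentiableAt ℝ g x) (i : Fin n) :
    pd i (fun y => f y + g y) x = pd i f x + pd i g x := by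
  simp only [pd, fderiv_fun_add hf hg]
  simp

theorem pd_sum {ι : Type*} (s : Finset ι) {f : ι → Coord n → ℝ} {x : Coord n}
    (hf : ∀ a ∈ s, DifferentiableAt ℝ (f a) x) (i : Fin n) :
    pd i (fun y => ∑ a ∈ s, f a y) x = ∑ a ∈ s, pd i (f a) x := by
  simp only [pd, fderiv_fun_sum hf]
  simp

theorem pd_mul {f g : Coord n → ℝ} {x : Coord n} (hf : DifferentiableAt ℝ f x)
    (hg : DifferentiableAt ℝ g x) (i : Fin n) :
    pd i (fun y => f y * g y) x = pd i f x * g x + f x * pd i g x := by
  simp only [pd, fderiv_fun_mul hf hg]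
  simp
  ring

theorem pd_const (c : ℝ) (i : Fin n) (x : Coord n) : pd i (fun _ => c) x = 0 := by
  simp [pd]

theorem pd_const_mul {f : Coord n → ℝ} {x : Coord n} (hf : DifferentiableAt ℝ f x) (c : ℝ)
    (i : Fin n) : pd i (fun y => c * f y) x = c * pd i f x := by
  rw [pd_mul (differentiableAt_const c) hf, pd_const]
  ring

theorem pd_coord (i j : Fin n) (x : Coord n) :
    pd i (fun y => y j) x = if j = i then 1 else 0 := by
  have h : HasFDerivAt (fun y : Coord n => y j)
      (ContinuousLinearMap.proj (R := ℝ) (φ := fun _ : Fin n => ℝ) j) x :=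
    (ContinuousLinearMap.proj (R := ℝ) (φ := fun _ : Fin n => ℝ) j).hasFDerivAt
  simp only [pd, h.fderiv]
  simp [Pi.single_apply]

theorem pd_comp {F : ℝ → ℝ} {f : Coord n → ℝ} {x : Coord n} {F' : ℝ}
    (hf : DifferentiableAt ℝ f x) (hF : HasDerivAt F F' (f x)) (i : Fin n) :
    pd i (fun y => F (f y)) x = F' * pd i f x := by
  simp only [pd]
  rw [show (fun y => F (f y)) = F ∘ f from rfl, (hF.comp_hasFDerivAt x hf.hasFDerivAt).fderiv]
  simp

/-- The squared Euclidean norm. -/
def nsq (x : Coord n) : ℝ := ∑ i, x i ^ 2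

theorem nsq_nonneg (x : Coord n) : 0 ≤ nsq x := Finset.sum_nonneg fun i _ => sq_nonneg _

theorem nsq_pos {x : Coord n} (hx : x ≠ 0) : 0 < nsq x := by
  refine (nsq_nonneg x).lt_of_ne fun h => hx ?_
  funext i
  have h2 := (Finset.sum_eq_zero_iff_of_nonneg (fun j _ => sq_nonneg (x j))).1 h.symm i
    (Finset.mem_univ i)
  exact pow_eq_zero_iff (two_ne_zero) |>.1 h2

theorem rad_eq (x : Coord n) : rad x = Real.sqrt (nsq x) := rfl

theorem rad_pos {x : Coord n} (hx : x ≠ 0) : 0 < rad x := Real.sqrt_pos.2 (nsq_pos hx)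

theorem rad_sq (x : Coord n) : rad x ^ 2 = nsq x := Real.sq_sqrt (nsq_nonneg x)

theorem exp_logRad {x : Coord n} (hx : x ≠ 0) : Real.exp (logRad x) = rad x :=
  Real.exp_log (rad_pos hx)

theorem exp_neg_logRad {x : Coord n} (hx : x ≠ 0) :
    Real.exp (-2 * logRad x) = (nsq x)⁻¹ := by
  rw [← rad_sq, show (-2 : ℝ) * logRad x = -(((2 : ℕ) : ℝ) * logRad x) by push_cast; ring,
    Real.exp_neg, Real.exp_nat_mul, exp_logRad hx]

theorem contDiff_nsq {k : WithTop ℕ∞} : ContDiff ℝ k (nsq (n := n)) :=
  ContDiff.sum fun i _ => (contDiff_apply ℝ ℝ i).pow 2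

theorem contDiffAt_rad {k : WithTop ℕ∞} {x : Coord n} (hx : x ≠ 0) :
    ContDiffAt ℝ k (rad (n := n)) x :=
  (contDiff_nsq.contDiffAt).sqrt (nsq_pos hx).ne'

theorem contDiffAt_logRad {k : WithTop ℕ∞} {x : Coord n} (hx : x ≠ 0) :
    ContDiffAt ℝ k (logRad (n := n)) x :=
  (contDiffAt_rad hx).log (rad_pos hx).ne'

theorem diffAt_logRad {x : Coord n} (hx : x ≠ 0) : DifferentiableAt ℝ (logRad (n := n)) x :=
  (contDiffAt_logRad (k := 1) hx).differentiableAt (by norm_num)

theorem pd_logRad {x : Coord n} (hx : x ≠ 0) (i : Fin n) :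
    pd i (logRad (n := n)) x = x i / nsq x := by
  have h : (logRad : Coord n → ℝ) = fun y => Real.log (nsq y) / 2 :=
    funext fun y => Real.log_sqrt (nsq_nonneg y)
  have hd : DifferentiableAt ℝ (nsq (n := n)) x :=
    ((contDiff_nsq (k := 1)).differentiable (by norm_num)).differentiableAt
  have h1 : pd i (nsq (n := n)) x = 2 * x i := by
    show pd i (fun y => ∑ j, y j ^ 2) x = _
    rw [pd_sum Finset.univ (fun j _ =>
      (show DifferentiableAt ℝ (fun y : Coord n => y j ^ 2) x from (differentiableAt_apply j x).pow 2))]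
    have h2 : ∀ j : Fin n, pd i (fun y => y j ^ 2) x = if j = i then 2 * x i else 0 := by
      intro j
      have hj : DifferentiableAt ℝ (fun y : Coord n => y j) x := differentiableAt_apply j x
      rw [show (fun y : Coord n => y j ^ 2) = fun y => y j * y j by funext y; ring,
        pd_mul hj hj, pd_coord]
      split_ifs with h
      · subst h; ring
      · ring
    simp [h2]
  rw [h, pd_comp hd ((Real.hasDerivAt_log (nsq_pos hx).ne').div_const 2), h1]
  field_simp

theorem eventually_ne {x : Coord n} (hx : x ≠ 0) : ∀ᶠ y in 𝓝 x, y ≠ 0 :=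
  isOpen_ne.mem_nhds hx

theorem pd_radial {F : ℝ → ℝ} {F' : ℝ} {x : Coord n} (hx : x ≠ 0)
    (hF : HasDerivAt F F' (logRad x)) (i : Fin n) :
    pd i (fun y => F (logRad y)) x = F' * (x i / nsq x) := by
  rw [pd_comp (diffAt_logRad hx) hF, pd_logRad hx]

theorem contDiff_evp {k : WithTop ℕ∞} (P : Poly n) : ContDiff ℝ k (evp P) := by
  induction P using MvPolynomial.induction_on with
  | C a =>
    have : evp (C a : Poly n) = fun _ => a := by funext x; simp [evp]
    rw [this]
    exact contDiff_const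
  | add p q hp hq =>
    have : evp (p + q) = fun x => evp p x + evp q x := by funext x; simp [evp]
    rw [this]
    exact hp.add hq
  | mul_X p i hp =>
    have : evp (p * X i) = fun x => evp p x * x i := by funext x; simp [evp]
    rw [this]
    exact hp.mul (contDiff_apply ℝ ℝ i)

theorem diffAt_evp (P : Poly n) (x : Coord n) : DifferentiableAt ℝ (evp P) x :=
  ((contDiff_evp (k := 1) P).differentiable (by norm_num)).differentiableAt

theorem pd_evp (P : Poly n) (i : Fin n) (x : Coord n) :
    pd i (evp P) x = evp (pderiv i P) x := by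
  induction P using MvPolynomial.induction_on with
  | C a =>
    have : evp (C a : Poly n) = fun _ => a := by funext x; simp [evp]
    rw [this, pd_const]
    simp [evp]
  | add p q hp hq =>
    have : evp (p + q) = fun x => evp p x + evp q x := by funext x; simp [evp]
    rw [this, pd_add (diffAt_evp p x) (diffAt_evp q x), hp, hq]
    simp [evp]
  | mul_X p j hp =>
    have : evp (p * X j) = fun x => evp p x * x j := by funext x; simp [evp]
    rw [this, pd_mul (diffAt_evp p x) (differentiableAt_apply j x), hp, pd_coord]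
    rcases eq_or_ne j i with rfl | h
    · simp [evp, pderiv_mul, pderiv_X_self]
      ring
    · simp [evp, pderiv_mul, pderiv_X_of_ne h, h]
      ring

/-- The vector `J x`. -/
def jv (J : Matrix (Fin n) (Fin n) ℝ) (x : Coord n) (i : Fin n) : ℝ := ∑ j, J i j * x j

theorem jv_eq (J : Matrix (Fin n) (Fin n) ℝ) (x : Coord n) (i : Fin n) :
    (J *ᵥ x) i = jv J x i := rfl

theorem diffAt_jv (J : Matrix (Fin n) (Fin n) ℝ) (x : Coord n) (i : Fin n) :
    DifferentiableAt ℝ (fun y => jv J y i) x := by
  unfold jv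
  exact DifferentiableAt.fun_sum fun j _ => (differentiableAt_apply j x).const_mul _

theorem pd_jv (J : Matrix (Fin n) (Fin n) ℝ) (i k : Fin n) (x : Coord n) :
    pd k (fun y => jv J y i) x = J i k := by
  show pd k (fun y => ∑ j, J i j * y j) x = _
  rw [pd_sum Finset.univ (fun j _ => (differentiableAt_apply j x).const_mul _)]
  have h : ∀ j : Fin n, pd k (fun y => J i j * y j) x = if j = k then J i k else 0 := by
    intro j
    rw [pd_const_mul (differentiableAt_apply j x), pd_coord]
    split_ifs with h <;> simp [h]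
  simp [h]

theorem IsCS.skew {J : Matrix (Fin n) (Fin n) ℝ} (hJ : IsCS J) (i j : Fin n) :
    J j i = -J i j :=
  congrFun (congrFun hJ.1 i) j

theorem jv_col {J : Matrix (Fin n) (Fin n) ℝ} (hJ : IsCS J) (x : Coord n) (m : Fin n) :
    ∑ i, x i * J i m = -jv J x m := by
  rw [jv, ← Finset.sum_neg_distrib]
  exact Finset.sum_congr rfl fun i _ => by rw [IsCS.skew hJ m i]; ring

theorem sum_x_jv {J : Matrix (Fin n) (Fin n) ℝ} (hJ : IsCS J) (x : Coord n) :
    ∑ i, x i * jv J x i = 0 := by
  have h : ∑ i, x i * jv J x i = ∑ m, (∑ i, x i * J i m) * x m := by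
    simp only [jv, Finset.mul_sum, Finset.sum_mul]
    rw [Finset.sum_comm]
    exact Finset.sum_congr rfl fun m _ => Finset.sum_congr rfl fun i _ => by ring
  simp only [jv_col hJ, neg_mul, Finset.sum_neg_distrib] at h
  have h2 : ∑ m, jv J x m * x m = ∑ i, x i * jv J x i :=
    Finset.sum_congr rfl fun i _ => mul_comm _ _
  linarith

theorem jv_jv {J : Matrix (Fin n) (Fin n) ℝ} (hJ : IsCS J) (x : Coord n) (m : Fin n) :
    ∑ j, J m j * jv J x j = -x m := by
  have h : (J *ᵥ (J *ᵥ x)) m = -x m := by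
    rw [Matrix.mulVec_mulVec, hJ.2]
    simp [Matrix.neg_mulVec]
  exact h

theorem jv_jv_col {J : Matrix (Fin n) (Fin n) ℝ} (hJ : IsCS J) (x : Coord n) (m : Fin n) :
    ∑ i, jv J x i * J i m = x m := by
  rw [jv_col hJ (fun i => jv J x i) m]
  show -(∑ j, J m j * jv J x j) = x m
  rw [jv_jv hJ, neg_neg]

theorem sum_jv_sq {J : Matrix (Fin n) (Fin n) ℝ} (hJ : IsCS J) (x : Coord n) :
    ∑ i, jv J x i * jv J x i = nsq x := by
  have h : ∑ i, jv J x i * jv J x i = ∑ m, (∑ i, jv J x i * J i m) * x m := by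
    conv_lhs => enter [2, i, 2]; rw [jv]
    simp only [Finset.mul_sum, Finset.sum_mul]
    rw [Finset.sum_comm]
    exact Finset.sum_congr rfl fun m _ => Finset.sum_congr rfl fun i _ => by ring
  rw [h, nsq]
  exact Finset.sum_congr rfl fun m _ => by rw [jv_jv_col hJ]; ring

theorem jv_diag {J : Matrix (Fin n) (Fin n) ℝ} (hJ : IsCS J) (i : Fin n) : J i i = 0 := by
  have := IsCS.skew hJ i i
  linarith

/-- The contraction of the inverse metric `a δ + b x xᵀ + c (J x) (J x)ᵀ` with a matrix. -/
def con (J : Matrix (Fin n) (Fin n) ℝ) (x : Coord n) (a b c : ℝ) (M : Fin n → Fin n → ℝ) : ℝ :=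
  ∑ i, ∑ j, (a * (if i = j then 1 else 0) + b * (x i * x j) + c * (jv J x i * jv J x j)) * M i j

variable {J : Matrix (Fin n) (Fin n) ℝ} {x : Coord n} {a b c : ℝ}

theorem con_congr {M N : Fin n → Fin n → ℝ} (h : ∀ i j, M i j = N i j) :
    con J x a b c M = con J x a b c N := by
  simp only [con, h]

theorem con_add (M N : Fin n → Fin n → ℝ) :
    con J x a b c (fun i j => M i j + N i j) = con J x a b c M + con J x a b c N := by
  simp only [con, mul_add, Finset.sum_add_distrib]

theorem con_smul (r : ℝ) (M : Fin n → Fin n → ℝ) :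
    con J x a b c (fun i j => r * M i j) = r * con J x a b c M := by
  simp only [con, Finset.mul_sum]
  exact Finset.sum_congr rfl fun i _ => Finset.sum_congr rfl fun j _ => by ring

theorem con_split (M : Fin n → Fin n → ℝ) :
    con J x a b c M = a * ∑ i, M i i + b * ∑ i, ∑ j, x i * x j * M i j
      + c * ∑ i, ∑ j, jv J x i * jv J x j * M i j := by
  simp only [con, add_mul, Finset.sum_add_distrib, Finset.mul_sum]
  congr 1
  · congr 1
    · refine Finset.sum_congr rfl fun i _ => ?_
      simp [Finset.sum_ite_eq]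
    · exact Finset.sum_congr rfl fun i _ => Finset.sum_congr rfl fun j _ => by ring
  · exact Finset.sum_congr rfl fun i _ => Finset.sum_congr rfl fun j _ => by ring

theorem con_outer (v w : Fin n → ℝ) :
    con J x a b c (fun i j => v i * w j) = a * ∑ i, v i * w i
      + b * (∑ i, x i * v i) * ∑ i, x i * w i
      + c * (∑ i, jv J x i * v i) * ∑ i, jv J x i * w i := by
  rw [con_split, mul_assoc b, mul_assoc c, Finset.sum_mul_sum, Finset.sum_mul_sum]
  congr 1
  · congr 1
    congr 1
    exact Finset.sum_congr rfl fun i _ => Finset.sum_congr rfl fun j _ => by ring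
  · congr 1
    exact Finset.sum_congr rfl fun i _ => Finset.sum_congr rfl fun j _ => by ring

theorem con_delta (hJ : IsCS J) :
    con J x a b c (fun i j => if i = j then 1 else 0) = n * a + b * nsq x + c * nsq x := by
  rw [con_split]
  simp only [if_true, Finset.sum_const, Finset.card_univ, Fintype.card_fin, nsmul_eq_mul, mul_one,
    mul_ite, mul_zero, Finset.sum_ite_eq, Finset.mem_univ, sum_jv_sq hJ]
  simp only [nsq, sq]
  ring

theorem con_x (hJ : IsCS J) (v : Fin n → ℝ) :
    con J x a b c (fun i j => x i * v j) = (a + b * nsq x) * ∑ i, x i * v i := by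
  rw [con_outer]
  have h : ∑ i, jv J x i * x i = 0 := by
    rw [← sum_x_jv hJ x]
    exact Finset.sum_congr rfl fun i _ => mul_comm _ _
  have h' : ∑ i, x i * x i = nsq x := by simp [nsq, sq]
  rw [h, h']
  ring

theorem con_x' (hJ : IsCS J) (v : Fin n → ℝ) :
    con J x a b c (fun i j => v i * x j) = (a + b * nsq x) * ∑ i, x i * v i := by
  rw [← con_x (c := c) hJ v, con_outer, con_outer]
  have h : ∑ i, v i * x i = ∑ i, x i * v i := Finset.sum_congr rfl fun i _ => mul_comm _ _
  rw [h]
  ring

end Vale.Agent.P225.Full.Lap
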