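import Vale.Agent.P225.Full.Defs
import Vale.Agent.P225.Poly

/-! # The model metrics: Berger spheres for constant complex structures -/

namespace Vale.Agent.P225.Full

open MvPolynomial Matrix

variable {n : ℕ}

/-- An orthogonal complex structure. -/
def IsCS (J : Matrix (Fin n) (Fin n) ℝ) : Prop := Jᵀ = -J ∧ J * J = -1

/-- The standard complex structure on `ℝ^(2 * q)`, pairing `2 i` with `2 i + 1`. -/
def stdJ (n : ℕ) : Matrix (Fin n) (Fin n) ℝ := fun i j =>
  if i.val % 2 = 0 ∧ j.val = i.val + 1 then -1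
  else if j.val % 2 = 0 ∧ i.val = j.val + 1 then 1 else 0

/-- Euclidean norm of a coordinate vector. -/
noncomputable def rad (x : Coord n) : ℝ := Real.sqrt (∑ i, x i ^ 2)

/-- Logarithmic radius. -/
noncomputable def logRad (x : Coord n) : ℝ := Real.log (rad x)

/-- The radial component of a vector. -/
noncomputable def radPart (x v : Coord n) : ℝ := (∑ i, x i * v i) / rad x

/-- The component of a vector along the fibre of `J`. -/
noncomputable def fibPart (J : Matrix (Fin n) (Fin n) ℝ) (x v : Coord n) : ℝ :=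
  (∑ i, (J *ᵥ x) i * v i) / rad x

/-- Profiles of a warped Berger metric: logarithms of the fibre and horizontal radii divided by
`r`, and the complex structure, as functions of `log r`. -/
structure Profile (n : ℕ) where
  p : ℝ → ℝ
  q : ℝ → ℝ
  J : ℝ → Matrix (Fin n) (Fin n) ℝ

/-- Admissible profiles: smooth, flat near the origin, and the complex structure only changes
where the spheres are round. -/
structure Profile.Adm (P : Profile n) : Prop where
  smooth_p : ContDiff ℝ (⊤ : ℕ∞) P.p
  smooth_q : ContDiff ℝ (⊤ : ℕ∞) P.q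
  cs : ∀ t, IsCS (P.J t)
  flat : ∀ t ≤ 0, P.p t = 0 ∧ P.q t = 0
  local_J : ∀ t, (∀ᶠ s in nhds t, P.J s = P.J t) ∨ (∀ᶠ s in nhds t, P.p s = P.q s)

open Classical in
/-- The metric `dr^2 + f^2 θ_J^2 + a^2 g_H` in coordinates. -/
noncomputable def Profile.metric (P : Profile n) : MetricField n := fun x i j =>
  if x = 0 then (if i = j then 1 else 0) else
    let t := logRad x
    x i * x j / rad x ^ 2
      + Real.exp (2 * P.q t) * ((if i = j then 1 else 0) - x i * x j / rad x ^ 2)
      + (Real.exp (2 * P.p t) - Real.exp (2 * P.q t)) *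
          ((P.J t *ᵥ x) i * (P.J t *ᵥ x) j) / rad x ^ 2

/-- `r^2` times the radial Ricci curvature. -/
noncomputable def Profile.rrTerm (m : ℕ) (P : Profile n) (t : ℝ) : ℝ :=
  -(deriv (deriv P.p) t + deriv P.p t + deriv P.p t ^ 2)
    - 2 * m * (deriv (deriv P.q) t + deriv P.q t + deriv P.q t ^ 2)

/-- `r^2` times the fibre Ricci curvature. -/
noncomputable def Profile.fibTerm (m : ℕ) (P : Profile n) (t : ℝ) : ℝ :=
  -(deriv (deriv P.p) t + deriv P.p t + deriv P.p t ^ 2)
    - 2 * m * ((1 + deriv P.p t) * (1 + deriv P.q t))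
    + 2 * m * Real.exp (2 * P.p t - 4 * P.q t)

/-- `r^2` times the horizontal Ricci curvature. -/
noncomputable def Profile.horTerm (m : ℕ) (P : Profile n) (t : ℝ) : ℝ :=
  -(deriv (deriv P.q) t + deriv P.q t + deriv P.q t ^ 2)
    - (1 + deriv P.p t) * (1 + deriv P.q t) - (2 * m - 1) * (1 + deriv P.q t) ^ 2
    + (2 * m + 2) * Real.exp (-2 * P.q t) - 2 * Real.exp (2 * P.p t - 4 * P.q t)

/-- The drift coefficient of the radial equation in `log r`. -/
noncomputable def Profile.drift (m : ℕ) (P : Profile n) (t : ℝ) : ℝ :=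
  2 * m + deriv P.p t + 2 * m * deriv P.q t

/-- The derivative along the vector field `x ↦ J x`, on polynomials. -/
noncomputable def xiPoly (J : Matrix (Fin n) (Fin n) ℝ) : Poly n →ₗ[ℝ] Poly n :=
  ∑ i : Fin n, ∑ j : Fin n,
    J i j • (LinearMap.mulLeft ℝ (X j : Poly n)).comp (pderiv i).toLinearMap

/-- Evaluation of a polynomial at a point. -/
noncomputable def evp (P : Poly n) (x : Coord n) : ℝ := MvPolynomial.eval x P

/-- A mode: a radial coefficient times a homogeneous polynomial of degree `l`, normalised. -/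
noncomputable def mode (l : ℕ) (y : ℝ → ℝ) (P : Poly n) (x : Coord n) : ℝ :=
  y (logRad x) * evp P x / rad x ^ l

/-- The eigenvalue `l (l + n - 2)` of the round sphere. -/
def sphEig (n l : ℕ) : ℝ := (l : ℝ) * ((l : ℝ) + n - 2)

end Vale.Agent.P225.Full
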