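import Vale.Agent.P225.Full.Model

/-! # The statements to be proved, module by module -/

namespace Vale.Agent.P225.Full.Spec

open MvPolynomial Matrix Filter Topology

/-- Ricci curvature of the model metrics. -/
def Curvature : Prop := ∀ (m : ℕ) (P : Profile (2 * m + 2)), 1 ≤ m → P.Adm →
  (∀ i j, ContDiff ℝ (⊤ : ℕ∞) fun x => P.metric x i j) ∧ (∀ x, (P.metric x).PosDef) ∧
  (∀ v : Coord (2 * m + 2), ∀ i j, ricciTensor P.metric i j 0 * v i * v j = 0) ∧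
  ∀ x : Coord (2 * m + 2), x ≠ 0 → ∀ v : Coord (2 * m + 2),
    ∑ i, ∑ j, ricciTensor P.metric i j x * v i * v j =
      (P.rrTerm m (logRad x) * radPart x v ^ 2
        + P.fibTerm m (logRad x) * Real.exp (2 * P.p (logRad x)) *
            fibPart (P.J (logRad x)) x v ^ 2
        + P.horTerm m (logRad x) * Real.exp (2 * P.q (logRad x)) *
            (∑ i, v i ^ 2 - radPart x v ^ 2 - fibPart (P.J (logRad x)) x v ^ 2)) / rad x ^ 2

/-- The Laplacian on modes. -/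
def LaplaceMode : Prop := ∀ (m l : ℕ) (P : Profile (2 * m + 2)), 1 ≤ m → P.Adm →
  ∀ (y : ℝ → ℝ), ContDiff ℝ 2 y → ∀ h ∈ Harm (2 * m + 2) l,
  ∀ x : Coord (2 * m + 2), x ≠ 0 →
    let t := logRad x
    laplace P.metric (mode l y h) x =
      ((deriv (deriv y) t + P.drift m t * deriv y t
            - Real.exp (-2 * P.q t) * sphEig (2 * m + 2) l * y t) * evp h x
        + (Real.exp (-2 * P.p t) - Real.exp (-2 * P.q t)) * y t *
            evp (xiPoly (P.J t) (xiPoly (P.J t) h)) x) / rad x ^ (l + 2)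

/-- Finite combinations of modes are harmonic when the coefficients solve the shell equation; the
flat core makes them smooth. -/
def Harmonic : Prop := ∀ (m : ℕ) (P : Profile (2 * m + 2)), 1 ≤ m → P.Adm →
  ∀ (N : ℕ) (deg : Fin N → ℕ) (h : Fin N → Poly (2 * m + 2)) (y : Fin N → ℝ → ℝ),
    (∀ a, h a ∈ Harm (2 * m + 2) (deg a)) →
    (∀ a, ContDiff ℝ (⊤ : ℕ∞) (y a)) →
    (∀ a, ∀ t ≤ 0, y a t = y a 0 * Real.exp (deg a * t)) →
    (∀ (l : ℕ) (t : ℝ), (∑ a ∈ Finset.univ.filter fun a => deg a = l,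
        ((deriv (deriv (y a)) t + P.drift m t * deriv (y a) t
            - Real.exp (-2 * P.q t) * sphEig (2 * m + 2) l * y a t) • h a
          + ((Real.exp (-2 * P.p t) - Real.exp (-2 * P.q t)) * y a t) •
              xiPoly (P.J t) (xiPoly (P.J t) (h a)))) = 0) →
    ∃ u : Coord (2 * m + 2) → ℝ, ContDiff ℝ (⊤ : ℕ∞) u ∧
      (∀ x, laplace P.metric u x = 0) ∧
      ∀ x, x ≠ 0 → u x = ∑ a, mode (deg a) (y a) (h a) x

/-- Completeness, and the distance to the origin is at least the radius. -/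
def Complete : Prop := ∀ (m : ℕ) (P : Profile (2 * m + 2)), 1 ≤ m → P.Adm →
  IsCompleteConnected Set.univ P.metric ∧
    ∀ x, rad x ≤ rdist Set.univ P.metric 0 x

/-- The multiplicity of the charge `2 P - l` in degree `l`. -/
def mult (m l P : ℕ) : ℤ :=
  ((m + P).choose m * (m + (l - P)).choose m : ℤ) -
    (if P = 0 ∨ l ≤ P then 0 else ((m + P - 1).choose m * (m + (l - P) - 1).choose m : ℤ))

/-- A basis of the harmonic polynomials diagonalising `xi^2` for the standard structure. -/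
structure EigenShell (m l : ℕ) where
  D : ℕ
  basis : Module.Basis (Fin D) ℝ (Harm (2 * m + 2) l)
  charge : Fin D → ℕ
  le_deg : ∀ a, charge a ≤ l
  card_charge : ∀ P, P ≤ l →
    mult m l P ≤ ((Finset.univ.filter fun a => charge a = P).card : ℤ)
  eigen : ∀ a, xiPoly (stdJ (2 * m + 2)) (xiPoly (stdJ (2 * m + 2)) (basis a : Poly (2 * m + 2)))
      = (-(2 * (charge a : ℝ) - l) ^ 2) • (basis a : Poly (2 * m + 2))

/-- Every shell has such a basis. -/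
def Shells : Prop := ∀ m l, 1 ≤ m → Nonempty (EigenShell m l)

/-- The parameters: `n = 34`, squashing `21/20`, horizontal radius squared `sB`. -/
def mC : ℕ := 16

noncomputable def tB : ℝ := 21 / 20

noncomputable def sB : ℝ := 99683 / 100000

/-- The level of a charge on the Berger sphere. -/
noncomputable def level (l P : ℕ) : ℝ :=
  ((l : ℝ) * ((l : ℝ) + 2 * mC) - (1 - 1 / tB) * (2 * (P : ℝ) - l) ^ 2) / sB

/-- The growth exponent of a level. -/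
noncomputable def expo (lam : ℝ) : ℝ := (Real.sqrt ((2 * mC) ^ 2 + 4 * lam) - 2 * mC) / 2

open Classical in
/-- For some order `k` enough charges can be selected, with mean exponent below `k` in each
shell. -/
def Count : Prop := ∃ (k L : ℕ) (S : ℕ → Finset ℕ),
  1 ≤ k ∧ (∀ l, L < l → S l = ∅) ∧ (∀ l < 2, S l = ∅) ∧ (∀ l, ∀ P ∈ S l, P ≤ l ∧ 0 < mult mC l P) ∧
  (∀ l, (S l).Nonempty → ∑ P ∈ S l, (mult mC l P : ℝ) * expo (level l P)
      < (k : ℝ) * ∑ P ∈ S l, (mult mC l P : ℝ)) ∧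
  (harmonicDim (2 * mC + 2) k : ℤ) < ∑ l ∈ Finset.range (L + 1), ∑ P ∈ S l, mult mC l P

/-- The matrix of the traceless pulse generator of `J` in the shell basis. -/
noncomputable def genMat {m l : ℕ} (E : EigenShell m l)
    (B : Matrix (Fin (2 * m + 2)) (Fin (2 * m + 2)) ℝ → Harm (2 * m + 2) l →ₗ[ℝ] Harm (2 * m + 2) l)
    (J : Matrix (Fin (2 * m + 2)) (Fin (2 * m + 2)) ℝ) : Matrix (Fin E.D) (Fin E.D) ℝ :=
  LinearMap.toMatrix E.basis E.basis (B J)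

/-- `B J` is `xi_J^2 + l (l + 2 m) / (2 m + 1)` for every orthogonal complex structure `J`; at other
matrices `B` is arbitrary (`xi_J` need not preserve harmonicity there). -/
def IsGen {m l : ℕ} (B : Matrix (Fin (2 * m + 2)) (Fin (2 * m + 2)) ℝ →
    Harm (2 * m + 2) l →ₗ[ℝ] Harm (2 * m + 2) l) : Prop :=
  ∀ J, IsCS J → ∀ h, ((B J h : Harm (2 * m + 2) l) : Poly (2 * m + 2)) =
    xiPoly J (xiPoly J (h : Poly (2 * m + 2))) +
      ((sphEig (2 * m + 2) l) / (2 * m + 1)) • (h : Poly (2 * m + 2))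

/-- Product of exponentials, the last factor on the left. -/
noncomputable def expProd {D : ℕ} : {N : ℕ} → (Fin N → Matrix (Fin D) (Fin D) ℝ) →
    Matrix (Fin D) (Fin D) ℝ
  | 0, _ => 1
  | _ + 1, A => NormedSpace.exp (A (Fin.last _)) * expProd (fun i => A i.castSucc)

/-- Simultaneous local sections: products of exponentials of the weighted generators reach any target of
determinant one on all shells `2 .. L`, with a continuous choice of parameters nearby, up to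
positive scalars in each shell. -/
def Reach : Prop := ∀ (m L : ℕ), 4 ≤ m → ∀ (kappa : ℕ → ℝ), (∀ l, 0 < kappa l) →
  StrictAntiOn kappa (Set.Icc 2 L) → ∀ (E : ∀ l : ℕ, EigenShell m l)
  (B : ∀ l : ℕ, Matrix (Fin (2 * m + 2)) (Fin (2 * m + 2)) ℝ →
    Harm (2 * m + 2) l →ₗ[ℝ] Harm (2 * m + 2) l), (∀ l, IsGen (B l)) →
  ∀ T : ∀ l : Fin (L + 1), Matrix (Fin (E l).D) (Fin (E l).D) ℝ,
    (∀ l, (T l).det = 1) →
  ∃ (N : ℕ) (J : Fin N → Matrix (Fin (2 * m + 2)) (Fin (2 * m + 2)) ℝ) (ρ : ℝ)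
    (σ : (∀ l : Fin (L + 1), Matrix (Fin (E l).D) (Fin (E l).D) ℝ) → Fin N → ℝ),
    (∀ i, IsCS (J i)) ∧ 0 < ρ ∧
    (∀ i, ContinuousOn (fun X => σ X i) {X | ∀ l a b, |X l a b - T l a b| ≤ ρ}) ∧
    ∀ X, (∀ l a b, |X l a b - T l a b| ≤ ρ) → ∀ l : Fin (L + 1), 2 ≤ (l : ℕ) →
      ∃ c : ℝ, 0 < c ∧
        expProd (fun i => (kappa l * σ X i) • genMat (E l) (B l) (J i)) = c • X l

/-- The slow pulse limit of `z'' + c z' = ε K(ε s) z`. -/
def PulseLimit : Prop := ∀ (V : Type) [NormedAddCommGroup V] [NormedSpace ℝ V]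
  [FiniteDimensional ℝ V] (S c₀ bound : ℝ), 0 < S → 0 < c₀ →
  ∀ δ > 0, ∃ η > 0, ∀ (ε : ℝ) (c : ℝ → ℝ) (K K₀ : ℝ → V →L[ℝ] V) (z : ℝ → V) (P : ℝ → V),
    0 < ε → ε ≤ η → Continuous c → Continuous K → Continuous K₀ →
    (∀ s ∈ Set.Icc 0 (S / ε), |c s - c₀| ≤ η) →
    (∀ σ ∈ Set.Icc 0 S, ‖K₀ σ‖ ≤ bound ∧ ‖K σ - K₀ σ‖ ≤ η) →
    ContDiff ℝ 2 z → ‖z 0‖ ≤ 1 → ‖deriv z 0‖ ≤ η →
    (∀ s ∈ Set.Icc 0 (S / ε),
      deriv (deriv z) s + c s • deriv z s = ε • K (ε * s) (z s)) →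
    P 0 = z 0 → (∀ σ ∈ Set.Icc 0 S, HasDerivAt P (c₀⁻¹ • K₀ σ (P σ)) σ) →
    ‖z (S / ε) - P S‖ ≤ δ ∧ ‖deriv z (S / ε)‖ ≤ δ

/-- Upper bound for positive solutions of the scalar equation while the level is bounded. -/
def ScalarGrowth : Prop := ∀ (a b : ℝ) (c M : ℝ → ℝ) (y : ℝ → ℝ) (cm Λ γ : ℝ), a ≤ b →
  ContDiff ℝ 2 y → Continuous c → Continuous M →
  (∀ t ∈ Set.Icc a b, deriv (deriv y) t + c t * deriv y t = M t * y t) →
  (∀ t ∈ Set.Icc a b, cm ≤ c t ∧ 0 ≤ M t ∧ M t ≤ Λ) →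
  0 ≤ γ → Λ ≤ γ * (γ + cm) → 0 < 2 * γ + cm → 0 < y a → 0 ≤ deriv y a →
  (∀ t ∈ Set.Icc a b, 0 < y t ∧ 0 ≤ deriv y t) ∧
  y b ≤ y a * Real.exp (γ * (b - a) +
    max (deriv y a / y a - γ) 0 / (2 * γ + cm))

/-- Propagation through a segment where the scalar equation has no pulse: the value at the end is
a positive multiple of `y a + θ y' a`, and data killed by this functional decay. -/
def ScalarSegment : Prop := ∀ (a b c₁ : ℝ) (c M : ℝ → ℝ), a < b → 0 < c₁ →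
  Continuous c → Continuous M → (∀ t ∈ Set.Icc a b, c₁ ≤ c t ∧ 0 ≤ M t) →
  ∃ θ κ : ℝ, 0 ≤ θ ∧ θ ≤ 1 / c₁ ∧ 1 ≤ κ ∧ ∀ y : ℝ → ℝ, ContDiff ℝ 2 y →
    (∀ t ∈ Set.Icc a b, deriv (deriv y) t + c t * deriv y t = M t * y t) →
    y b = κ * (y a + θ * deriv y a) ∧
    (y b = 0 → |deriv y b| ≤ Real.exp (-c₁ * (b - a)) * |deriv y a|)

/-- The logarithmic derivative is attracted to the exponent. -/
def RatioNear : Prop := ∀ (a b c₀ γ η : ℝ) (c M : ℝ → ℝ) (y : ℝ → ℝ), a ≤ b →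
  0 ≤ γ → 0 ≤ η → η < c₀ → ContDiff ℝ 2 y → Continuous c → Continuous M →
  (∀ t ∈ Set.Icc a b, deriv (deriv y) t + c t * deriv y t = M t * y t) →
  (∀ t ∈ Set.Icc a b, |c t - c₀| ≤ η ∧ 0 ≤ M t ∧ |M t - γ * (γ + c₀)| ≤ η) →
  0 < y a → 0 ≤ deriv y a →
  |deriv y b / y b - γ| ≤
    |deriv y a / y a - γ| * Real.exp (-(c₀ - η) * (b - a)) + (1 + γ) * η / (c₀ - η)

/-- Linear second order systems: smooth global solutions, uniqueness, a crude bound. -/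
def LinODE : Prop := ∀ (D : ℕ) (c : ℝ → ℝ) (M : ℝ → Matrix (Fin D) (Fin D) ℝ),
  ContDiff ℝ (⊤ : ℕ∞) c → (∀ a b, ContDiff ℝ (⊤ : ℕ∞) fun t => M t a b) →
  (∀ (t₀ : ℝ) (y₀ y₁ : Fin D → ℝ), ∃ y : ℝ → Fin D → ℝ,
    (∀ a, ContDiff ℝ (⊤ : ℕ∞) fun t => y t a) ∧
    (∀ a, y t₀ a = y₀ a ∧ deriv (fun t => y t a) t₀ = y₁ a) ∧
    ∀ a t, deriv (deriv fun s => y s a) t + c t * deriv (fun s => y s a) t
      = ∑ i, M t a i * y t i) ∧
  (∀ (t₀ t₁ B : ℝ) (y : ℝ → Fin D → ℝ), t₀ ≤ t₁ → 1 ≤ B →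
    (∀ a, ContDiff ℝ 2 fun t => y t a) →
    (∀ t ∈ Set.Icc t₀ t₁, |c t| ≤ B ∧ ∀ a i, |M t a i| ≤ B) →
    (∀ a, ∀ t ∈ Set.Icc t₀ t₁,
      deriv (deriv fun s => y s a) t + c t * deriv (fun s => y s a) t = ∑ i, M t a i * y t i) →
    ∀ a, |y t₁ a| + |deriv (fun s => y s a) t₁| ≤
      (∑ i, (|y t₀ i| + |deriv (fun s => y s i) t₀|)) *
        Real.exp (2 * ((D : ℝ) + 1) * B * (t₁ - t₀))) ∧
  ∀ (t₀ t₁ : ℝ) (y z : ℝ → Fin D → ℝ),
    (∀ a, ContDiff ℝ 2 fun t => y t a) → (∀ a, ContDiff ℝ 2 fun t => z t a) →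
    (∀ a, ∀ t ∈ Set.uIcc t₀ t₁,
      deriv (deriv fun s => y s a) t + c t * deriv (fun s => y s a) t = ∑ i, M t a i * y t i ∧
      deriv (deriv fun s => z s a) t + c t * deriv (fun s => z s a) t = ∑ i, M t a i * z t i) →
    (∀ a, y t₀ a = z t₀ a ∧ deriv (fun s => y s a) t₀ = deriv (fun s => z s a) t₀) →
    ∀ a, ∀ t ∈ Set.uIcc t₀ t₁, y t a = z t a

/-- An exact switch: near the slow limit, some parameters send the identity exactly to a positive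
multiple of the target, measured by `Z + diag θ * Z'` at the end. -/
def ExactPulse : Prop := ∀ (ι : Type) [Fintype ι] (D : ι → ℕ) (N : ℕ)
  (B : ∀ l, Fin N → Matrix (Fin (D l)) (Fin (D l)) ℝ)
  (T : ∀ l, Matrix (Fin (D l)) (Fin (D l)) ℝ) (ρ : ℝ)
  (σ : (∀ l, Matrix (Fin (D l)) (Fin (D l)) ℝ) → Fin N → ℝ) (w : ℝ → ℝ) (c₀ : ι → ℝ) (θmax : ℝ),
  0 < ρ → (∀ l, (T l).det = 1) → (∀ l, 0 < c₀ l) →
  Continuous w → (∀ s, s ≤ 0 ∨ 1 ≤ s → w s = 0) → (∫ s in (0 : ℝ)..1, w s) = 1 →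
  (∀ i, ContinuousOn (fun X => σ X i) {X | ∀ l a b, |X l a b - T l a b| ≤ ρ}) →
  (∀ X, (∀ l a b, |X l a b - T l a b| ≤ ρ) → ∀ l, ∃ c : ℝ, 0 < c ∧
    expProd (fun i => σ X i • B l i) = c • X l) →
  ∃ R : ℝ, 0 < R ∧ ∀ δ > 0, ∃ η > 0, ∀ (ε : ℝ) (c : ι → ℝ → ℝ)
    (K : ∀ l, (Fin N → ℝ) → ℝ → Matrix (Fin (D l)) (Fin (D l)) ℝ)
    (V0 : ∀ l, Matrix (Fin (D l)) (Fin (D l)) ℝ) (θ : ∀ l, Fin (D l) → ℝ),
    0 < ε → ε ≤ η → (∀ l, Continuous (c l)) →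
    (∀ l, Continuous fun p : (Fin N → ℝ) × ℝ => K l p.1 p.2) →
    (∀ l, ∀ s ∈ Set.Icc 0 ((N : ℝ) / ε), |c l s - c₀ l| ≤ η) →
    (∀ l (α : Fin N → ℝ), (∀ i, |α i| ≤ R) → ∀ s ∈ Set.Icc 0 (N : ℝ), ∀ a b,
      |K l α s a b - c₀ l * ∑ i, α i * w (s - i) * B l i a b| ≤ η) →
    (∀ l a b, |V0 l a b| ≤ η) → (∀ l a, 0 ≤ θ l a ∧ θ l a ≤ θmax) →
    ∃ α : Fin N → ℝ, (∀ i, |α i| ≤ R) ∧
      ∀ Z : ∀ l, ℝ → Matrix (Fin (D l)) (Fin (D l)) ℝ,
        (∀ l a b, ContDiff ℝ 2 fun s => Z l s a b) →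
        (∀ l a b, Z l 0 a b = (if a = b then 1 else 0) ∧ deriv (fun s => Z l s a b) 0 = V0 l a b) →
        (∀ l a b, ∀ s ∈ Set.Icc 0 ((N : ℝ) / ε),
          deriv (deriv fun s => Z l s a b) s + c l s * deriv (fun s => Z l s a b) s
            = ε * ∑ i, K l α (ε * s) a i * Z l s i b) →
        ∀ l, ∃ κ : ℝ, R⁻¹ ≤ κ ∧ κ ≤ R ∧ ∀ a b,
          Z l ((N : ℝ) / ε) a b + θ l a * deriv (fun s => Z l s a b) ((N : ℝ) / ε)
              = κ * T l a b ∧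
            |deriv (fun s => Z l s a b) ((N : ℝ) / ε)| ≤ δ

/-- The final statement. -/
def Final : Prop := ∃ n k : ℕ, 3 ≤ n ∧ 1 ≤ k ∧ YauCounterexample n k

end Vale.Agent.P225.Full.Spec
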