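import Vale.Agent.P225.Profiles
import Vale.Agent.P225.Full.Spec

/-! # The profiles of the counterexample have nonnegative Ricci curvature -/

namespace Vale.Agent.P225.Full

open Real Matrix Filter Topology

/-- `p = psi + m/d tau`, `q = psi - tau/(2d)`, with `d = 2m+1`. -/
noncomputable def bergerProfile {n : ℕ} (m : ℕ) (pinf t0 : ℝ) (τ : ℝ → ℝ)
    (J : ℝ → Matrix (Fin n) (Fin n) ℝ) : Profile n where
  p t := Prof.psi pinf t0 t + m / (2 * m + 1) * τ t
  q t := Prof.psi pinf t0 t - τ t / (2 * (2 * m + 1))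
  J := J

/-- The limit of `psi`: the horizontal radius squared at squashing `tB` is `sB`. -/
noncomputable def pinfC : ℝ := (log Spec.sB + log Spec.tB / 33) / 2

variable {n : ℕ} {m : ℕ} {pinf t0 : ℝ} {τ : ℝ → ℝ} {J : ℝ → Matrix (Fin n) (Fin n) ℝ}

theorem differentiable_and_deriv (hτ : ContDiff ℝ (⊤ : ℕ∞) τ) :
    (∀ t, HasDerivAt τ (deriv τ t) t) ∧ ∀ t, HasDerivAt (deriv τ) (deriv (deriv τ) t) t :=
  ⟨fun _ => (contDiff_infty_iff_deriv.1 hτ).1.differentiableAt.hasDerivAt,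
    fun _ => (contDiff_infty_iff_deriv.1 (contDiff_infty_iff_deriv.1 hτ).2).1.differentiableAt.hasDerivAt⟩

theorem bergerProfile_adm (ht0 : 0 < t0) (hτ : ContDiff ℝ (⊤ : ℕ∞) τ) (hJ : ∀ t, IsCS (J t))
    (hflat : ∀ t ≤ 0, τ t = 0)
    (hloc : ∀ t, (∀ᶠ s in nhds t, J s = J t) ∨ (∀ᶠ s in nhds t, τ s = 0)) :
    (bergerProfile m pinf t0 τ J).Adm where
  smooth_p := (Prof.contDiff_psi ht0).add (contDiff_const.mul hτ)
  smooth_q := (Prof.contDiff_psi ht0).sub (hτ.div_const _)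
  cs := hJ
  flat t ht := by simp [bergerProfile, Prof.psi_of_nonpos ht, hflat t ht]
  local_J t := (hloc t).imp id fun h => h.mono fun s hs => by simp [bergerProfile, hs]

theorem bergerProfile_derivs (ht0 : 0 < t0) (hτ : ContDiff ℝ (⊤ : ℕ∞) τ) :
    deriv (bergerProfile m pinf t0 τ J).p =
        (fun t => -Prof.sig pinf t0 t + m / (2 * m + 1) * deriv τ t) ∧
      deriv (bergerProfile m pinf t0 τ J).q =
        (fun t => -Prof.sig pinf t0 t - deriv τ t / (2 * (2 * m + 1))) := by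
  obtain ⟨h1, -⟩ := differentiable_and_deriv hτ
  exact ⟨funext fun t => ((Prof.hasDerivAt_psi ht0 t).add ((h1 t).const_mul _)).deriv,
    funext fun t => ((Prof.hasDerivAt_psi ht0 t).sub ((h1 t).div_const _)).deriv⟩

theorem bergerProfile_drift (ht0 : 0 < t0) (hτ : ContDiff ℝ (⊤ : ℕ∞) τ) (t : ℝ) :
    (bergerProfile m pinf t0 τ J).drift m t = 2 * m - (2 * m + 1) * Prof.sig pinf t0 t := by
  obtain ⟨hp, hq⟩ := bergerProfile_derivs (m := m) (pinf := pinf) (J := J) ht0 hτ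
  rw [Profile.drift, hp, hq]
  field_simp
  ring

theorem bergerProfile_terms (hp : pinf ≤ 0) (ht0 : 0 < t0) (hτ : ContDiff ℝ (⊤ : ℕ∞) τ) (t : ℝ) :
    ∃ s', -(7 / (6 * t0)) * Prof.sig pinf t0 t ≤ s' ∧
      (bergerProfile m pinf t0 τ J).rrTerm m t =
        Prof.rrE m (Prof.sig pinf t0 t) s' (deriv τ t) ∧
      (bergerProfile m pinf t0 τ J).fibTerm m t =
        Prof.fibE m (Prof.psi pinf t0 t) (Prof.sig pinf t0 t) s' (τ t) (deriv τ t) (deriv (deriv τ) t) ∧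
      (bergerProfile m pinf t0 τ J).horTerm m t =
        Prof.horE m (Prof.psi pinf t0 t) (Prof.sig pinf t0 t) s' (τ t) (deriv τ t) (deriv (deriv τ) t) := by
  obtain ⟨-, h2⟩ := differentiable_and_deriv hτ
  obtain ⟨s', hs, hs'⟩ := Prof.exists_deriv_sig hp ht0 t
  obtain ⟨ep, eq⟩ := bergerProfile_derivs (m := m) (pinf := pinf) (J := J) ht0 hτ
  have e1 : exp (2 * (bergerProfile m pinf t0 τ J).p t - 4 * (bergerProfile m pinf t0 τ J).q t) =
      exp (-2 * Prof.psi pinf t0 t) * exp (2 * (m + 1) / (2 * m + 1) * τ t) := by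
    rw [← exp_add]
    congr 1
    simp only [bergerProfile]
    field_simp
    ring
  have e2 : exp (-2 * (bergerProfile m pinf t0 τ J).q t) =
      exp (-2 * Prof.psi pinf t0 t) * exp (τ t / (2 * m + 1)) := by
    rw [← exp_add]
    congr 1
    simp only [bergerProfile]
    field_simp
    ring
  have e3 : exp (-2 * Prof.psi pinf t0 t) * exp (τ t / (2 * m + 1)) * exp (τ t) =
      exp (-2 * Prof.psi pinf t0 t) * exp (2 * (m + 1) / (2 * m + 1) * τ t) := by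
    rw [← exp_add, ← exp_add, ← exp_add]
    congr 1
    field_simp
    ring
  have ep2 : deriv (deriv (bergerProfile m pinf t0 τ J).p) t = -s' + m / (2 * m + 1) * deriv (deriv τ) t := by
    rw [ep]; exact (hs.neg.add ((h2 t).const_mul _)).deriv
  have eq2 : deriv (deriv (bergerProfile m pinf t0 τ J).q) t = -s' - deriv (deriv τ) t / (2 * (2 * m + 1)) := by
    rw [eq]; exact (hs.neg.sub ((h2 t).div_const _)).deriv
  refine ⟨s', hs', ?_, ?_, ?_⟩
  · rw [Profile.rrTerm, ep2, eq2, ep, eq, Prof.rrE]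
    field_simp
    ring
  · rw [Profile.fibTerm, ep2, e1, ep, eq, Prof.fibE]
    ring
  · rw [Profile.horTerm, eq2, e1, e2, ep, eq, Prof.horE, ← e3]
    ring

/-- Nonnegative Ricci terms for a slow schedule. -/
theorem exists_ricci_profile {m : ℕ} (hm : 1 ≤ m) {pinf : ℝ} (hp : pinf < 0) {x0 x1 : ℝ} (hx : x0 ≤ x1)
    (hf : ∀ x ∈ Set.Icc x0 x1, exp (2 * pinf) < exp (2 * (m + 1) / (2 * m + 1) * x))
    (hh : ∀ x ∈ Set.Icc x0 x1,
      exp (2 * pinf) < exp (x / (2 * m + 1)) * (2 * m + 2 - 2 * exp x) / (2 * m)) :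
    ∃ t0 t1 δ K : ℝ, 0 < t0 ∧ 1 ≤ t1 ∧ 0 < δ ∧ 0 < K ∧
      ∀ {n : ℕ} (J : ℝ → Matrix (Fin n) (Fin n) ℝ) (τ : ℝ → ℝ), ContDiff ℝ (⊤ : ℕ∞) τ →
        (∀ t < t1, τ t = 0) →
        (∀ t, t1 ≤ t → τ t ∈ Set.Icc x0 x1 ∧ |deriv τ t| ≤ δ ∧ |deriv (deriv τ) t| ≤ δ ∧
          deriv τ t ^ 2 ≤ K * t ^ (-(7 / 6) : ℝ)) →
        ∀ t, 0 ≤ (bergerProfile m pinf t0 τ J).rrTerm m t ∧
          0 ≤ (bergerProfile m pinf t0 τ J).fibTerm m t ∧
          0 ≤ (bergerProfile m pinf t0 τ J).horTerm m t := by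
  obtain ⟨t0, t1, δ, K, h0, h1, hδ, hK, H⟩ := Prof.exists_margins hm hp hx hf hh
  refine ⟨t0, t1, δ, K, h0, h1, hδ, hK, fun J τ hτ hearly hlate t => ?_⟩
  obtain ⟨s', hs', e1, e2, e3⟩ := bergerProfile_terms (m := m) (J := J) hp.le h0 hτ t
  rw [e1, e2, e3]
  refine H t s' _ _ _ hs' (fun ht => ?_) fun ht => hlate t ht
  have z0 : ∀ x < t1, deriv τ x = 0 := fun x hx' => by
    rw [EventuallyEq.deriv_eq ((eventually_lt_nhds hx').mono hearly : τ =ᶠ[𝓝 x] fun _ => 0)]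
    exact deriv_const _ _
  refine ⟨hearly t ht, z0 t ht, ?_⟩
  rw [EventuallyEq.deriv_eq ((eventually_lt_nhds ht).mono z0 : deriv τ =ᶠ[𝓝 t] fun _ => 0)]
  exact deriv_const _ _

/-- The parameters of the counterexample satisfy the margins. -/
theorem margins_C : pinfC < 0 ∧ log (9999 / 10000 : ℝ) ≤ log (10501 / 10000 : ℝ) ∧
    (∀ x ∈ Set.Icc (log (9999 / 10000 : ℝ)) (log (10501 / 10000 : ℝ)),
      exp (2 * pinfC) < exp (2 * ((Spec.mC : ℝ) + 1) / (2 * Spec.mC + 1) * x)) ∧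
    ∀ x ∈ Set.Icc (log (9999 / 10000 : ℝ)) (log (10501 / 10000 : ℝ)),
      exp (2 * pinfC) < exp (x / (2 * Spec.mC + 1)) * (2 * Spec.mC + 2 - 2 * exp x) / (2 * Spec.mC) := by
  have hm : (Spec.mC : ℝ) = 16 := by norm_num [Spec.mC]
  have hq : (Spec.tB : ℝ) ^ (1 / 33 : ℝ) ≤ 1 + 1 / 33 * (1 / 20) := by
    have := rpow_one_add_le_one_add_mul_self (s := (1 : ℝ) / 20) (p := 1 / 33) (by norm_num) (by norm_num)
      (by norm_num)
    calc (Spec.tB : ℝ) ^ (1 / 33 : ℝ) = (1 + 1 / 20 : ℝ) ^ (1 / 33 : ℝ) := by norm_num [Spec.tB]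
      _ ≤ _ := by linarith
  have hE : exp (2 * pinfC) = Spec.sB * Spec.tB ^ (1 / 33 : ℝ) := by
    rw [rpow_def_of_pos (by norm_num [Spec.tB]), ← exp_log (show 0 < Spec.sB by norm_num [Spec.sB]),
      ← exp_add]
    congr 1; rw [pinfC]; ring
  have hlt : exp (2 * pinfC) < 998345 / 1000000 := by
    rw [hE, Spec.sB]; linarith
  refine ⟨?_, log_le_log (by norm_num) (by norm_num), fun x hx => ?_, fun x hx => ?_⟩
  · have := exp_lt_one_iff.1 (hlt.trans (by norm_num))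
    linarith
  · refine hlt.trans_le ?_
    rw [hm]
    rcases le_total 0 x with h | h
    · exact le_trans (by norm_num) (one_le_exp (by positivity))
    · have h2 : exp (2 * x) ≤ exp (2 * ((16 : ℝ) + 1) / (2 * 16 + 1) * x) := exp_le_exp.2 (by nlinarith)
      refine le_trans ?_ h2
      rw [two_mul, exp_add]
      have := (exp_log (show (0 : ℝ) < 9999 / 10000 by norm_num)).symm.trans_le (exp_le_exp.2 hx.1)
      nlinarith
  · obtain ⟨hx0, hx1⟩ := hx
    have hT1 : exp x ≤ 10501 / 10000 := (exp_le_exp.2 hx1).trans_eq (exp_log (by norm_num))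
    rw [lt_div_iff₀ (by rw [hm]; norm_num)]
    rcases le_total 0 x with h | h
    · have key := Prof.hor_margin (m := Spec.mC) (by norm_num [Spec.mC]) (one_le_exp h) hT1
        (by norm_num [Spec.mC])
      rw [← exp_mul, hm] at key
      rw [hE, hm]
      have hpos : (0 : ℝ) < Spec.tB ^ (1 / 33 : ℝ) := rpow_pos_of_pos (by norm_num [Spec.tB]) _
      calc Spec.sB * Spec.tB ^ (1 / 33 : ℝ) * (2 * 16)
          < (2 * 16 + 2 - 2 * (10501 / 10000)) * Spec.tB ^ (1 / 33 : ℝ) := by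
            rw [mul_right_comm]
            exact mul_lt_mul_of_pos_right (by norm_num [Spec.sB]) hpos
        _ ≤ (2 * 16 + 2 - 2 * (10501 / 10000)) * (10501 / 10000 : ℝ) ^ (1 / (2 * 16 + 1) : ℝ) := by
            rw [show (1 / (2 * 16 + 1) : ℝ) = 1 / 33 by norm_num]
            exact mul_le_mul_of_nonneg_left (rpow_le_rpow (by norm_num [Spec.tB]) (by norm_num [Spec.tB])
              (by norm_num)) (by norm_num)
        _ ≤ (2 * 16 + 2 - 2 * exp x) * exp (x * (1 / (2 * 16 + 1))) := key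
        _ = _ := by rw [mul_one_div]; ring
    · rw [hm]
      have h0 := (exp_log (show (0 : ℝ) < 9999 / 10000 by norm_num)).symm.trans_le (exp_le_exp.2 hx0)
      have h3 : exp x ≤ exp (x / (2 * 16 + 1)) := exp_le_exp.2 (by rw [le_div_iff₀ (by norm_num)]; linarith)
      have h4 : exp x ≤ 1 := exp_le_one_iff.2 h
      nlinarith

theorem horPart_nonneg {J : Matrix (Fin n) (Fin n) ℝ} (hJ : IsCS J) {x : Coord n} (hx : x ≠ 0)
    (v : Coord n) : 0 ≤ ∑ i, v i ^ 2 - radPart x v ^ 2 - fibPart J x v ^ 2 := by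
  have hr2 : rad x ^ 2 = ∑ i, x i ^ 2 := Real.sq_sqrt (Finset.sum_nonneg fun i _ => sq_nonneg _)
  have hr : rad x ≠ 0 := by
    intro h
    rw [h, zero_pow two_ne_zero, eq_comm,
      Finset.sum_eq_zero_iff_of_nonneg fun i _ => sq_nonneg _] at hr2
    exact hx (funext fun i => pow_eq_zero_iff two_ne_zero |>.1 (hr2 i (Finset.mem_univ i)))
  set y := J *ᵥ x with hy
  have hdot : ∑ i, x i * y i = 0 := by
    have h : x ⬝ᵥ (J *ᵥ x) = -(x ⬝ᵥ (J *ᵥ x)) := by
      conv_lhs => rw [dotProduct_mulVec, ← mulVec_transpose, hJ.1, neg_mulVec, neg_dotProduct, dotProduct_comm]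
    simp only [dotProduct, ← hy] at h
    linarith
  have hyy : ∑ i, y i ^ 2 = ∑ i, x i ^ 2 := by
    have h : (J *ᵥ x) ⬝ᵥ (J *ᵥ x) = x ⬝ᵥ x := by
      rw [dotProduct_mulVec, ← mulVec_transpose, hJ.1, neg_mulVec, mulVec_mulVec, hJ.2, neg_mulVec,
        one_mulVec, neg_neg]
    simpa [dotProduct, ← hy, sq] using h
  have key : 0 ≤ ∑ i, (v i - radPart x v * (x i / rad x) - fibPart J x v * (y i / rad x)) ^ 2 :=
    Finset.sum_nonneg fun i _ => sq_nonneg _
  have e : ∑ i, (v i - radPart x v * (x i / rad x) - fibPart J x v * (y i / rad x)) ^ 2 =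
      ∑ i, v i ^ 2 + radPart x v ^ 2 / rad x ^ 2 * ∑ i, x i ^ 2 + fibPart J x v ^ 2 / rad x ^ 2 * ∑ i, y i ^ 2
        - 2 * radPart x v / rad x * ∑ i, x i * v i - 2 * fibPart J x v / rad x * ∑ i, y i * v i
        + 2 * radPart x v * fibPart J x v / rad x ^ 2 * ∑ i, x i * y i := by
    simp only [Finset.mul_sum, ← Finset.sum_add_distrib, ← Finset.sum_sub_distrib]
    exact Finset.sum_congr rfl fun i _ => by ring
  rw [e, hdot, hyy, ← hr2] at key
  have ea : ∑ i, x i * v i = radPart x v * rad x := by rw [radPart, div_mul_cancel₀ _ hr]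
  have eb : ∑ i, y i * v i = fibPart J x v * rad x := by rw [fibPart, div_mul_cancel₀ _ hr]
  have h1 : ∀ X : ℝ, X ^ 2 / rad x ^ 2 * rad x ^ 2 = X ^ 2 := fun X => div_mul_cancel₀ _ (pow_ne_zero 2 hr)
  have h2 : ∀ X : ℝ, 2 * X / rad x * (X * rad x) = 2 * X ^ 2 := fun X => by field_simp
  rw [ea, eb, h1, h1, h2, h2, mul_zero] at key
  linarith

/-- Nonnegative Ricci terms imply nonnegative Ricci curvature. -/
theorem isNonnegRicci_of_terms (hC : Spec.Curvature) {m : ℕ} (hm : 1 ≤ m) {P : Profile (2 * m + 2)}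
    (hP : P.Adm) (h : ∀ t, 0 ≤ P.rrTerm m t ∧ 0 ≤ P.fibTerm m t ∧ 0 ≤ P.horTerm m t) :
    IsNonnegRicci Set.univ P.metric := by
  obtain ⟨hs, hpd, h0, hx⟩ := hC m P hm hP
  refine ⟨fun i j => (hs i j).contDiffOn, fun x _ => hpd x, fun x _ v => ?_⟩
  by_cases hx0 : x = 0
  · subst hx0; exact Finset.sum_nonneg' fun i => Finset.sum_nonneg' fun j => (h0 v i j).ge
  rw [hx x hx0 v]
  obtain ⟨hr, hf, hh⟩ := h (logRad x)
  refine div_nonneg (add_nonneg (add_nonneg (mul_nonneg hr (sq_nonneg _))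
    (mul_nonneg (mul_nonneg hf (exp_pos _).le) (sq_nonneg _)))
    (mul_nonneg (mul_nonneg hh (exp_pos _).le) ?_)) (sq_nonneg _)
  exact horPart_nonneg (hP.cs _) hx0 v

/-- The profiles used by the counterexample. -/
theorem exists_ricci_profile_C :
    ∃ t0 t1 δ K : ℝ, 0 < t0 ∧ 1 ≤ t1 ∧ 0 < δ ∧ 0 < K ∧
      ∀ {n : ℕ} (J : ℝ → Matrix (Fin n) (Fin n) ℝ) (τ : ℝ → ℝ), ContDiff ℝ (⊤ : ℕ∞) τ →
        (∀ t < t1, τ t = 0) →
        (∀ t, t1 ≤ t → τ t ∈ Set.Icc (log (9999 / 10000 : ℝ)) (log (10501 / 10000 : ℝ)) ∧ |deriv τ t| ≤ δ ∧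
          |deriv (deriv τ) t| ≤ δ ∧ deriv τ t ^ 2 ≤ K * t ^ (-(7 / 6) : ℝ)) →
        ∀ t, 0 ≤ (bergerProfile Spec.mC pinfC t0 τ J).rrTerm Spec.mC t ∧
          0 ≤ (bergerProfile Spec.mC pinfC t0 τ J).fibTerm Spec.mC t ∧
          0 ≤ (bergerProfile Spec.mC pinfC t0 τ J).horTerm Spec.mC t :=
  exists_ricci_profile (by norm_num [Spec.mC]) margins_C.1 margins_C.2.1 margins_C.2.2.1 margins_C.2.2.2

/-- The limit of `exp (-2 q)` at constant squashing `tau`. -/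
theorem tendsto_psi_C {t0 : ℝ} (ht0 : 0 < t0) :
    Tendsto (fun t => exp (-2 * Prof.psi pinfC t0 t)) atTop (𝓝 (exp (-2 * pinfC))) :=
  ((continuous_exp.tendsto _).comp ((Prof.tendsto_psi ht0).const_mul (-2)))

/-- At the Berger dwell the horizontal radius squared tends to `sB`. -/
theorem sB_eq : exp (2 * pinfC) * exp (-(log Spec.tB / (2 * Spec.mC + 1))) = Spec.sB := by
  rw [← exp_add, ← exp_log (show 0 < Spec.sB by norm_num [Spec.sB])]
  congr 1
  simp only [pinfC, Spec.mC]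
  norm_num
  ring

end Vale.Agent.P225.Full
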