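import Vale.Agent.P225.Full.Spec

/-! # Degree and charge of monomials: the eigenvalues of the standard rotation -/

noncomputable section

namespace Vale.Agent.P225.Full.Shell

open MvPolynomial Finset Module

variable {m : ℕ}

/-- Holomorphic and antiholomorphic variables. -/
abbrev Var (m : ℕ) : Type := Fin (m + 1) ⊕ Fin (m + 1)

/-- Complex polynomials in the real coordinates. -/
abbrev CPoly (m : ℕ) : Type := MvPolynomial (Fin (2 * m + 2)) ℂ

/-- Complex polynomials in the complex coordinates. -/
abbrev ZPoly (m : ℕ) : Type := MvPolynomial (Var m) ℂ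

/-- The real part coordinate of a pair. -/
def evenIx (a : Fin (m + 1)) : Fin (2 * m + 2) := ⟨2 * a.val, by omega⟩

/-- The imaginary part coordinate of a pair. -/
def oddIx (a : Fin (m + 1)) : Fin (2 * m + 2) := ⟨2 * a.val + 1, by omega⟩

/-- The pair of a coordinate. -/
def pairIx (i : Fin (2 * m + 2)) : Fin (m + 1) := ⟨i.val / 2, by omega⟩

/-- The other coordinate of a pair. -/
def mate (i : Fin (2 * m + 2)) : Fin (2 * m + 2) :=
  if i.val % 2 = 0 then oddIx (pairIx i) else evenIx (pairIx i)

lemma cases_ix (i : Fin (2 * m + 2)) :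
    (i.val % 2 = 0 ∧ i = evenIx (pairIx i)) ∨ (i.val % 2 = 1 ∧ i = oddIx (pairIx i)) := by
  rcases Nat.mod_two_eq_zero_or_one i.val with h | h
  · exact Or.inl ⟨h, Fin.ext (by simp only [evenIx, pairIx]; omega)⟩
  · exact Or.inr ⟨h, Fin.ext (by simp only [oddIx, pairIx]; omega)⟩

lemma pairIx_even (a : Fin (m + 1)) : pairIx (evenIx a) = a :=
  Fin.ext (by simp only [evenIx, pairIx]; omega)

lemma pairIx_odd (a : Fin (m + 1)) : pairIx (oddIx a) = a :=
  Fin.ext (by simp only [oddIx, pairIx]; omega)

/-- The complex coordinates as linear forms. -/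
def zForm : Var m → CPoly m :=
  Sum.elim (fun a => X (evenIx a) + C Complex.I * X (oddIx a))
    (fun a => X (evenIx a) - C Complex.I * X (oddIx a))

/-- The real coordinates as linear forms. -/
def xForm (i : Fin (2 * m + 2)) : ZPoly m :=
  if i.val % 2 = 0 then C (1 / 2) * (X (Sum.inl (pairIx i)) + X (Sum.inr (pairIx i)))
  else C (-(Complex.I) / 2) * (X (Sum.inl (pairIx i)) - X (Sum.inr (pairIx i)))

lemma xForm_even (a : Fin (m + 1)) :
    xForm (evenIx a) = C (1 / 2) * (X (Sum.inl a) + X (Sum.inr a)) := by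
  rw [xForm, pairIx_even, if_pos]; simp [evenIx]

lemma xForm_odd (a : Fin (m + 1)) :
    xForm (oddIx a) = C (-(Complex.I) / 2) * (X (Sum.inl a) - X (Sum.inr a)) := by
  rw [xForm, pairIx_odd, if_neg]; simp [oddIx]

/-- The change of variables. -/
def chart (m : ℕ) : ZPoly m ≃ₐ[ℂ] CPoly m :=
  AlgEquiv.ofAlgHom (aeval zForm) (aeval xForm)
    (by
      refine MvPolynomial.algHom_ext fun i => ?_
      have hI : (C (-(Complex.I) / 2) : CPoly m) * (2 * C Complex.I) = 1 := by
        rw [show (2 : CPoly m) = C 2 from (map_ofNat C 2).symm, ← map_mul, ← map_mul,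
          show -(Complex.I) / 2 * (2 * Complex.I) = -(Complex.I * Complex.I) by ring,
          Complex.I_mul_I, neg_neg, map_one]
      have h2 : (C (1 / 2) : CPoly m) * 2 = 1 := by
        rw [show (2 : CPoly m) = C 2 from (map_ofNat C 2).symm, ← map_mul]; norm_num
      rcases cases_ix i with ⟨-, h⟩ | ⟨-, h⟩ <;> rw [h]
      · simp only [AlgHom.comp_apply, aeval_X, xForm_even, map_mul, map_add, aeval_C, zForm,
          Sum.elim_inl, Sum.elim_inr, AlgHom.id_apply, MvPolynomial.algebraMap_eq]
        linear_combination X (evenIx (pairIx i)) * h2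
      · simp only [AlgHom.comp_apply, aeval_X, xForm_odd, map_mul, map_sub, aeval_C, zForm,
          Sum.elim_inl, Sum.elim_inr, AlgHom.id_apply, MvPolynomial.algebraMap_eq]
        linear_combination X (oddIx (pairIx i)) * hI)
    (by
      refine MvPolynomial.algHom_ext fun v => ?_
      have hI : (C Complex.I : ZPoly m) * C (-(Complex.I) / 2) = C (1 / 2) := by
        rw [← map_mul, show Complex.I * (-(Complex.I) / 2) = -(Complex.I * Complex.I) / 2 by ring,
          Complex.I_mul_I]; norm_num
      have h2 : (C (1 / 2) : ZPoly m) * 2 = 1 := by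
        rw [show (2 : ZPoly m) = C 2 from (map_ofNat C 2).symm, ← map_mul]; norm_num
      rcases v with a | a
      · simp only [AlgHom.comp_apply, aeval_X, zForm, Sum.elim_inl, map_add, map_mul, aeval_C,
          xForm_even, xForm_odd, AlgHom.id_apply, MvPolynomial.algebraMap_eq]
        linear_combination (X (Sum.inl a) - X (Sum.inr a)) * hI + X (Sum.inl a) * h2
      · simp only [AlgHom.comp_apply, aeval_X, zForm, Sum.elim_inr, map_sub, map_mul, aeval_C,
          xForm_even, xForm_odd, AlgHom.id_apply, MvPolynomial.algebraMap_eq]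
        linear_combination -(X (Sum.inl a) - X (Sum.inr a)) * hI + X (Sum.inr a) * h2)

lemma chart_apply (f : ZPoly m) : chart m f = aeval zForm f := rfl

lemma chart_symm_apply (f : CPoly m) : (chart m).symm f = aeval xForm f := rfl

lemma zForm_hom (v : Var m) : (zForm v).IsHomogeneous 1 := by
  rcases v with a | a
  · exact (isHomogeneous_X ℂ _).add ((isHomogeneous_X ℂ _).C_mul _)
  · exact (isHomogeneous_X ℂ _).sub ((isHomogeneous_X ℂ _).C_mul _)

lemma xForm_hom (i : Fin (2 * m + 2)) : (xForm i).IsHomogeneous 1 := by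
  unfold xForm
  split_ifs
  · exact ((isHomogeneous_X ℂ _).add (isHomogeneous_X ℂ _)).C_mul _
  · exact ((isHomogeneous_X ℂ _).sub (isHomogeneous_X ℂ _)).C_mul _

lemma chart_hom {f : ZPoly m} {l : ℕ} : (chart m f).IsHomogeneous l ↔ f.IsHomogeneous l := by
  refine ⟨fun h => ?_, fun h => ?_⟩
  · have := h.aeval xForm xForm_hom
    rwa [← chart_symm_apply, AlgEquiv.symm_apply_apply, one_mul] at this
  · have := h.aeval zForm zForm_hom
    rwa [one_mul] at this

/-- The image of a coordinate under the rotation field. -/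
def rotForm (i : Fin (2 * m + 2)) : CPoly m :=
  if i.val % 2 = 0 then -X (mate i) else X (mate i)

/-- The rotation field on complex polynomials. -/
def rotC (f : CPoly m) : CPoly m := ∑ i, rotForm i * pderiv i f

lemma rotC_add (f g : CPoly m) : rotC (f + g) = rotC f + rotC g := by
  simp [rotC, mul_add, sum_add_distrib]

lemma rotC_mul (f g : CPoly m) : rotC (f * g) = rotC f * g + f * rotC g := by
  simp only [rotC, pderiv_mul, sum_mul, mul_sum, ← sum_add_distrib]
  exact sum_congr rfl fun i _ => by ring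

lemma rotC_smul (c : ℂ) (f : CPoly m) : rotC (c • f) = c • rotC f := by
  simp [rotC, smul_sum]

lemma rotC_C (c : ℂ) : rotC (C c : CPoly m) = 0 := by simp [rotC]

lemma rotC_X (i : Fin (2 * m + 2)) : rotC (X i) = rotForm i := by
  simp [rotC, pderiv_X, Pi.single_apply]

lemma rotC_zForm (v : Var m) : rotC (zForm v)
    = C (Sum.elim (fun _ => Complex.I) (fun _ => -Complex.I) v) * zForm v := by
  have he : ∀ a : Fin (m + 1), rotForm (evenIx a) = -X (oddIx a) := fun a => by
    rw [rotForm, mate, pairIx_even, if_pos, if_pos] <;> simp [evenIx]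
  have ho : ∀ a : Fin (m + 1), rotForm (oddIx a) = X (evenIx a) := fun a => by
    rw [rotForm, mate, pairIx_odd, if_neg, if_neg] <;> simp [oddIx] <;> omega
  have hII : (C Complex.I : CPoly m) * C Complex.I = -1 := by
    rw [← map_mul, Complex.I_mul_I, map_neg, map_one]
  rcases v with a | a
  · simp only [zForm, Sum.elim_inl, rotC_add, rotC_mul, rotC_C, rotC_X, he, ho]
    linear_combination (-X (oddIx a)) * hII
  · simp only [zForm, Sum.elim_inr, sub_eq_add_neg, rotC_add, map_neg]
    rw [show -(C Complex.I * X (oddIx a) : CPoly m) = C (-Complex.I) * X (oddIx a) by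
      rw [map_neg, neg_mul]]
    rw [rotC_mul, rotC_C, rotC_X, rotC_X, he, ho, map_neg]
    linear_combination (-X (oddIx a)) * hII

/-- Difference of the two degrees of a monomial. -/
def chg (d : Var m →₀ ℕ) : ℤ := ∑ a, (d (Sum.inl a) : ℤ) - ∑ a, (d (Sum.inr a) : ℤ)

lemma chart_monomial (d : Var m →₀ ℕ) (c : ℂ) :
    rotC (chart m (monomial d c)) = (Complex.I * (chg d : ℂ)) • chart m (monomial d c) := by
  induction d using Finsupp.induction generalizing c with
  | zero => simp [chart_apply, rotC_C, chg]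
  | single_add v e d hv he ih =>
    have hm : (monomial (Finsupp.single v e + d) c : ZPoly m) = X v ^ e * monomial d c := by
      rw [X_pow_eq_monomial, monomial_mul, one_mul]
    have hp : ∀ k : ℕ, rotC (zForm v ^ k)
        = C ((k : ℂ) * Sum.elim (fun _ => Complex.I) (fun _ => -Complex.I) v) * zForm v ^ k := by
      intro k
      induction k with
      | zero => simp only [pow_zero, mul_one, Nat.cast_zero, zero_mul, map_zero]
                simpa using rotC_C (m := m) 1
      | succ k ihk =>
        rw [pow_succ, rotC_mul, ihk, rotC_zForm, Nat.cast_succ, add_mul, one_mul, map_add]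
        ring
    have hc : (chg (Finsupp.single v e + d) : ℂ) * Complex.I
        = (e : ℂ) * Sum.elim (fun _ => Complex.I) (fun _ => -Complex.I) v
          + (chg d : ℂ) * Complex.I := by
      rcases v with a | a
      · simp [chg, Finsupp.add_apply, Finsupp.single_apply, Finset.sum_add_distrib]
        ring
      · simp [chg, Finsupp.add_apply, Finsupp.single_apply, Finset.sum_add_distrib]
        ring
    rw [hm, map_mul, map_pow, show chart m (X v) = zForm v by simp [chart_apply], rotC_mul, hp,
      ih, mul_comm Complex.I (chg (Finsupp.single v e + d) : ℂ), hc, smul_eq_C_mul, smul_eq_C_mul,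
      map_add, mul_comm Complex.I (chg d : ℂ)]
    ring

lemma rotC_sq_chart (f : ZPoly m) (d : Var m →₀ ℕ) :
    coeff d ((chart m).symm (rotC (rotC (chart m f)))) = -((chg d : ℂ) ^ 2) * coeff d f := by
  classical
  induction f using MvPolynomial.induction_on' with
  | monomial e c =>
    rw [chart_monomial, rotC_smul, chart_monomial, smul_smul, map_smul, AlgEquiv.symm_apply_apply,
      coeff_smul, coeff_monomial, smul_eq_mul]
    split_ifs with h
    · subst h
      linear_combination ((chg e : ℂ) ^ 2 * c) * Complex.I_mul_I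
    · simp
  | add p q hp hq =>
    simp only [map_add, rotC_add, coeff_add, hp, hq]
    ring

/-- Monomials of degree `l` whose charge has square `k²`. -/
def monos (m l : ℕ) (k : ℤ) : Finset (Var m →₀ ℕ) :=
  ((univ : Finset (Var m)).finsuppAntidiag l).filter fun d => chg d ^ 2 = k ^ 2

/-- The eigenvectors in the complex coordinates. -/
def eigC (m l : ℕ) (k : ℤ) : Submodule ℂ (CPoly m) :=
  (restrictSupport ℂ (monos m l k : Set (Var m →₀ ℕ))).map (chart m).toLinearMap

lemma mem_eigC {l : ℕ} {k : ℤ} {f : CPoly m} :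
    f ∈ eigC m l k ↔ f.IsHomogeneous l ∧ rotC (rotC f) = (-((k : ℂ) ^ 2)) • f := by
  obtain ⟨g, rfl⟩ := (chart m).surjective f
  rw [chart_hom]
  have hmem : chart m g ∈ eigC m l k ↔ ∀ d, coeff d g ≠ 0 → d ∈ monos m l k := by
    rw [eigC, Submodule.mem_map]
    constructor
    · rintro ⟨g', hg', h⟩ d hd
      have : g' = g := (chart m).injective h
      subst this
      exact (mem_restrictSupport_iff (R := ℂ)).1 hg' (mem_support_iff.2 hd)
    · exact fun h => ⟨g, (mem_restrictSupport_iff (R := ℂ)).2 fun d hd => h d (mem_support_iff.1 hd), rfl⟩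
  rw [hmem]
  have hdeg : ∀ d : Var m →₀ ℕ, d ∈ (univ : Finset (Var m)).finsuppAntidiag l ↔ d.degree = l := by
    intro d; simp [Finsupp.degree_eq_sum]
  constructor
  · intro h
    refine ⟨fun d hd => ?_, (chart m).symm.injective (MvPolynomial.ext _ _ fun d => ?_)⟩
    · rw [show Finsupp.weight (1 : Var m → ℕ) d = d.degree by rw [Finsupp.degree_eq_weight_one]; rfl]
      exact (hdeg d).1 (mem_filter.1 (h d hd)).1
    · rw [rotC_sq_chart, map_smul, AlgEquiv.symm_apply_apply, coeff_smul, smul_eq_mul]
      by_cases hd : coeff d g = 0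
      · simp [hd]
      · have := (mem_filter.1 (h d hd)).2
        congr 1
        rw [neg_inj]; exact_mod_cast this
  · intro ⟨hg, he⟩ d hd
    refine mem_filter.2 ⟨(hdeg d).2 ?_, ?_⟩
    · rw [show d.degree = Finsupp.weight (1 : Var m → ℕ) d by rw [Finsupp.degree_eq_weight_one]; rfl]; exact hg hd
    · have h := rotC_sq_chart g d
      rw [he, map_smul, AlgEquiv.symm_apply_apply, coeff_smul, smul_eq_mul] at h
      have := neg_inj.1 (mul_right_cancel₀ hd h)
      exact_mod_cast this.symm

lemma finrank_eigC (m l : ℕ) (k : ℤ) : finrank ℂ (eigC m l k) = (monos m l k).card := by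
  rw [eigC, LinearEquiv.finrank_eq ((Submodule.equivMapOfInjective (chart m).toLinearMap
    (chart m).injective _).symm), Module.finrank_eq_card_basis (basisRestrictSupport ℂ _)]
  exact Fintype.card_coe _

/-- Coefficients as complex polynomials. -/
def cast' (p : Poly (2 * m + 2)) : CPoly m := MvPolynomial.map Complex.ofRealHom p

lemma cast'_smul (c : ℝ) (p : Poly (2 * m + 2)) : cast' (c • p) = (c : ℂ) • cast' p := by
  simp [cast', smul_eq_C_mul]

lemma rotC_cast' (p : Poly (2 * m + 2)) :
    rotC (cast' p) = cast' (xiPoly (stdJ (2 * m + 2)) p) := by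
  have hx : xiPoly (stdJ (2 * m + 2)) p
      = ∑ i, ∑ j, stdJ (2 * m + 2) i j • (X j * pderiv i p) := by
    simp [xiPoly, LinearMap.sum_apply]
  have hrow : ∀ i : Fin (2 * m + 2), ∑ j, stdJ (2 * m + 2) i j • (X j * pderiv i p)
      = stdJ (2 * m + 2) i (mate i) • (X (mate i) * pderiv i p) := by
    intro i
    refine Fintype.sum_eq_single _ fun j hj => ?_
    have hz : stdJ (2 * m + 2) i j = 0 := by
      rw [Ne, Fin.ext_iff] at hj
      unfold mate at hj
      simp only [stdJ]
      split_ifs at hj ⊢ with a b c <;> first | rfl | (simp only [oddIx, evenIx, pairIx] at hj; omega)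
    rw [hz, zero_smul]
  simp only [hx, hrow, cast', map_sum, rotC]
  refine sum_congr rfl fun i _ => ?_
  rw [smul_eq_C_mul, map_mul, map_mul, map_C, map_X, ← pderiv_map, rotForm]
  have hv : stdJ (2 * m + 2) i (mate i) = if i.val % 2 = 0 then -1 else 1 := by
    unfold mate stdJ
    split_ifs <;> first | rfl | (simp only [oddIx, evenIx, pairIx] at *; omega)
  rw [hv]
  split_ifs <;> simp

/-- Eigenvectors of the squared rotation among homogeneous polynomials. -/
def eigR (m l : ℕ) (k : ℤ) : Submodule ℝ (Poly (2 * m + 2)) :=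
  Hom (2 * m + 2) l ⊓ LinearMap.ker
    ((xiPoly (stdJ (2 * m + 2))).comp (xiPoly (stdJ (2 * m + 2))) + ((k : ℝ) ^ 2) • LinearMap.id)

lemma mem_eigR {l : ℕ} {k : ℤ} {p : Poly (2 * m + 2)} : p ∈ eigR m l k ↔ p.IsHomogeneous l ∧
    xiPoly (stdJ (2 * m + 2)) (xiPoly (stdJ (2 * m + 2)) p) = (-((k : ℝ) ^ 2)) • p := by
  simp [eigR, add_eq_zero_iff_eq_neg]

/-- A complex polynomial from its real and imaginary parts. -/
def join (m : ℕ) : Poly (2 * m + 2) × Poly (2 * m + 2) →ₗ[ℝ] CPoly m where
  toFun p := cast' p.1 + Complex.I • cast' p.2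
  map_add' p q := by simp [cast', smul_add]; abel
  map_smul' c p := by
    simp only [Prod.smul_fst, Prod.smul_snd, cast'_smul, RingHom.id_apply, smul_add]
    rw [← Complex.coe_smul c (cast' p.1), ← Complex.coe_smul c (Complex.I • cast' p.2),
      smul_comm Complex.I]

lemma join_injective : Function.Injective (join m) := by
  refine (injective_iff_map_eq_zero _).2 fun p hp => ?_
  have h : ∀ d, coeff d p.1 = 0 ∧ coeff d p.2 = 0 := by
    intro d
    have := congrArg (coeff d) hp
    simpa [join, cast', coeff_map, Complex.ext_iff] using this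
  exact Prod.ext (MvPolynomial.ext _ _ fun d => by simpa using (h d).1)
    (MvPolynomial.ext _ _ fun d => by simpa using (h d).2)

lemma join_surjective : Function.Surjective (join m) := by
  intro f
  induction f using MvPolynomial.induction_on' with
  | monomial d c =>
    exact ⟨(monomial d c.re, monomial d c.im), by
      simp [join, cast', smul_monomial, ← map_add, mul_comm Complex.I, Complex.re_add_im]⟩
  | add f g hf hg =>
    obtain ⟨a, rfl⟩ := hf
    obtain ⟨b, rfl⟩ := hg
    exact ⟨a + b, map_add _ _ _⟩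

lemma join_mem {l : ℕ} {k : ℤ} {p : Poly (2 * m + 2) × Poly (2 * m + 2)} :
    join m p ∈ eigC m l k ↔ p ∈ (eigR m l k).prod (eigR m l k) := by
  rw [mem_eigC, Submodule.mem_prod, mem_eigR, mem_eigR]
  set R := xiPoly (stdJ (2 * m + 2))
  have he : rotC (rotC (join m p)) = join m (R (R p.1), R (R p.2)) := by
    simp only [join, LinearMap.coe_mk, AddHom.coe_mk, rotC_add, rotC_smul, rotC_cast', R]
  have hs : (-((k : ℂ) ^ 2)) • join m p = join m ((-((k : ℝ) ^ 2)) • p) := by
    rw [map_smul, ← Complex.coe_smul]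
    congr 1
    push_cast; rfl
  rw [he, hs, join_injective.eq_iff, Prod.ext_iff]
  have hh : (join m p).IsHomogeneous l ↔ p.1.IsHomogeneous l ∧ p.2.IsHomogeneous l := by
    have hc : ∀ d, coeff d (join m p) ≠ 0 ↔ (coeff d p.1 ≠ 0 ∨ coeff d p.2 ≠ 0) := fun d => by
      simp [join, cast', coeff_map, Complex.ext_iff]
      tauto
    exact ⟨fun h => ⟨fun d hd => h ((hc d).2 (Or.inl hd)), fun d hd => h ((hc d).2 (Or.inr hd))⟩,
      fun h d hd => ((hc d).1 hd).elim (fun a => h.1 a) fun b => h.2 b⟩
  simp only [hh, Prod.smul_fst, Prod.smul_snd]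
  tauto

instance finiteDimensional_eigR (l : ℕ) (k : ℤ) : FiniteDimensional ℝ (eigR m l k) :=
  Submodule.finiteDimensional_of_le inf_le_left

theorem finrank_eigR (m l : ℕ) (k : ℤ) : finrank ℝ (eigR m l k) = (monos m l k).card := by
  have h1 : (eigR m l k).prod (eigR m l k) = ((eigC m l k).restrictScalars ℝ).comap (join m) := by
    ext p; simp [join_mem]
  have h2 : finrank ℝ ((eigR m l k).prod (eigR m l k)) = finrank ℝ ((eigC m l k).restrictScalars ℝ) := by
    rw [h1]
    exact LinearEquiv.finrank_eq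
      ((LinearEquiv.ofBijective (join m) ⟨join_injective, join_surjective⟩).ofSubmodule'
        ((eigC m l k).restrictScalars ℝ))
  have h3 : finrank ℝ ((eigC m l k).restrictScalars ℝ) = finrank ℝ ℂ * finrank ℂ (eigC m l k) :=
    (Module.finrank_mul_finrank ℝ ℂ (eigC m l k)).symm
  have h4 : finrank ℝ ((eigR m l k).prod (eigR m l k))
      = finrank ℝ (eigR m l k) + finrank ℝ (eigR m l k) := by
    let e : (eigR m l k).prod (eigR m l k) ≃ₗ[ℝ] eigR m l k × eigR m l k :=
      { toFun := fun x => (⟨x.1.1, x.2.1⟩, ⟨x.1.2, x.2.2⟩)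
        invFun := fun x => ⟨(x.1.1, x.2.1), x.1.2, x.2.2⟩
        map_add' := fun _ _ => rfl
        map_smul' := fun _ _ => rfl
        left_inv := fun _ => rfl
        right_inv := fun _ => rfl }
    rw [LinearEquiv.finrank_eq e, Module.finrank_prod]
  rw [h3, h4, Complex.finrank_real_complex, finrank_eigC] at h2
  omega

/-- The number of monomials of bidegree `(P, l - P)`. -/
def bideg (m l P : ℕ) : ℕ := (m + P).choose m * (m + (l - P)).choose m

lemma card_chg (m l P : ℕ) (hP : P ≤ l) :
    (((univ : Finset (Var m)).finsuppAntidiag l).filter fun d => chg d = 2 * (P : ℤ) - l).card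
      = bideg m l P := by
  classical
  have hc : ∀ j, ((univ : Finset (Fin (m + 1))).finsuppAntidiag j).card = (m + j).choose m := by
    intro j
    rw [Finset.card_finsuppAntidiag_nat_eq_choose, card_univ, Fintype.card_fin,
      show m + 1 + j - 1 = m + j by omega, Nat.choose_symm_add]
  rw [bideg, ← hc P, ← hc (l - P), ← card_product]
  refine card_equiv Finsupp.sumFinsuppEquivProdFinsupp fun d => ?_
  rw [mem_filter, mem_product, mem_finsuppAntidiag, mem_finsuppAntidiag, mem_finsuppAntidiag]
  rw [show univ.sum ⇑(Finsupp.sumFinsuppEquivProdFinsupp d).1 = ∑ a, d (Sum.inl a) from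
      sum_congr rfl fun a _ => Finsupp.fst_sumFinsuppEquivProdFinsupp d a,
    show univ.sum ⇑(Finsupp.sumFinsuppEquivProdFinsupp d).2 = ∑ a, d (Sum.inr a) from
      sum_congr rfl fun a _ => Finsupp.snd_sumFinsuppEquivProdFinsupp d a]
  simp only [subset_univ, and_true, Fintype.sum_sum_type, chg]
  rw [← Nat.cast_sum, ← Nat.cast_sum]
  omega

lemma chg_bound {d : Var m →₀ ℕ} {l : ℕ} (hd : d ∈ (univ : Finset (Var m)).finsuppAntidiag l) :
    ∃ P ≤ l, chg d = 2 * (P : ℤ) - l := by
  refine ⟨∑ a, d (Sum.inl a), ?_⟩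
  have := (mem_finsuppAntidiag.1 hd).1
  rw [Fintype.sum_sum_type] at this
  simp only [chg, ← Nat.cast_sum]
  omega

theorem card_monos (m l : ℕ) (k : ℤ) : (monos m l k).card
    = ∑ P ∈ range (l + 1), if (2 * (P : ℤ) - l) ^ 2 = k ^ 2 then bideg m l P else 0 := by
  classical
  rw [← sum_filter]
  have hmap : ∀ d ∈ monos m l k, ((chg d + l) / 2).toNat
      ∈ (range (l + 1)).filter fun P : ℕ => (2 * (P : ℤ) - l) ^ 2 = k ^ 2 := by
    intro d hd
    obtain ⟨P, hP, hc⟩ := chg_bound (mem_filter.1 hd).1
    have e : ((chg d + l) / 2).toNat = P := by omega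
    rw [e]
    exact mem_filter.2 ⟨mem_range.2 (by omega), hc ▸ (mem_filter.1 hd).2⟩
  rw [card_eq_sum_card_fiberwise hmap]
  refine sum_congr rfl fun P hP => ?_
  obtain ⟨hP1, hP2⟩ := mem_filter.1 hP
  rw [← card_chg m l P (by have := mem_range.1 hP1; omega)]
  congr 1
  ext d
  simp only [monos, mem_filter]
  constructor
  · rintro ⟨⟨hd, -⟩, he⟩
    obtain ⟨P', hP', hc⟩ := chg_bound hd
    exact ⟨hd, by omega⟩
  · rintro ⟨hd, hc⟩
    exact ⟨⟨hd, by rw [hc]; exact hP2⟩, by omega⟩

theorem sum_bideg (m l : ℕ) :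
    ∑ P ∈ range (l + 1), bideg m l P = finrank ℝ (Hom (2 * m + 2) l) := by
  classical
  rw [finrank_Hom (by omega)]
  have hmap : ∀ d ∈ (univ : Finset (Var m)).finsuppAntidiag l,
      ((chg d + l) / 2).toNat ∈ range (l + 1) := by
    intro d hd
    obtain ⟨P, hP, hc⟩ := chg_bound hd
    rw [mem_range]; omega
  have h := card_eq_sum_card_fiberwise hmap
  rw [card_finsuppAntidiag_nat_eq_choose, card_univ, Fintype.card_sum, Fintype.card_fin,
    show m + 1 + (m + 1) = 2 * m + 2 by ring] at h
  rw [h]
  refine sum_congr rfl fun P hP => ?_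
  rw [← card_chg m l P (by have := mem_range.1 hP; omega)]
  congr 1
  ext d
  simp only [mem_filter]
  refine and_congr_right fun hd => ?_
  obtain ⟨P', hP', hc⟩ := chg_bound hd
  omega

end Vale.Agent.P225.Full.Shell
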